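import Vale.Agent.P011.Two.Frames

/-!
Frames of orthogonal vectors over a nonarchimedean local field: an open equivalence relation
invariant under isometries has only one class.
-/

open Module
open Vale.Agent.P011.T2

set_option linter.unusedSectionVars false

namespace Vale.Agent.P011.F3

open Vale.Agent.P011.Two Vale.Agent.P011.Two.Fr

variable {F L W : Type} [Field F] [Field L] [CharZero L] [StarRing L] [Algebra F L]
  [AddCommGroup W] [Module L W]

theorem ne_alg (a : Fˣ) : algebraMap F L a ≠ 0 := (_root_.map_ne_zero _).mpr a.ne_zero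

/-- The orthogonal complement of a frame. -/
def orth (b : HF L W) {r : ℕ} (f : Fin r → W) : Submodule L W :=
  LinearMap.ker (LinearMap.pi fun i => b.lin (f i))

theorem mem_orth (b : HF L W) {r : ℕ} (f : Fin r → W) (x : W) :
    x ∈ orth b f ↔ ∀ i, b.h x (f i) = 0 := by
  rw [orth, LinearMap.mem_ker, funext_iff]
  rfl

theorem mem_orth' (b : HF L W) {r : ℕ} {f : Fin r → W} {x : W} (h : x ∈ orth b f) (i : Fin r) :
    b.h (f i) x = 0 := by
  rw [← b.star_h, (mem_orth b f x).mp h i, star_zero]

theorem orth_nondeg {b : HF L W} (hb : b.Nondeg) {r : ℕ} {α : Fin r → Fˣ} {f : Fin r → W}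
    (hf : IsFrame b α f) : (b.sub (orth b f)).Nondeg := by
  rintro ⟨x, hx⟩ h
  apply Subtype.ext
  apply hb x
  intro z
  have hz : z - ∑ i, (b.h z (f i) / algebraMap F L (α i)) • f i ∈ orth b f := by
    rw [mem_orth]
    intro j
    rw [b.sub_left, b.sum_left, Finset.sum_eq_single j, b.smul_left, hf.1,
      div_mul_cancel₀ _ (ne_alg (α j)), sub_self]
    · intro i _ hij
      rw [b.smul_left, hf.2 i j hij, mul_zero]
    · exact fun hj => absurd (Finset.mem_univ j) hj
  have h1 : b.h x (z - ∑ i, (b.h z (f i) / algebraMap F L (α i)) • f i) = 0 := h ⟨_, hz⟩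
  rw [b.sub_right, b.sum_right] at h1
  rw [← h1, eq_comm, sub_eq_self]
  refine Finset.sum_eq_zero fun i _ => ?_
  rw [b.smul_right, (mem_orth b f x).mp hx i, zero_mul]

theorem orth_rank [FiniteDimensional L W] (b : HF L W) {r : ℕ} (f : Fin r → W) :
    finrank L W ≤ finrank L (orth b f) + r := by
  have h1 := LinearMap.finrank_range_add_finrank_ker (LinearMap.pi fun i => b.lin (f i))
  have h2 : finrank L (LinearMap.range (LinearMap.pi fun i => b.lin (f i))) ≤ r := by
    refine (Submodule.finrank_le _).trans ?_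
    rw [Module.finrank_fin_fun]
  have h3 : finrank L (orth b f) =
    finrank L (LinearMap.ker (LinearMap.pi fun i => b.lin (f i))) := rfl
  omega

/-- Isotropic vectors have hyperbolic partners. -/
theorem exists_partner {b : HF L W} (hb : b.Nondeg) {t : W} (ht : t ≠ 0) (htt : b.h t t = 0) :
    ∃ t', Hp b t t' := by
  obtain ⟨y, hy⟩ : ∃ y, b.h t y ≠ 0 := by
    by_contra hcon
    push Not at hcon
    exact ht (hb t hcon)
  obtain ⟨y', hy'⟩ : ∃ y', y' = (star (b.h t y))⁻¹ • y := ⟨_, rfl⟩
  have h1 : b.h t y' = 1 := by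
    rw [hy', b.smul_right, star_inv₀, star_star, mul_inv_cancel₀ hy]
  have h1' : b.h y' t = 1 := by rw [← b.star_h, h1, star_one]
  refine ⟨y' - (b.h y' y' / 2) • t, htt, ?_, ?_⟩
  · rw [b.sub_left, b.sub_right, b.sub_right, b.smul_left, b.smul_left, b.smul_right,
      b.smul_right, h1, h1', htt, star_div₀, b.star_h, star_ofNat]
    ring
  · rw [b.sub_right, b.smul_right, htt, zero_mul, sub_zero, h1]

/-- The isometry which scales a hyperbolic pair. -/
noncomputable def scl (b : HF L W) (t t' : W) (μ : F) (x : W) : W :=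
  x + ((algebraMap F L μ - 1) * b.h x t') • t + (((algebraMap F L μ)⁻¹ - 1) * b.h x t) • t'

theorem scl_isom {b : HF L W} (hs : ∀ a : F, star (algebraMap F L a) = algebraMap F L a)
    {t t' : W} (h : Hp b t t') {μ : F} (hμ : μ ≠ 0) (x y : W) :
    b.h (scl b t t' μ x) (scl b t t' μ y) = b.h x y := by
  have hμ' : algebraMap F L μ ≠ 0 := (_root_.map_ne_zero _).mpr hμ
  unfold scl
  simp only [b.add_left, b.add_right, b.smul_left, b.smul_right, h.zz, h.zz', h.one, h.one',
    star_mul', star_sub, star_one, star_inv₀, hs, b.star_h]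
  have h1 : algebraMap F L μ * (algebraMap F L μ)⁻¹ = 1 := mul_inv_cancel₀ hμ'
  linear_combination (b.h x t' * b.h t y + b.h x t * b.h t' y) * h1

theorem scl_t {b : HF L W} {t t' : W} (h : Hp b t t') (μ : F) {x : W} (h1 : b.h x t = 0)
    (h2 : b.h x t' = 0) (l : F) : scl b t t' μ (x + algebraMap F L l • t) =
      x + algebraMap F L (μ * l) • t := by
  unfold scl
  rw [b.add_left, b.add_left, b.smul_left, b.smul_left, h.zz, h.one, h1, h2, mul_zero, add_zero,
    mul_zero, zero_smul, add_zero, zero_add, mul_one, add_assoc, ← add_smul, map_mul]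
  congr 2
  ring

theorem scl_fix {b : HF L W} {t t' : W} (μ : F) {x : W} (h1 : b.h x t = 0)
    (h2 : b.h x t' = 0) : scl b t t' μ x = x := by
  unfold scl
  rw [h1, h2, mul_zero, mul_zero, zero_smul, zero_smul, add_zero, add_zero]

/-- vectors of given length orthogonal to a given vector -/
theorem exists_len_orth {d : F} (hQ : QuadL F L d) (hU : Univ2 F L) [FiniteDimensional L W]
    {b : HF L W} (hb : b.Nondeg) (hW : 4 ≤ finrank L W) (a : Fˣ) (q : W) :
    ∃ e, b.h e e = algebraMap F L a ∧ b.h e q = 0 := by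
  by_cases hq : q = 0
  · obtain ⟨e, he⟩ := Fr.exists_len hQ hU b hb (by omega) a
    exact ⟨e, he, by rw [hq, b.zero_right]⟩
  by_cases hqq : b.h q q = 0
  · obtain ⟨q', hp⟩ := exists_partner hb hq hqq
    obtain ⟨x, hx⟩ : ∃ x, x = q + q' := ⟨_, rfl⟩
    obtain ⟨y, hy⟩ : ∃ y, y = q - q' := ⟨_, rfl⟩
    have hxx : b.h x x ≠ 0 := by
      rw [hx, b.add_left, b.add_right, b.add_right, hp.zz, hp.zz', hp.one, hp.one']
      norm_num
    obtain ⟨h1, h2⟩ := compl b hb hxx
    have hyx : b.h y x = 0 := by
      rw [hx, hy, b.sub_left, b.add_right, b.add_right, hp.zz, hp.zz', hp.one, hp.one']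
      ring
    have hyy : b.h y y ≠ 0 := by
      rw [hy, b.sub_left, b.sub_right, b.sub_right, hp.zz, hp.zz', hp.one, hp.one']
      norm_num
    obtain ⟨h3, h4⟩ := compl (b.sub (LinearMap.ker (b.lin x))) h1
      (x := ⟨y, LinearMap.mem_ker.mpr hyx⟩) hyy
    obtain ⟨⟨⟨e, he⟩, he'⟩, hee⟩ := Fr.exists_len hQ hU _ h3 (by omega) a
    have hex : b.h e x = 0 := LinearMap.mem_ker.mp he
    have hey : b.h e y = 0 := LinearMap.mem_ker.mp he'
    refine ⟨e, hee, ?_⟩
    rw [hx, b.add_right] at hex
    rw [hy, b.sub_right] at hey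
    have h5 : 2 * b.h e q = 0 := by linear_combination hex + hey
    exact (mul_eq_zero.mp h5).resolve_left two_ne_zero
  · obtain ⟨h1, h2⟩ := compl b hb hqq
    obtain ⟨⟨e, he⟩, hee⟩ := Fr.exists_len hQ hU _ h1 (by omega) a
    exact ⟨e, hee, LinearMap.mem_ker.mp he⟩

/-- replacing one vector of a frame -/
theorem frame_update {b : HF L W} {r : ℕ} {α : Fin r → Fˣ} {f : Fin r → W}
    (hf : IsFrame b α f) {j : Fin r} {e : W} (he : b.h e e = algebraMap F L (α j))
    (h : ∀ i, i ≠ j → b.h e (f i) = 0) : IsFrame b α (Function.update f j e) := by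
  have h' : ∀ i, i ≠ j → b.h (f i) e = 0 := fun i hi => by rw [← b.star_h, h i hi, star_zero]
  constructor
  · intro i
    by_cases hi : i = j
    · subst hi
      rw [Function.update_self, he]
    · rw [Function.update_of_ne hi, hf.1]
  · intro i i' hii
    by_cases hi : i = j
    · subst hi
      rw [Function.update_self, Function.update_of_ne (Ne.symm hii)]
      exact h i' (Ne.symm hii)
    · by_cases hi' : i' = j
      · subst hi'
        rw [Function.update_self, Function.update_of_ne hi]
        exact h' i hi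
      · rw [Function.update_of_ne hi, Function.update_of_ne hi']
        exact hf.2 i i' hii

section chain

variable [FiniteDimensional L W] {d : F} {b : HF L W} {r : ℕ} {α : Fin r → Fˣ}
  {Lk : (Fin r → W) → (Fin r → W) → Prop}

/-- adding isotropic vectors -/
theorem add_iso (hs : ∀ a : F, star (algebraMap F L a) = algebraMap F L a) (hb : b.Nondeg)
    (hinv : ∀ g : W → W, (∀ x y, b.h (g x) (g y) = b.h x y) → ∀ f f', Lk f f' →
      Lk (fun i => g (f i)) (fun i => g (f' i)))
    (hopen : ∀ f, IsFrame b α f → ∀ (j : Fin r) (t : W), b.h t t = 0 → t ∈ orth b f →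
      ∃ l : F, l ≠ 0 ∧ Lk f (Function.update f j (f j + algebraMap F L l • t)))
    {f : Fin r → W} (hf : IsFrame b α f) (j : Fin r) {t : W} (htt : b.h t t = 0)
    (ht : t ∈ orth b f) : Lk f (Function.update f j (f j + t)) := by
  obtain ⟨l, hl, hlk⟩ := hopen f hf j t htt ht
  by_cases h0 : t = 0
  · rw [h0, smul_zero] at hlk
    rwa [h0]
  obtain ⟨⟨t', ht'⟩, hp'⟩ := exists_partner (orth_nondeg hb hf) (t := ⟨t, ht⟩)
    (fun h => h0 (congrArg Subtype.val h)) htt
  have hp : Hp b t t' := ⟨hp'.zz, hp'.zz', hp'.one⟩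
  have h1 := hinv (scl b t t' l⁻¹) (scl_isom hs hp (inv_ne_zero hl)) _ _ hlk
  have hfix : ∀ i, scl b t t' l⁻¹ (f i) = f i := fun i =>
    scl_fix l⁻¹ (mem_orth' b ht i) (mem_orth' b ht' i)
  have h2 : (fun i => scl b t t' l⁻¹ (Function.update f j (f j + algebraMap F L l • t) i)) =
      Function.update f j (f j + t) := by
    funext i
    by_cases hi : i = j
    · subst hi
      rw [Function.update_self, Function.update_self, scl_t hp _ (mem_orth' b ht i)
        (mem_orth' b ht' i), inv_mul_cancel₀ hl, map_one, one_smul]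
    · rw [Function.update_of_ne hi, Function.update_of_ne hi, hfix]
  have h3 : (fun i => scl b t t' l⁻¹ (f i)) = f := funext hfix
  rwa [h2, h3] at h1

/-- replacing a vector by an orthogonal one -/
theorem move_orth (hQ : QuadL F L d) (hU : Univ2 F L) (hb : b.Nondeg)
    (hW : r + 3 ≤ finrank L W)
    (hsymm : ∀ f f', Lk f f' → Lk f' f) (htrans : ∀ f f' f'', Lk f f' → Lk f' f'' → Lk f f'')
    (hiso : ∀ f, IsFrame b α f → ∀ (j : Fin r) (t : W), b.h t t = 0 → t ∈ orth b f →
      Lk f (Function.update f j (f j + t)))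
    {f : Fin r → W} (hf : IsFrame b α f) (j : Fin r) {e : W}
    (he : b.h e e = algebraMap F L (α j)) (heo : e ∈ orth b f) :
    Lk f (Function.update f j e) := by
  have hdim := orth_rank b f
  obtain ⟨h1, h2⟩ := compl (b.sub (orth b f)) (orth_nondeg hb hf) (x := ⟨e, heo⟩)
    (show b.h e e ≠ 0 by rw [he]; exact ne_alg _)
  obtain ⟨⟨⟨w, hw⟩, hw'⟩, hww⟩ := Fr.exists_len hQ hU _ h1 (by omega) (-(α j))
  have hwe : b.h w e = 0 := LinearMap.mem_ker.mp hw'
  have hew : b.h e w = 0 := by rw [← b.star_h, hwe, star_zero]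
  have hww' : b.h w w = -algebraMap F L (α j) := by
    have : b.h w w = algebraMap F L ((-(α j) : Fˣ) : F) := hww
    rw [this, Units.val_neg, map_neg]
  have hfe : b.h (f j) e = 0 := mem_orth' b heo j
  have hef : b.h e (f j) = 0 := (mem_orth b f e).mp heo j
  have hfw : b.h (f j) w = 0 := mem_orth' b hw j
  have hwf : b.h w (f j) = 0 := (mem_orth b f w).mp hw j
  have hfr : IsFrame b α (Function.update f j e) :=
    frame_update hf he fun i _ => (mem_orth b f e).mp heo i
  -- the first move
  have m1 := hiso f hf j (e + w) (by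
    rw [b.add_left, b.add_right, b.add_right, he, hww', hwe, hew]
    ring) (Submodule.add_mem _ heo hw)
  -- the second move
  have m2 := hiso _ hfr j (f j + w) (by
    rw [b.add_left, b.add_right, b.add_right, hf.1, hww', hfw, hwf]
    ring) (by
    rw [mem_orth]
    intro i
    rw [b.add_left]
    by_cases hi : i = j
    · subst hi
      rw [Function.update_self, hfe, hwe, add_zero]
    · rw [Function.update_of_ne hi, hf.2 j i (Ne.symm hi), (mem_orth b f w).mp hw i, add_zero])
  rw [Function.update_self, Function.update_idem] at m2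
  have h3 : f j + (e + w) = e + (f j + w) := by abel
  rw [h3] at m1
  exact htrans _ _ _ m1 (hsymm _ _ m2)

/-- **All frames are equivalent.** -/
theorem chain_fin (hQ : QuadL F L d) (hU : Univ2 F L) (hSq : SqNear F) (hb : b.Nondeg)
    (hW : r + 4 ≤ finrank L W)
    (hsymm : ∀ f f', Lk f f' → Lk f' f) (htrans : ∀ f f' f'', Lk f f' → Lk f' f'' → Lk f f'')
    (hrefl : ∀ f, IsFrame b α f → Lk f f)
    (hinv : ∀ g : W → W, (∀ x y, b.h (g x) (g y) = b.h x y) → ∀ f f', Lk f f' →
      Lk (fun i => g (f i)) (fun i => g (f' i)))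
    (hopen : ∀ f, IsFrame b α f → ∀ (j : Fin r) (t : W), b.h t t = 0 → t ∈ orth b f →
      ∃ l : F, l ≠ 0 ∧ Lk f (Function.update f j (f j + algebraMap F L l • t)))
    {f f' : Fin r → W} (hf : IsFrame b α f) (hf' : IsFrame b α f') : Lk f f' := by
  have hiso := fun (f : Fin r → W) (hf : IsFrame b α f) (j : Fin r) (t : W)
    (htt : b.h t t = 0) (ht : t ∈ orth b f) => add_iso (α := α) hQ.fix' hb hinv hopen hf j htt ht
  have hstep : ∀ f f' : Fin r → W, IsFrame b α f → IsFrame b α f' → ∀ j,
      (∀ i, i ≠ j → f' i = f i) → Lk f f' := by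
    intro f f' hf hf' j hj
    have hdim := orth_rank b f
    obtain ⟨q, hq⟩ : ∃ q, q = f' j - (b.h (f' j) (f j) / algebraMap F L (α j)) • f j := ⟨_, rfl⟩
    have hqo : q ∈ orth b f := by
      rw [mem_orth]
      intro i
      rw [hq, b.sub_left, b.smul_left]
      by_cases hi : i = j
      · subst hi
        rw [hf.1, div_mul_cancel₀ _ (ne_alg _), sub_self]
      · rw [hf.2 j i (Ne.symm hi), mul_zero, sub_zero, ← hj i hi, hf'.2 j i (Ne.symm hi)]
    obtain ⟨⟨e, he⟩, hee, heq⟩ := exists_len_orth hQ hU (orth_nondeg hb hf) (by omega) (α j)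
      ⟨q, hqo⟩
    have heq' : b.h e q = 0 := heq
    have hef : ∀ i, b.h e (f i) = 0 := (mem_orth b f e).mp he
    have hef' : b.h e (f' j) = 0 := by
      have h1 : f' j = q + (b.h (f' j) (f j) / algebraMap F L (α j)) • f j := by
        rw [hq, sub_add_cancel]
      rw [h1, b.add_right, b.smul_right, heq', hef j, zero_mul, add_zero]
    have heo' : e ∈ orth b f' := by
      rw [mem_orth]
      intro i
      by_cases hi : i = j
      · subst hi
        exact hef'
      · rw [hj i hi]
        exact hef i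
    have m1 := move_orth hQ hU hb (by omega) hsymm htrans hiso hf j hee he
    have m2 := move_orth hQ hU hb (by omega) hsymm htrans hiso hf' j hee heo'
    have h2 : Function.update f' j e = Function.update f j e := by
      funext i
      by_cases hi : i = j
      · subst hi
        rw [Function.update_self, Function.update_self]
      · rw [Function.update_of_ne hi, Function.update_of_ne hi, hj i hi]
    rw [h2] at m2
    exact htrans _ _ _ m1 (hsymm _ _ m2)
  have hc := chain_frames hQ hU hSq W b hb (by omega) α f f' hf hf'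
  induction hc with
  | refl => exact hrefl f hf
  | tail _ h ih =>
    obtain ⟨j, -, -, hj, -⟩ := h.move
    exact htrans _ _ _ (ih h.frame) (hstep _ _ h.frame h.frame' j hj)

end chain

end Vale.Agent.P011.F3
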