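import Vale.Agent.P011.Two.FrameDefs

/-!
Frames in a complex hermitian space: two frames of the same lengths are connected by continuous
families of quasi-reflections.
-/

open Module Filter Topology
open Vale.Agent.P011.T2

namespace Vale.Agent.P011.F3

open Vale.Agent.P011.Two (IsFrame)

section refl

variable {L W : Type} [Field L] [StarRing L] [AddCommGroup W] [Module L W]

/-- The quasi-reflection with vector `u` and parameter `c = κ⁻¹`. -/
def qrf (b : HF L W) (u : W) (c : L) (x : W) : W := x + (-(b.h x u * c)) • u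

theorem qrf_h (b : HF L W) {u : W} {c : L} (hc : c + star c = c * b.h u u * star c) (x y : W) :
    b.h (qrf b u c x) (qrf b u c y) = b.h x y := by
  have h1 : star (b.h y u) = b.h u y := b.star_h y u
  simp only [qrf, b.add_left, b.add_right, b.smul_left, b.smul_right, star_neg, star_mul', h1]
  linear_combination (b.h x u * b.h u y) * (-hc)

theorem qrf_of_orth (b : HF L W) {u : W} (c : L) {x : W} (h : b.h x u = 0) :
    qrf b u c x = x := by
  rw [qrf, h, zero_mul, neg_zero, zero_smul, add_zero]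

theorem qrf_zero (b : HF L W) (u x : W) : qrf b u 0 x = x := by
  rw [qrf, mul_zero, neg_zero, zero_smul, add_zero]

end refl

section real

variable {W : Type} [AddCommGroup W] [Module ℂ W]

/-- The path of parameters. -/
noncomputable def cpath (κ : ℂ) (ε t : ℝ) : ℂ :=
  (t : ℂ) * ((t : ℂ) * κ + ((ε * (1 - t) : ℝ) : ℂ) * Complex.I)⁻¹

theorem cden_ne {κ : ℂ} (hκ : κ ≠ 0) {ε : ℝ} (hε : (0 ≤ κ.im ∧ ε = 1) ∨ (κ.im < 0 ∧ ε = -1))
    {t : ℝ} (h0 : 0 ≤ t) (h1 : t ≤ 1) :
    (t : ℂ) * κ + ((ε * (1 - t) : ℝ) : ℂ) * Complex.I ≠ 0 := by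
  intro h
  have him := congrArg Complex.im h
  have hre := congrArg Complex.re h
  simp only [Complex.add_im, Complex.mul_im, Complex.ofReal_re, Complex.ofReal_im, Complex.I_re,
    Complex.I_im, Complex.zero_im, mul_one, mul_zero, zero_mul, add_zero,
    Complex.add_re, Complex.mul_re, Complex.zero_re, sub_zero] at him hre
  rcases hε with ⟨h2, rfl⟩ | ⟨h2, rfl⟩
  · have h3 : t = 1 := by nlinarith [mul_nonneg h0 h2]
    rw [h3] at him hre
    apply hκ
    apply Complex.ext
    · simpa using hre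
    · simpa using him
  · have h3 : t * κ.im ≤ 0 := by nlinarith
    have h4 : t = 1 := by nlinarith
    rw [h4] at him
    linarith

theorem cpath_rel {κ : ℂ} (hκ : κ ≠ 0) {ε : ℝ}
    (hε : (0 ≤ κ.im ∧ ε = 1) ∨ (κ.im < 0 ∧ ε = -1)) {t : ℝ} (h0 : 0 ≤ t) (h1 : t ≤ 1) :
    cpath κ ε t + star (cpath κ ε t) = cpath κ ε t * (κ + star κ) * star (cpath κ ε t) := by
  obtain ⟨D, hD⟩ : ∃ D : ℂ, D = (t : ℂ) * κ + ((ε * (1 - t) : ℝ) : ℂ) * Complex.I := ⟨_, rfl⟩
  have hD0 : D ≠ 0 := hD ▸ cden_ne hκ hε h0 h1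
  have hD' : star D ≠ 0 := star_ne_zero.mpr hD0
  have hs : star D = (t : ℂ) * star κ - ((ε * (1 - t) : ℝ) : ℂ) * Complex.I := by
    rw [hD]
    simp only [star_add, star_mul', Complex.star_def, Complex.conj_ofReal, Complex.conj_I]
    ring
  have hc : cpath κ ε t = (t : ℂ) * D⁻¹ := by rw [cpath, hD]
  have hcs : star (cpath κ ε t) = (t : ℂ) * (star D)⁻¹ := by
    rw [hc, star_mul', star_inv₀, Complex.star_def, Complex.conj_ofReal]
  rw [hcs, hc]
  field_simp
  rw [hs, hD]
  ring

theorem cpath_zero (κ : ℂ) (ε : ℝ) : cpath κ ε 0 = 0 := by simp [cpath]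

theorem cpath_one (κ : ℂ) (ε : ℝ) : cpath κ ε 1 = κ⁻¹ := by simp [cpath]

theorem cpath_cont {κ : ℂ} (hκ : κ ≠ 0) {ε : ℝ}
    (hε : (0 ≤ κ.im ∧ ε = 1) ∨ (κ.im < 0 ∧ ε = -1)) :
    ContinuousOn (cpath κ ε) (Set.Icc 0 1) := by
  have h1 : Continuous fun t : ℝ => (t : ℂ) := Complex.continuous_ofReal
  have h2 : Continuous fun t : ℝ => (t : ℂ) * κ + ((ε * (1 - t) : ℝ) : ℂ) * Complex.I :=
    (h1.mul continuous_const).add ((Complex.continuous_ofReal.comp (by fun_prop)).mul
      continuous_const)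
  exact h1.continuousOn.mul (h2.continuousOn.inv₀ fun t ht => cden_ne hκ hε ht.1 ht.2)

variable [TopologicalSpace W] [ContinuousAdd W] [ContinuousSMul ℂ W] {b : HF ℂ W} {r : ℕ}
  {α : Fin r → ℝˣ} {Lk : (Fin r → W) → (Fin r → W) → Prop}

omit [TopologicalSpace W] [ContinuousAdd W] [ContinuousSMul ℂ W] in
theorem frame_qrf {f : Fin r → W} (hf : IsFrame b α f) {u : W} {c : ℂ}
    (hc : c + star c = c * b.h u u * star c) : IsFrame b α fun i => qrf b u c (f i) :=
  ⟨fun i => by rw [qrf_h b hc]; exact hf.1 i, fun i j hij => by rw [qrf_h b hc]; exact hf.2 i j hij⟩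

/-- A quasi-reflection does not change the class. -/
theorem link_qrf (hsymm : ∀ f f', Lk f f' → Lk f' f)
    (htrans : ∀ f f' f'', Lk f f' → Lk f' f'' → Lk f f'')
    (hopen : ∀ f, IsFrame b α f → ∀ᶠ f' in 𝓝 f, IsFrame b α f' → Lk f f')
    {f : Fin r → W} (hf : IsFrame b α f) {u : W} {κ : ℂ} (hκ : κ ≠ 0)
    (hu : κ + star κ = b.h u u) : Lk f fun i => qrf b u κ⁻¹ (f i) := by
  obtain ⟨ε, hε⟩ : ∃ ε : ℝ, (0 ≤ κ.im ∧ ε = 1) ∨ (κ.im < 0 ∧ ε = -1) := by
    rcases le_or_gt 0 κ.im with h | h
    · exact ⟨1, Or.inl ⟨h, rfl⟩⟩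
    · exact ⟨-1, Or.inr ⟨h, rfl⟩⟩
  let F : ℝ → Fin r → W := fun t i => qrf b u (cpath κ ε t) (f i)
  have hF : ∀ t ∈ Set.Icc (0 : ℝ) 1, IsFrame b α (F t) := fun t ht =>
    frame_qrf hf (by rw [← hu]; exact cpath_rel hκ hε ht.1 ht.2)
  have hcont : ContinuousOn F (Set.Icc 0 1) := by
    refine continuousOn_pi.mpr fun i => ?_
    refine continuousOn_const.add (ContinuousOn.smul ?_ continuousOn_const)
    exact (continuousOn_const.mul (cpath_cont hκ hε)).neg
  have key := (isPreconnected_Icc (a := (0 : ℝ)) (b := 1)).induction₂ (fun t t' => Lk (F t) (F t'))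
    (fun t ht => by
      have h1 := (hcont t ht).eventually (hopen (F t) (hF t ht))
      filter_upwards [h1, self_mem_nhdsWithin] with t' h2 h3
      exact h2 (hF t' h3))
    (fun x y z _ _ _ => htrans _ _ _) (fun x y _ _ => hsymm _ _)
    (show (0 : ℝ) ∈ Set.Icc (0 : ℝ) 1 by simp) (show (1 : ℝ) ∈ Set.Icc (0 : ℝ) 1 by simp)
  have h0 : F 0 = f := by
    funext i
    change qrf b u (cpath κ ε 0) (f i) = f i
    rw [cpath_zero, qrf_zero]
  have h1 : F 1 = fun i => qrf b u κ⁻¹ (f i) := by
    funext i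
    change qrf b u (cpath κ ε 1) (f i) = _
    rw [cpath_one]
  rw [h0, h1] at key
  exact key

/-- Moving one vector of a frame. -/
theorem link_move (hsymm : ∀ f f', Lk f f' → Lk f' f)
    (htrans : ∀ f f' f'', Lk f f' → Lk f' f'' → Lk f f'')
    (hopen : ∀ f, IsFrame b α f → ∀ᶠ f' in 𝓝 f, IsFrame b α f' → Lk f f')
    {f : Fin r → W} (hf : IsFrame b α f) (j : Fin r) {e : W}
    (he : b.h e e = b.h (f j) (f j)) (hne : b.h (f j) (f j - e) ≠ 0)
    (ho : ∀ i, i < j → b.h (f i) e = 0) :
    ∃ f', IsFrame b α f' ∧ Lk f f' ∧ f' j = e ∧ ∀ i, i < j → f' i = f i := by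
  have hst : star (b.h (f j) (f j)) = b.h (f j) (f j) := b.star_h _ _
  have hu : b.h (f j) (f j - e) + star (b.h (f j) (f j - e)) = b.h (f j - e) (f j - e) := by
    rw [b.star_h]
    simp only [b.sub_left, b.sub_right, he]
    ring
  refine ⟨fun i => qrf b (f j - e) (b.h (f j) (f j - e))⁻¹ (f i), ?_,
    link_qrf hsymm htrans hopen hf hne hu, ?_, fun i hi => ?_⟩
  · refine frame_qrf hf ?_
    rw [← hu]
    have h1 : star (b.h (f j) (f j - e)) ≠ 0 := star_ne_zero.mpr hne
    rw [star_inv₀]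
    field_simp
    ring
  · change f j + (-(b.h (f j) (f j - e) * (b.h (f j) (f j - e))⁻¹)) • (f j - e) = e
    rw [mul_inv_cancel₀ hne, neg_smul, one_smul]
    abel
  · refine qrf_of_orth b _ ?_
    rw [b.sub_right, ho i hi, hf.2 i j hi.ne, sub_zero]

/-- **Two frames of the same lengths are connected.** -/
theorem chain_real (hsymm : ∀ f f', Lk f f' → Lk f' f)
    (htrans : ∀ f f' f'', Lk f f' → Lk f' f'' → Lk f f'')
    (hopen : ∀ f, IsFrame b α f → ∀ᶠ f' in 𝓝 f, IsFrame b α f' → Lk f f')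
    (f f' : Fin r → W) (hf : IsFrame b α f) (hf' : IsFrame b α f') : Lk f f' := by
  have key : ∀ m : ℕ, ∀ f f' : Fin r → W, IsFrame b α f → IsFrame b α f' →
      (∀ i : Fin r, (i : ℕ) + m < r → f i = f' i) → Lk f f' := by
    intro m
    induction m with
    | zero =>
      intro f f' hf hf' h
      have h1 : f' = f := funext fun i => (h i i.2).symm
      rw [h1]
      exact (hopen f hf).self_of_nhds hf
    | succ m ih =>
      intro f f' hf hf' h
      by_cases hm : m < r
      · obtain ⟨j, hj⟩ : ∃ j : Fin r, (j : ℕ) + m + 1 = r := ⟨⟨r - m - 1, by omega⟩, by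
          change r - m - 1 + m + 1 = r
          omega⟩
        have hlt : ∀ i, i < j → f i = f' i := fun i hi => h i (by
          have : (i : ℕ) < j := hi
          omega)
        have hfin : ∀ g : Fin r → W, IsFrame b α g → Lk f g → g j = f' j →
            (∀ i, i < j → g i = f i) → Lk f f' := by
          intro g hg hfg hgj hgi
          refine htrans _ _ _ hfg (ih g f' hg hf' fun i hi => ?_)
          rcases lt_trichotomy i j with h1 | h1 | h1
          · rw [hgi i h1, hlt i h1]
          · rw [h1, hgj]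
          · exfalso
            have : (j : ℕ) < i := h1
            omega
        have hee : b.h (f' j) (f' j) = b.h (f j) (f j) := by rw [hf.1, hf'.1]
        have ho : ∀ i, i < j → b.h (f i) (f' j) = 0 := fun i hi => by
          rw [hlt i hi]
          exact hf'.2 i j hi.ne
        by_cases hne : b.h (f j) (f j - f' j) = 0
        · -- first change the sign
          have ha : b.h (f j) (f j) ≠ 0 := by
            rw [hf.1]
            exact (_root_.map_ne_zero _).mpr (α j).ne_zero
          obtain ⟨g, hg, hfg, hgj, hgi⟩ := link_move hsymm htrans hopen hf j (e := -f j)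
            (by rw [b.neg_left, b.neg_right, neg_neg]) (by
              rw [sub_neg_eq_add, b.add_right, ← two_mul]
              exact mul_ne_zero two_ne_zero ha) (fun i hi => by
              rw [b.neg_right, hf.2 i j hi.ne, neg_zero])
          obtain ⟨g', hg', hgg', hgj', hgi'⟩ := link_move hsymm htrans hopen hg j (e := f' j)
            (by rw [hgj, b.neg_left, b.neg_right, neg_neg, hee]) (by
              rw [hgj, b.sub_right, b.neg_left, b.neg_left, b.neg_right, neg_neg]
              rw [b.sub_right, sub_eq_zero] at hne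
              rw [← hne, sub_neg_eq_add, ← two_mul]
              exact mul_ne_zero two_ne_zero ha) (fun i hi => by
              rw [hgi i hi]
              exact ho i hi)
          exact hfin g' hg' (htrans _ _ _ hfg hgg') hgj' fun i hi => by
            rw [hgi' i hi, hgi i hi]
        · obtain ⟨g, hg, hfg, hgj, hgi⟩ := link_move hsymm htrans hopen hf j hee hne ho
          exact hfin g hg hfg hgj hgi
      · exact ih f f' hf hf' fun i hi => absurd hi (by omega)
  exact key r f f' hf hf' fun i hi => absurd hi (by omega)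

end real

end Vale.Agent.P011.F3
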