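import Vale.Agent.P011.F3.Signs
import Vale.Agent.P011.Two2.StepA

/-!
Polynomials with given signs at the eigenvalues of a symmetric element.
-/

open Module Matrix Polynomial NumberField
open scoped ComplexOrder

set_option linter.unusedSectionVars false

namespace Vale.Agent.P011.F3

open Vale.Agent.P011S Vale.Agent.P011.RP Vale.Agent.P011.Three Vale.Agent.P011.Even
open Vale.Agent.P011.Two2 Vale.Agent.P011.Arith

variable {k K D : Type} [Field k] [NumberField k] [Field K] [NumberField K] [StarRing K]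
    [DivisionRing D] [StarRing D] [Algebra k K] [Algebra k D] [Algebra K D] [IsScalarTower k K D]
    {d : kˣ} {s : K} {n : ℕ}

/-- The spectral decomposition with the roots of the minimal polynomial. -/
theorem exists_spec_roots (hS : Setting k K D d s) (hn : 0 < n) (hdeg : finrank K D = n ^ 2)
    (R : RData K D n) {φ : k →+* ℝ} (hφ : ∀ a, R.s (algebraMap k K a) = ((φ a : ℝ) : ℂ))
    (hA : R.A.PosDef) {x : D} (hx : star x = x)
    (hli : LinearIndependent k (fun i : Fin n => x ^ (i : ℕ))) {ρ : Fin n → ℝ}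
    (hρi : Function.Injective ρ) (hρ : (minpoly k x).map φ = ∏ i, (X - C (ρ i))) :
    ∃ V : Matrix (Fin n) (Fin n) ℂ, IsUnit V ∧
      ∀ q : k[X], R.f (aeval x q) * R.A = V * rdiag (fun i => (q.map φ).eval (ρ i)) * Vᴴ := by
  classical
  have hm : (R.f (1 : D) * R.A).PosDef := by rwa [map_one, one_mul]
  obtain ⟨V, lam, hV, hmV, hrV, hq⟩ := exists_spec R hφ one_ne_zero hm hx
  simp only [inv_one, one_mul, map_one] at hq hmV
  -- the characteristic polynomial
  have hcp := charpoly_real hS hn hdeg R hφ (one_ne_zero (α := D))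
    (by rw [inv_one, one_mul, mul_one, hx]) hli
  obtain ⟨W, hW1, hW2⟩ : ∃ W : Matrix (Fin n) (Fin n) ℂ, W * V = 1 ∧ V * W = 1 := by
    obtain ⟨U, rfl⟩ := hV
    exact ⟨_, U.inv_mul, U.mul_inv⟩
  have hVh : Vᴴ * Wᴴ = 1 := by rw [← conjTranspose_mul, hW1, conjTranspose_one]
  have hWh : Wᴴ * Vᴴ = 1 := by rw [← conjTranspose_mul, hW2, conjTranspose_one]
  have h1 : R.f x * R.A = V * rdiag lam * Vᴴ := by
    have := hq X
    simpa using this
  have h2 : R.f x * V = V * rdiag lam := by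
    calc R.f x * V = R.f x * (V * Vᴴ) * Wᴴ := by
          rw [mul_assoc, mul_assoc, hVh, mul_one]
      _ = V * rdiag lam * (Vᴴ * Wᴴ) := by rw [← hmV, h1]; simp only [mul_assoc]
      _ = _ := by rw [hVh, mul_one]
  have h3 : R.f x = V * rdiag lam * W := by
    rw [← h2, mul_assoc, hW2, mul_one]
  have h4 : (R.f x).charpoly = ∏ i, (X - C ((lam i : ℝ) : ℂ)) := by
    have h5 : (R.f x).charpoly = (rdiag lam).charpoly := by
      obtain ⟨U, rfl⟩ := hV
      have hWU : W = ((U⁻¹ : (Matrix (Fin n) (Fin n) ℂ)ˣ) : Matrix (Fin n) (Fin n) ℂ) := by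
        calc W = W * ((U : Matrix (Fin n) (Fin n) ℂ) *
            ((U⁻¹ : (Matrix (Fin n) (Fin n) ℂ)ˣ) : Matrix (Fin n) (Fin n) ℂ)) := by
              rw [U.mul_inv, mul_one]
          _ = _ := by rw [← mul_assoc, hW1, one_mul]
      rw [h3, hWU, Matrix.coe_units_inv]
      exact Matrix.charpoly_units_conj U (rdiag lam)
    rw [h5, rdiag, Matrix.charpoly_diagonal]
  have h5 : (∏ i, (X - C (lam i)) : ℝ[X]) = ∏ i, (X - C (ρ i)) := by
    apply Polynomial.map_injective (algebraMap ℝ ℂ) (algebraMap ℝ ℂ).injective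
    rw [← hρ, ← hcp, h4, Polynomial.map_prod]
    refine Finset.prod_congr rfl fun i _ => ?_
    rw [Polynomial.map_sub, Polynomial.map_X, Polynomial.map_C]
    rfl
  have hlam : Function.Injective lam := by
    have h6 : (∏ i, (X - C (ρ i)) : ℝ[X]).Separable :=
      Polynomial.separable_prod_X_sub_C_iff.mpr hρi
    rw [← h5] at h6
    exact Polynomial.separable_prod_X_sub_C_iff.mp h6
  have hset : ∀ i, ∃ j, lam j = ρ i := by
    intro i
    have h7 : (∏ i, (X - C (ρ i)) : ℝ[X]).eval (ρ i) = 0 := by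
      rw [eval_prod]
      exact Finset.prod_eq_zero (Finset.mem_univ i) (by simp)
    rw [← h5, eval_prod, Finset.prod_eq_zero_iff] at h7
    obtain ⟨j, -, hj⟩ := h7
    rw [eval_sub, eval_X, eval_C] at hj
    exact ⟨j, (sub_eq_zero.mp hj).symm⟩
  choose σ hσ using hset
  have hσi : Function.Injective σ := fun i j hij => hρi (by rw [← hσ i, ← hσ j, hij])
  have hσb : Function.Bijective σ := Finite.injective_iff_bijective.mp hσi
  obtain ⟨e, he⟩ : ∃ e : Equiv.Perm (Fin n), ∀ i, e i = σ i :=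
    ⟨Equiv.ofBijective σ hσb, fun i => rfl⟩
  -- permute the columns
  obtain ⟨P, hP⟩ : ∃ P : Matrix (Fin n) (Fin n) ℂ, P = (1 : Matrix (Fin n) (Fin n) ℂ).submatrix id e :=
    ⟨_, rfl⟩
  have hPP : P * Pᴴ = 1 := by
    rw [hP, Matrix.conjTranspose_submatrix, Matrix.conjTranspose_one,
      ← Matrix.submatrix_mul _ _ _ _ _ e.bijective, one_mul]
    exact Matrix.submatrix_id_id 1
  have hPP' : Pᴴ * P = 1 := by
    rw [hP, Matrix.conjTranspose_submatrix, Matrix.conjTranspose_one,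
      ← Matrix.submatrix_mul _ _ _ _ _ Function.bijective_id, one_mul]
    ext a b
    simp [Matrix.one_apply]
  have hconj : ∀ g : Fin n → ℝ, P * rdiag (fun i => g (e i)) * Pᴴ = rdiag g := by
    intro g
    have h8 : P * rdiag (fun i => g (e i)) = rdiag g * P := by
      rw [hP, rdiag, rdiag]
      ext a b
      simp only [Matrix.mul_diagonal, Matrix.diagonal_mul, Matrix.submatrix_apply, id_eq,
        Matrix.one_apply]
      by_cases hab : a = e b
      · rw [if_pos hab, hab, one_mul, mul_one]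
      · rw [if_neg hab, zero_mul, mul_zero]
    rw [h8, mul_assoc, hPP, mul_one]
  refine ⟨V * P, hV.mul ⟨⟨P, Pᴴ, hPP, hPP'⟩, rfl⟩, fun q => ?_⟩
  have h9 : (fun i => (q.map φ).eval (ρ i)) = fun i => (fun j => (q.map φ).eval (lam j)) (e i) := by
    funext i
    change _ = (q.map φ).eval (lam (e i))
    rw [he, hσ]
  rw [hq, ← hconj fun j => (q.map φ).eval (lam j), ← h9, conjTranspose_mul]
  simp only [mul_assoc]

/-- The signature of the value of a polynomial. -/
theorem hasSig_aeval (hS : Setting k K D d s) (hn : 0 < n) (hdeg : finrank K D = n ^ 2)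
    (R : RData K D n) {φ : k →+* ℝ} (hφ : ∀ a, R.s (algebraMap k K a) = ((φ a : ℝ) : ℂ))
    (hA : R.A.PosDef) {x : D} (hx : star x = x)
    (hli : LinearIndependent k (fun i : Fin n => x ^ (i : ℕ))) {ρ : Fin n → ℝ}
    (hρi : Function.Injective ρ) (hρ : (minpoly k x).map φ = ∏ i, (X - C (ρ i))) (q : k[X])
    (hq : ∀ i, (q.map φ).eval (ρ i) ≠ 0) :
    HasSig R (aeval x q) (Fintype.card {i // 0 < (q.map φ).eval (ρ i)}) := by
  obtain ⟨V, hV, h⟩ := exists_spec_roots hS hn hdeg R hφ hA hx hli hρi hρ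
  exact hasSig_of_diag R hV hq (h q)

/-- Values of a nonzero element are nonzero. -/
theorem eval_ne_zero (hS : Setting k K D d s) (hn : 0 < n) (hdeg : finrank K D = n ^ 2)
    (R : RData K D n) {φ : k →+* ℝ} (hφ : ∀ a, R.s (algebraMap k K a) = ((φ a : ℝ) : ℂ))
    (hA : R.A.PosDef) {x : D} (hx : star x = x)
    (hli : LinearIndependent k (fun i : Fin n => x ^ (i : ℕ))) {ρ : Fin n → ℝ}
    (hρi : Function.Injective ρ) (hρ : (minpoly k x).map φ = ∏ i, (X - C (ρ i))) {q : k[X]}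
    (hq : aeval x q ≠ 0) (i : Fin n) : (q.map φ).eval (ρ i) ≠ 0 := by
  obtain ⟨V, hV, h⟩ := exists_spec_roots hS hn hdeg R hφ hA hx hli hρi hρ
  have h1 := h q
  have h2 : IsUnit (R.f (aeval x q) * R.A) := (f_unit R hq).mul R.unit
  intro h0
  rw [h1] at h2
  rw [Matrix.isUnit_iff_isUnit_det, Matrix.det_mul, Matrix.det_mul, isUnit_iff_ne_zero] at h2
  apply h2
  rw [rdiag, Matrix.det_diagonal]
  have h3 : ∏ i, ((((q.map φ).eval (ρ i) : ℝ)) : ℂ) = 0 :=
    Finset.prod_eq_zero (Finset.mem_univ i) (by rw [h0]; simp)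
  rw [h3, mul_zero, zero_mul]

omit [NumberField k] in
/-- Real polynomials with given signs at different real numbers. -/
theorem exists_real_poly {n : ℕ} {ρ : Fin n → ℝ} (hρ : Function.Injective ρ) (ε : Fin n → ℤˣ) :
    ∃ q : ℝ[X], q.natDegree < n + 1 ∧ ∀ i, q.eval (ρ i) = (((ε i : ℤˣ) : ℤ) : ℝ) := by
  classical
  refine ⟨Lagrange.interpolate Finset.univ ρ (fun i => (((ε i : ℤˣ) : ℤ) : ℝ)), ?_, fun i => ?_⟩
  · have h1 := Lagrange.degree_interpolate_lt (s := Finset.univ) (v := ρ)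
      (fun i => (((ε i : ℤˣ) : ℤ) : ℝ)) (hρ.injOn)
    rw [Finset.card_univ, Fintype.card_fin] at h1
    have h2 := natDegree_le_of_degree_le h1.le
    omega
  · exact Lagrange.eval_interpolate_at_node _ hρ.injOn (Finset.mem_univ i)

/-- Polynomials over the number field with given signs. -/
theorem exists_poly {F : Type} [Field F] [NumberField F] {n : ℕ} (S : Set (F →+* ℝ))
    {ρ : (F →+* ℝ) → Fin n → ℝ} (hρ : ∀ φ ∈ S, Function.Injective (ρ φ))
    (ε : (F →+* ℝ) → Fin n → ℤˣ) :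
    ∃ q : F[X], ∀ φ ∈ S, ∀ i, 0 < (((ε φ i : ℤˣ) : ℤ) : ℝ) * (q.map φ).eval (ρ φ i) := by
  classical
  have h1 : ∀ φ : F →+* ℝ, ∃ q : ℝ[X], q.natDegree < n + 1 ∧
      (φ ∈ S → ∀ i, q.eval (ρ φ i) = (((ε φ i : ℤˣ) : ℤ) : ℝ)) := by
    intro φ
    by_cases hφ : φ ∈ S
    · obtain ⟨q, h1, h2⟩ := exists_real_poly (hρ φ hφ) (ε φ)
      exact ⟨q, h1, fun _ => h2⟩
    · exact ⟨0, by rw [natDegree_zero]; omega, fun h => absurd h hφ⟩
  choose Q hQ1 hQ2 using h1
  -- a bound
  obtain ⟨M, hM0, hM⟩ : ∃ M : ℝ, 0 < M ∧ ∀ φ : F →+* ℝ, ∀ i : Fin n,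
      ∑ j ∈ Finset.range (n + 1), |ρ φ i| ^ j < M := by
    refine ⟨∑ φ : F →+* ℝ, ∑ i : Fin n, ∑ j ∈ Finset.range (n + 1), |ρ φ i| ^ j + 1, ?_, ?_⟩
    · have : 0 ≤ ∑ φ : F →+* ℝ, ∑ i : Fin n, ∑ j ∈ Finset.range (n + 1), |ρ φ i| ^ j :=
        Finset.sum_nonneg fun _ _ => Finset.sum_nonneg fun _ _ => Finset.sum_nonneg fun _ _ => by
          positivity
      linarith
    · intro φ i
      have h2 : ∑ j ∈ Finset.range (n + 1), |ρ φ i| ^ j ≤
          ∑ i : Fin n, ∑ j ∈ Finset.range (n + 1), |ρ φ i| ^ j :=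
        Finset.single_le_sum (f := fun i => ∑ j ∈ Finset.range (n + 1), |ρ φ i| ^ j)
          (fun _ _ => Finset.sum_nonneg fun _ _ => by positivity) (Finset.mem_univ i)
      have h3 : ∑ i : Fin n, ∑ j ∈ Finset.range (n + 1), |ρ φ i| ^ j ≤
          ∑ φ : F →+* ℝ, ∑ i : Fin n, ∑ j ∈ Finset.range (n + 1), |ρ φ i| ^ j :=
        Finset.single_le_sum (f := fun φ : F →+* ℝ => ∑ i : Fin n,
          ∑ j ∈ Finset.range (n + 1), |ρ φ i| ^ j)
          (fun _ _ => Finset.sum_nonneg fun _ _ => Finset.sum_nonneg fun _ _ => by positivity)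
          (Finset.mem_univ φ)
      linarith
  choose a ha using fun j : ℕ => real_dense (F := F) (fun φ => (Q φ).coeff j)
    (show (0 : ℝ) < 1 / M by positivity)
  refine ⟨∑ j ∈ Finset.range (n + 1), C (a j) * X ^ j, fun φ hφ i => ?_⟩
  have h2 : ((∑ j ∈ Finset.range (n + 1), C (a j) * X ^ j : F[X]).map φ).eval (ρ φ i) =
      ∑ j ∈ Finset.range (n + 1), φ (a j) * (ρ φ i) ^ j := by
    rw [Polynomial.map_sum, eval_finsetSum]
    refine Finset.sum_congr rfl fun j _ => ?_
    rw [Polynomial.map_mul, Polynomial.map_C, Polynomial.map_pow, Polynomial.map_X, eval_mul,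
      eval_C, eval_pow, eval_X]
  have h3 : (Q φ).eval (ρ φ i) = ∑ j ∈ Finset.range (n + 1), (Q φ).coeff j * (ρ φ i) ^ j :=
    eval_eq_sum_range' (hQ1 φ) _
  have h4 : |(∑ j ∈ Finset.range (n + 1), φ (a j) * (ρ φ i) ^ j) - (Q φ).eval (ρ φ i)| < 1 := by
    rw [h3, ← Finset.sum_sub_distrib]
    refine lt_of_le_of_lt (Finset.abs_sum_le_sum_abs _ _) ?_
    calc ∑ j ∈ Finset.range (n + 1), |φ (a j) * (ρ φ i) ^ j - (Q φ).coeff j * (ρ φ i) ^ j|
        ≤ ∑ j ∈ Finset.range (n + 1), 1 / M * |ρ φ i| ^ j := by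
          refine Finset.sum_le_sum fun j _ => ?_
          rw [← sub_mul, abs_mul, abs_pow]
          exact mul_le_mul_of_nonneg_right (ha j φ).le (by positivity)
      _ = 1 / M * ∑ j ∈ Finset.range (n + 1), |ρ φ i| ^ j := by rw [← Finset.mul_sum]
      _ < 1 / M * M := mul_lt_mul_of_pos_left (hM φ i) (by positivity)
      _ = 1 := by field_simp
  rw [hQ2 φ hφ i, ← h2] at h4
  rcases Int.units_eq_one_or (ε φ i) with h5 | h5
  · rw [h5] at h4 ⊢
    simp only [Units.val_one, Int.cast_one, one_mul] at h4 ⊢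
    have := (abs_lt.mp h4).1
    linarith
  · rw [h5] at h4 ⊢
    simp only [Units.val_neg, Units.val_one, Int.cast_neg, Int.cast_one, neg_mul, one_mul] at h4 ⊢
    have := (abs_lt.mp h4).2
    linarith

/-- Polynomials with given signs at the eigenvalues: the value is congruent to a given element. -/
theorem exists_q (hS : Setting k K D d s) (hn : 0 < n) (hdeg : finrank K D = n ^ 2)
    {ι : Type} {R : ι → RData K D n} (hc : Complete R)
    (hA : ∀ i, (R i).A.PosDef) {x : D} (hx : star x = x)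
    (hli : LinearIndependent k (fun i : Fin n => x ^ (i : ℕ))) {c : D}
    {ρ : (k →+* ℝ) → Fin n → ℝ} (hρ : ∀ φ : k →+* ℝ, φ d < 0 → Function.Injective (ρ φ) ∧
      (minpoly k x).map φ = ∏ i, (X - C (ρ φ i)))
    (ε : (k →+* ℝ) → Fin n → ℤˣ)
    (hcnt : ∀ (φ : k →+* ℝ) (i : ι), φ d < 0 → (∀ a, (R i).s (algebraMap k K a) = ((φ a : ℝ) : ℂ)) →
      HasSig (R i) c (Fintype.card {j // ε φ j = 1})) :
    ∃ q : k[X], aeval x q ≠ 0 ∧ (∀ i, (R i).CongAt c (aeval x q)) ∧
      ∀ φ : k →+* ℝ, φ d < 0 → ∀ i, 0 < (((ε φ i : ℤˣ) : ℤ) : ℝ) * (q.map φ).eval (ρ φ i) := by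
  classical
  obtain ⟨q, hq⟩ := exists_poly (F := k) {φ : k →+* ℝ | φ d < 0} (fun φ hφ => (hρ φ hφ).1) ε
  have hq0 : ∀ φ : k →+* ℝ, φ d < 0 → ∀ i, (q.map φ).eval (ρ φ i) ≠ 0 := by
    intro φ hφ i h0
    have := hq φ hφ i
    rw [h0, mul_zero] at this
    exact lt_irrefl _ this
  have hsg : ∀ i (φ : k →+* ℝ), φ d < 0 → (∀ a, (R i).s (algebraMap k K a) = ((φ a : ℝ) : ℂ)) →
      HasSig (R i) (aeval x q) (Fintype.card {j // ε φ j = 1}) := by
    intro i φ hφ hi
    have h1 := hasSig_aeval hS hn hdeg (R i) hi (hA i) hx hli (hρ φ hφ).1 (hρ φ hφ).2 q (hq0 φ hφ)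
    have h2 : Fintype.card {j // 0 < (q.map φ).eval (ρ φ j)} = Fintype.card {j // ε φ j = 1} := by
      refine Fintype.card_congr (Equiv.subtypeEquivRight fun j => ?_)
      have h3 := hq φ hφ j
      rcases Int.units_eq_one_or (ε φ j) with h5 | h5
      · rw [h5] at h3 ⊢
        simpa using h3
      · rw [h5] at h3 ⊢
        simp only [Units.val_neg, Units.val_one, Int.cast_neg, Int.cast_one, neg_mul,
          one_mul] at h3
        constructor
        · intro h6; linarith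
        · intro h6; exact absurd h6 (by decide)
    rwa [h2] at h1
  have hcong : ∀ i, (R i).CongAt c (aeval x q) := by
    intro i
    obtain ⟨φ, hφ, hφd⟩ := Even.exists_phi hS (R i)
    exact (hcnt φ i hφd hφ).congAt (hsg i φ hφd hφ)
  by_cases hne : ∃ φ : k →+* ℝ, φ d < 0
  · obtain ⟨φ, hφ⟩ := hne
    obtain ⟨i, hi⟩ := Two2.exists_above hS hn hdeg hc hφ
    refine ⟨q, ?_, hcong, fun φ hφ i => hq φ hφ i⟩
    intro h0
    obtain ⟨V, hV, h⟩ := exists_spec_roots hS hn hdeg (R i) hi (hA i) hx hli (hρ φ hφ).1 (hρ φ hφ).2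
    have h1 := h q
    rw [h0, map_zero, zero_mul] at h1
    obtain ⟨U, rfl⟩ := hV
    have h2 : rdiag (fun i => (q.map φ).eval (ρ φ i)) = 0 := by
      have h4 : (U : Matrix (Fin n) (Fin n) ℂ) * rdiag (fun i => (q.map φ).eval (ρ φ i)) = 0 := by
        apply (isUnit_conj U.isUnit).mul_right_cancel
        rw [zero_mul, ← h1]
      apply U.isUnit.mul_left_cancel
      rw [h4, mul_zero]
    have h5 := congrFun (congrFun h2 ⟨0, hn⟩) ⟨0, hn⟩
    rw [rdiag, diagonal_apply_eq, Matrix.zero_apply] at h5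
    exact hq0 φ hφ ⟨0, hn⟩ (by exact_mod_cast h5)
  · refine ⟨1, by rw [map_one]; exact one_ne_zero, fun i => ?_, fun φ hφ => absurd ⟨φ, hφ⟩ hne⟩
    obtain ⟨φ, hφ, hφd⟩ := Even.exists_phi hS (R i)
    exact absurd ⟨φ, hφd⟩ hne

/-- The choice of the signs. -/
theorem exists_eps {n a m : ℕ} (p T : Fin n → Prop) [DecidablePred p]
    (ha : Fintype.card {i // p i} = a) (hm : m ≤ n)
    (h : (n ≤ a + m ∧ ∀ i, p i → T i) ∨ (a + m ≤ n ∧ ∀ i, ¬ p i → T i)) :
    ∃ ε : Fin n → ℤˣ, Fintype.card {i // ε i = 1} = m ∧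
      (∀ i, ε i = 1 → p i → T i) ∧ ∀ i, ε i = -1 → ¬ p i → T i := by
  classical
  rcases h with ⟨h1, h2⟩ | ⟨h1, h2⟩
  · -- the signs are positive off `p`
    have hcard : (Finset.univ.filter fun i => ¬ p i).card = n - a := by
      rw [← Fintype.card_subtype, Fintype.card_subtype_compl, ha, Fintype.card_fin]
    obtain ⟨A, hA1, hA2, hA3⟩ := Finset.exists_subsuperset_card_eq
      (Finset.filter_subset (fun i => ¬ p i) Finset.univ) (n := m) (by omega) (by
        rw [Finset.card_univ, Fintype.card_fin]; exact hm)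
    refine ⟨fun i => if i ∈ A then 1 else -1, ?_, fun i _ hi => h2 i hi, fun i hi hpi => ?_⟩
    · rw [← hA3, ← Fintype.card_coe]
      refine Fintype.card_congr (Equiv.subtypeEquivRight fun i => ?_)
      by_cases hi : i ∈ A
      · simp [hi]
      · simp only [hi, if_false, iff_false]
        decide
    · have : i ∈ A := hA1 (Finset.mem_filter.mpr ⟨Finset.mem_univ _, hpi⟩)
      simp only [if_pos this] at hi
      exact absurd hi (by decide)
  · have hcard : (Finset.univ.filter fun i => ¬ p i).card = n - a := by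
      rw [← Fintype.card_subtype, Fintype.card_subtype_compl, ha, Fintype.card_fin]
    obtain ⟨A, hA2, hA3⟩ := Finset.exists_subset_card_eq
      (s := Finset.univ.filter fun i => ¬ p i) (n := m) (by omega)
    refine ⟨fun i => if i ∈ A then 1 else -1, ?_, fun i hi hpi => ?_, fun i _ hpi => h2 i hpi⟩
    · rw [← hA3, ← Fintype.card_coe]
      refine Fintype.card_congr (Equiv.subtypeEquivRight fun i => ?_)
      by_cases hi : i ∈ A
      · simp [hi]
      · simp only [hi, if_false, iff_false]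
        decide
    · have hi' : i ∈ A := by
        by_contra hcon
        simp only [if_neg hcon] at hi
        exact absurd hi (by decide)
      exact absurd hpi (Finset.mem_filter.mp (hA2 hi')).2

end Vale.Agent.P011.F3
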