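import Vale.Agent.P011.Two2.StepB

/-!
The number theory of the commuting step.
-/

open Module Matrix Polynomial NumberField IsDedekindDomain
open Vale.Agent.P011.RP (RData HasR1 HasR2 Complete)

namespace Vale.Agent.P011.F3

open Vale.Agent.P011.Arith Vale.Agent.P011.Even Vale.Agent.P011.Two Vale.Agent.P011.Two2

variable {k K D : Type} [Field k] [NumberField k] [Field K] [NumberField K] [StarRing K]
    [DivisionRing D] [StarRing D] [Algebra k K] [Algebra k D] [Algebra K D] [IsScalarTower k K D]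
    {d : kˣ} {s : K} {n : ℕ}

omit [Algebra k D] [IsScalarTower k K D] in
/-- Symmetric elements of a division algebra in the same class and with the same signatures. -/
theorem exists_iso_of (hS : Setting k K D d s) (hn : 0 < n) (hdeg : finrank K D = n ^ 2)
    (f : D →ₐ[K] Matrix (Fin n) (Fin n) (AlgebraicClosure K)) {c e : D} (hc : star c = c)
    (he : star e = e) (hc0 : c ≠ 0) (he0 : e ≠ 0) {νc νe : kˣ}
    (hνc : (f c).det = algebraMap K (AlgebraicClosure K) (algebraMap k K νc))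
    (hνe : (f e).det = algebraMap K (AlgebraicClosure K) (algebraMap k K νe))
    (h : νe * νc ∈ NF d) (hcong : ∀ R : RData K D n, R.CongAt c e) :
    ∃ t : D, t ≠ 0 ∧ e = t * c * star t := by
  have := hS.fin
  have := hS.cen
  have hSM : StarModule K D := ⟨hS.star_smul⟩
  have hK : ∃ x : K, star x ≠ x := by
    refine ⟨s, fun h => ?_⟩
    rw [hS.star_s] at h
    have h1 : (2 : K) * s = 0 := by linear_combination -h
    exact (mul_ne_zero two_ne_zero hS.s_ne) h1
  obtain ⟨z, hz0, hz⟩ := exists_normK hS νc νe h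
  exact hasR1 hK hn hdeg (AlgebraicClosure K) f c e hc he hc0 he0
    ⟨z, hz0, by rw [hνe, hνc, ← map_mul, ← hz]⟩ hcong

/-- The commuting step: the number theory. -/
theorem cs_solve (hS : Setting k K D d s) (hn : 0 < n) (hdeg : finrank K D = n ^ 2)
    (f : D →ₐ[K] Matrix (Fin n) (Fin n) (AlgebraicClosure K))
    {E : Type} [Field E] [NumberField E] [Algebra k E] (j : E →ₐ[k] D) (hE : finrank k E = n)
    (hstar : ∀ x, star (j x) = j x) (hdE : ¬ IsSquare (algebraMap k E (d : k)))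
    (hnorm : ∀ x : E, (f (j x)).det =
      algebraMap K (AlgebraicClosure K) (algebraMap k K (Algebra.norm k x)))
    (hcong : ∀ (R : RData K D n) (x y : Eˣ), (∀ ψ : E →+* ℝ, ψ (algebraMap k E d) < 0 →
      0 < ψ (x : E) * ψ (y : E)) → R.CongAt (j x) (j y))
    (hreal : ∀ φ : k →+* ℝ, φ d < 0 → ∃ ψ : E →+* ℝ, ψ.comp (algebraMap k E) = φ)
    {c' : D} (hc' : star c' = c') (hc'0 : c' ≠ 0) {ν a : kˣ}
    (hν : (f c').det = algebraMap K (AlgebraicClosure K) (algebraMap k K ν)) (s₀ th x : Eˣ)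
    (hx : ∀ R : RData K D n, R.CongAt c' (j ((x * s₀⁻¹ : Eˣ) : E)))
    (ha : (-1) ^ n * ν * nrm k E s₀ * a ∈ NF d) {V : Set (HeightOneSpectrum (𝓞 k))}
    (hV : Ctrl d a V)
    (hsplit : ∀ v ∈ V, TotSplit E v ∧ ∃ w : HeightOneSpectrum (𝓞 E), Ab w v ∧
      -th ∉ LS (w.valuation E))
    (hpos : ∀ ψ : E →+* ℝ, ψ (algebraMap k E d) < 0 → 0 < ψ (x : E) → 0 < ψ (th : E)) :
    ∃ (t : E) (F : Eˣ) (c : D), c ≠ 0 ∧ (s₀ : E) * F = th + algebraMap k E d * t ^ 2 ∧
      j (F : E) = c * c' * star c := by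
  classical
  have := hS.fin
  have := hS.cen
  have hfk := hS.fin_k
  have hplaces : ∀ v : HeightOneSpectrum (𝓞 k), ∃ w : HeightOneSpectrum (𝓞 E), Ab w v ∧
      (v ∈ V → -th ∉ LS (w.valuation E)) := by
    intro v
    by_cases hv : v ∈ V
    · obtain ⟨w, hw1, hw2⟩ := (hsplit v hv).2
      exact ⟨w, hw1, fun _ => hw2⟩
    · obtain ⟨w, hw⟩ := exists_above (E := E) v
      exact ⟨w, hw, fun h => absurd h hv⟩
  choose ab hab hab2 using hplaces
  have hnneg : ∀ y : Eˣ, Algebra.norm k ((-y : Eˣ) : E) = (-1) ^ n * Algebra.norm k (y : E) := by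
    intro y
    rw [Units.val_neg, ← neg_one_mul (y : E), map_mul]
    congr 1
    have : (-1 : E) = algebraMap k E (-1) := by rw [map_neg, map_one]
    rw [this, Algebra.norm_algebraMap, hE]
  have hnneg' : ∀ y : Eˣ, nrm k E (-y) = (-1) ^ n * nrm k E y := by
    intro y
    apply Units.ext
    change Algebra.norm k ((-y : Eˣ) : E) = _
    rw [hnneg, Units.val_mul, Units.val_pow_eq_pow_val, Units.val_neg, Units.val_one]
    rfl
  have hm1 : ((-1 : kˣ) ^ n) * (-1) ^ n = 1 := by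
    rw [← mul_pow, neg_mul_neg, one_mul, one_pow]
  -- the element with prescribed bad places
  obtain ⟨al', halN, halb, hals⟩ := pnc_ab (E := E) hdE hV (fun v hv => (hsplit v hv).1) hreal ab
    hab (-x) (fun φ hφ => by
      obtain ⟨R', hR'⟩ := exists_rdata_of (D := D) hS hn hdeg hφ
      have h1 := nrd_pos hS hn hdeg f R' hR' (hx R') (ν := ν) (ν' := nrm k E (x * s₀⁻¹)) hν
        (hnorm _)
      have h2 : 0 < φ (((-1) ^ n * ν * nrm k E s₀ * a : kˣ) : k) :=
        mem_LSR.mp (NF_le_LSR hφ ha)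
      have h3 : (((nrm k E (x * s₀⁻¹) : kˣ) : k) * ((nrm k E s₀ : kˣ) : k)) =
          Algebra.norm k (x : E) := by
        rw [← Units.val_mul, ← map_mul, inv_mul_cancel_right]
        rfl
      have h4 : φ (Algebra.norm k ((-x : Eˣ) : E)) * φ a * (φ (ν : k) ^ 2) =
          (φ ((nrm k E (x * s₀⁻¹) : kˣ) : k) * φ (ν : k)) *
            φ (((-1) ^ n * ν * nrm k E s₀ * a : kˣ) : k) := by
        rw [hnneg, ← h3, Units.val_mul, Units.val_mul, Units.val_mul, Units.val_pow_eq_pow_val,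
          Units.val_neg, Units.val_one]
        simp only [map_mul]
        ring
      have h5 : 0 < φ (ν : k) ^ 2 := by
        have : φ (ν : k) ≠ 0 := (_root_.map_ne_zero φ).mpr ν.ne_zero
        positivity
      have h6 := mul_pos h1 h2
      rw [← h4] at h6
      exact (mul_pos_iff_of_pos_right h5).mp h6)
  obtain ⟨t, p, q, hth, hN0⟩ := ternary (F := E) (a := inc k E d) hdE al' (-th) (fun w hw => by
      obtain ⟨v, hv, rfl⟩ := halb w hw
      exact hab2 v hv)
    (fun ψ hψ hal => by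
      have hψd : ψ (algebraMap k E d) < 0 := hψ
      have h1 := hals ψ hψd
      rw [Units.val_neg, map_neg] at h1
      have hψx : 0 < ψ (x : E) := by
        by_contra hcon
        rw [not_lt] at hcon
        have := mul_nonpos_of_nonpos_of_nonneg hal.le (by linarith : 0 ≤ -ψ (x : E))
        linarith
      rw [Units.val_neg, map_neg, neg_lt_zero]
      exact hpos ψ hψd hψx)
  have hincd : ((inc k E d : Eˣ) : E) = algebraMap k E d := rfl
  rw [hincd, Units.val_neg] at hth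
  rw [hincd] at hN0
  obtain ⟨Nq, hNq⟩ : ∃ Nq : Eˣ, (Nq : E) = p ^ 2 - algebraMap k E d * q ^ 2 :=
    ⟨Units.mk0 _ hN0, rfl⟩
  have hNqN : Nq ∈ NF (inc k E d) := ⟨p, q, hNq⟩
  obtain ⟨F, hF⟩ : ∃ F : Eˣ, F = -al' * Nq * s₀⁻¹ := ⟨_, rfl⟩
  have hF0 : j (F : E) ≠ 0 := (_root_.map_ne_zero j).mpr F.ne_zero
  have hcF : ∀ R : RData K D n, R.CongAt c' (j (F : E)) := by
    intro R
    refine cong_trans (hx R) (hcong R _ _ fun ψ hψ => ?_)
    have h1 := hals ψ hψ
    have h3 : 0 < ψ (Nq : E) := mem_LSR.mp (NF_le_LSR (a := inc k E d) hψ hNqN)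
    rw [Units.val_neg, map_neg] at h1
    have h4 : ψ (s₀ : E) ≠ 0 := (_root_.map_ne_zero ψ).mpr s₀.ne_zero
    have h5 : ψ ((x * s₀⁻¹ : Eˣ) : E) * ψ (F : E) =
        (ψ (al' : E) * -ψ (x : E)) * ψ (Nq : E) * (ψ (s₀ : E))⁻¹ ^ 2 := by
      rw [hF]
      simp only [Units.val_mul, Units.val_neg, Units.val_inv_eq_inv_val, map_mul, map_neg,
        map_inv₀]
      ring
    rw [h5]
    positivity
  obtain ⟨c, hc0, hc⟩ := exists_iso_of hS hn hdeg f hc' (hstar _) hc'0 hF0 hν
    (νe := nrm k E F) (hnorm _) (by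
      have h1 : nrm k E F * ν = ((-1) ^ n * ν * nrm k E s₀ * a) * (nrm k E al' * a) *
          nrm k E Nq * ((a * nrm k E s₀) ^ 2)⁻¹ := by
        rw [hF, map_mul, map_mul, hnneg', map_inv]
        have h2 : a * nrm k E s₀ * (a * nrm k E s₀) * ((a * nrm k E s₀) ^ 2)⁻¹ = 1 := by
          rw [← pow_two, mul_inv_cancel]
        calc (-1) ^ n * nrm k E al' * nrm k E Nq * (nrm k E s₀)⁻¹ * ν
            = (-1) ^ n * nrm k E al' * nrm k E Nq * (nrm k E s₀)⁻¹ * ν *
              (a * nrm k E s₀ * (a * nrm k E s₀) * ((a * nrm k E s₀) ^ 2)⁻¹) := by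
              rw [h2, mul_one]
          _ = ((-1) ^ n * ν * nrm k E s₀ * a) * (nrm k E al' * a) *
              nrm k E Nq * ((a * nrm k E s₀) ^ 2)⁻¹ * ((nrm k E s₀)⁻¹ * nrm k E s₀) := by ac_rfl
          _ = _ := by rw [inv_mul_cancel, mul_one]
      rw [h1]
      exact mul_mem (mul_mem (mul_mem ha halN) (Two2.nrm_mem_NF hNqN))
        (inv_mem ⟨((a * nrm k E s₀ : kˣ) : k), 0, by simp⟩)) hcF
  refine ⟨t, F, c, hc0, ?_, hc⟩
  have h1 : (s₀ : E) * (F : E) = -(al' : E) * (Nq : E) := by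
    rw [hF]
    simp only [Units.val_mul, Units.val_neg, Units.val_inv_eq_inv_val]
    have := s₀.ne_zero
    field_simp
  rw [h1, hNq]
  linear_combination hth

end Vale.Agent.P011.F3
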