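import Vale.Agent.P011.F3.FinT

/-!
The local prescription at a nonsplit finite place, with a polynomial condition: the value of the
polynomial does not vanish.
-/

open Module Matrix Polynomial NumberField IsDedekindDomain TensorProduct Filter Topology

namespace Vale.Agent.P011.F3

open Vale.Agent.P011.Even Vale.Agent.P011.Arith Vale.Agent.P011.Two2

section place

variable {F : Type} [Field F] [NumberField F]

/-- A place at which the value of a polynomial is not a square. -/
theorem exists_place_poly' (v : HeightOneSpectrum (𝓞 F)) {n : ℕ} (r : Fin n → Fˣ)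
    (hr : Function.Injective r) (i0 : Fin n) (P : F[X]) (u : Fˣ) (hP : P.eval (r i0 : F) = u)
    (hns : u ∉ LS (v.valuation F)) : ∃ ε : Z0, ε ≠ 0 ∧ ∀ (E : Type) [Field E] [NumberField E]
      [Algebra F E] (θ : E), finrank F E = n → (minpoly F θ).natDegree = n →
      (∀ k, v.valuation F ((minpoly F θ - ∏ i, (X - C (r i : F))).coeff k) < ε) →
      TotSplit E v ∧ ∃ w : HeightOneSpectrum (𝓞 E), Ab w v ∧ aeval θ P ≠ 0 ∧
        ∀ c : Eˣ, (c : E) = aeval θ P → c ∉ LS (w.valuation E) := by
  obtain ⟨ε1, hε1, h1⟩ := totSplit_of_near v (fun i => (r i : F))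
    (fun i j hij => hr (Units.ext hij))
  obtain ⟨δ, hδ1, hδ2⟩ := exists_small v (m := P.natDegree + 1)
    (fun j => (taylor (r i0 : F) P).coeff j) u
  obtain ⟨ε2, hε2, h2⟩ := exists_place_near v (fun i => (r i : F)) i0 δ
  refine ⟨min ε1 ε2, by
    rcases min_choice ε1 ε2 with h | h <;> rw [h] <;> assumption, ?_⟩
  intro E _ _ _ θ hE hdeg hnear
  have hts : TotSplit E v := h1 E θ hE hdeg fun k => lt_of_lt_of_le (hnear k) (min_le_left _ _)
  obtain ⟨w, hw, hwθ⟩ := h2 E θ hE hdeg fun k => lt_of_lt_of_le (hnear k) (min_le_right _ _)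
  have hlt := val_eval_sub_lt hw P (r i0 : F) u hP hδ1 hδ2 hwθ
  have hwu0 : w.valuation E (algebraMap F E (u : F)) ≠ 0 :=
    (Valuation.ne_zero_iff _).mpr ((_root_.map_ne_zero _).mpr u.ne_zero)
  refine ⟨hts, w, hw, fun h0 => ?_, fun c hc hcL => ?_⟩
  · rw [h0, zero_sub, Valuation.map_neg] at hlt
    refine absurd hlt (not_lt.mpr ?_)
    calc w.valuation E 4 * w.valuation E (algebraMap F E (u : F))
        ≤ 1 * w.valuation E (algebraMap F E (u : F)) :=
          mul_le_mul' (val_four_le _) le_rfl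
      _ = _ := one_mul _
  apply notMem_LS_above hts hns hw
  have hcw : c / inc F E u ∈ LS (w.valuation E) := by
    apply LS_of_close
    have hu0 : algebraMap F E (u : F) ≠ 0 := (_root_.map_ne_zero _).mpr u.ne_zero
    have e1 : ((c / inc F E u : Eˣ) : E) - 1 =
        (aeval θ P - algebraMap F E u) / algebraMap F E (u : F) := by
      rw [Units.val_div_eq_div_val, hc]
      change aeval θ P / algebraMap F E (u : F) - 1 = _
      rw [sub_div, div_self hu0]
    rw [e1, map_div₀, div_lt_iff₀ (zero_lt_iff.mpr hwu0)]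
    exact hlt
  have h3 := Subgroup.mul_mem _ (Subgroup.inv_mem _ hcw) hcL
  rwa [inv_div, div_mul_cancel] at h3

end place

section final

variable {k K D : Type} [Field k] [NumberField k] [Field K] [StarRing K]
    [DivisionRing D] [StarRing D] [Algebra k K] [Algebra k D] [Algebra K D] [IsScalarTower k K D]
    {d : kˣ} {s : K} {n : ℕ}

/-- The prescription at a nonsplit finite place. -/
theorem fin_tgt' (hS : Setting k K D d s) (hn : 2 ≤ n) (hdeg : finrank K D = n ^ 2) {N : ℕ}
    (B : Basis (Fin N) k D) {Ω : Type} [Field Ω] [Algebra K Ω]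
    (f : D →ₐ[K] Matrix (Fin n) (Fin n) Ω) {b : D} (hb : star b = b) (hb0 : b ≠ 0)
    (v : HeightOneSpectrum (𝓞 k)) (hv : d ∉ LS (v.valuation k)) (g : kˣ) :
    ∃ e : Fin n → kˣ, Function.Injective e ∧ ∀ (P : k[X]) (i0 : Fin n) (u : kˣ),
      P.eval (e i0 : k) = u → u ∉ LS (v.valuation k) →
      ∃ (R : D) (δ : ℝ), 0 < δ ∧ star R = R ∧ ∀ r : D,
        (∀ j, plAbv (Sum.inl v : Pl k) (B.repr (r - R) j) < δ) →
        r ≠ 0 ∧ b + r ≠ 0 ∧
        (∀ ν : kˣ, (f (b + r)).det = algebraMap K Ω (algebraMap k K ν) →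
          ν * g ∈ NF d ⊔ LS (v.valuation k)) ∧
        LinearIndependent k (fun i : Fin n => r ^ (i : ℕ)) ∧
        ∀ (E : Type) [Field E] [NumberField E] [Algebra k E] (θ : E), finrank k E = n →
          (minpoly k θ).natDegree = n → aeval r (minpoly k θ) = 0 →
          TotSplit E v ∧ ∃ w : HeightOneSpectrum (𝓞 E), Ab w v ∧ aeval θ P ≠ 0 ∧
            ∀ c : Eˣ, (c : E) = aeval θ P → c ∉ LS (w.valuation E) := by
  classical
  let F := v.adicCompletion k
  obtain ⟨e, T, he, hTs, hli, hz, -, hev⟩ :=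
    exists_target hS hn hdeg f B (star_one D) hb one_ne_zero hb0 v hv 1 g
  refine ⟨e, he, fun P i0 u hPu hu => ?_⟩
  obtain ⟨ε, hε, hsp⟩ := exists_place_poly' v e he i0 P u hPu hu
  obtain ⟨η, hη, hη'⟩ := exists_radius v ε hε
  let BA := Algebra.TensorProduct.basis F B
  let g' : D →+* F ⊗[k] D := (Algebra.TensorProduct.includeRight : D →ₐ[k] F ⊗[k] D).toRingHom
  have hgx : ∀ x, g' x = 1 ⊗ₜ x := fun x => rfl
  have hTc : ∑ j, BA.repr T j • g' (B j) = T := by
    conv_rhs => rw [← BA.sum_repr T]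
    refine Finset.sum_congr rfl fun j _ => ?_
    rw [Algebra.TensorProduct.basis_apply, hgx]
  have hev2 := near_left (F := F) (A := F ⊗[k] D) B BA g'
    (fun a x => by
      rw [hgx, hgx, TensorProduct.tmul_smul, ← algebraMap_smul F a ((1 : F) ⊗ₜ[k] x)])
    (1 : D)⁻¹ (fun j => BA.repr T j) (n := n) (q := ∏ i, (X - C (algebraMap k F (e i : k))))
    (by rw [hTc]; exact hli)
    (monic_prod_of_monic _ _ fun i _ => monic_X_sub_C _) (natDegree_prod_X_sub_C' _)
    (by rw [hTc]; exact hz) hη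
  obtain ⟨R, δ, hδ, hR, h⟩ := exists_sym_near hS B v T hTs (hev.and hev2)
  refine ⟨R, δ, hδ, hR, fun r hr => ?_⟩
  obtain ⟨h1, h2⟩ := h r hr
  obtain ⟨a1, a2, -, a4⟩ := h1 r rfl
  obtain ⟨b1, b2⟩ := h2 r rfl
  rw [inv_one, one_mul] at b1 b2
  refine ⟨a1, a2, a4, b1, fun E _ _ _ θ hE hmin hz => hsp E θ hE hmin fun i => ?_⟩
  have hint : IsIntegral k θ := by
    have h7 : FiniteDimensional k E := by
      have : FiniteDimensional ℚ E := inferInstance
      have : IsScalarTower ℚ k E := IsScalarTower.of_algebraMap_eq fun q => by simp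
      exact Module.Finite.of_restrictScalars_finite ℚ k E
    exact Algebra.IsIntegral.isIntegral θ
  have h5 := b2 _ (minpoly.monic hint) hmin hz i
  have h6 : algebraMap k F ((minpoly k θ).coeff i) -
      (∏ i, (X - C (algebraMap k F (e i : k)))).coeff i =
      algebraMap k F ((minpoly k θ - ∏ i, (X - C (e i : k))).coeff i) := by
    have h7 : (∏ i, (X - C (algebraMap k F (e i : k)))) =
        (∏ i, (X - C (e i : k))).map (algebraMap k F) := by
      rw [Polynomial.map_prod]
      refine Finset.prod_congr rfl fun i _ => ?_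
      rw [Polynomial.map_sub, Polynomial.map_X, Polynomial.map_C]
    rw [h7, coeff_map, coeff_sub, map_sub]
  rw [h6] at h5
  exact hη' _ h5

end final

end Vale.Agent.P011.F3
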