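import Vale.Agent.P011.Two2.Dense2
import Vale.Agent.P011.Two2.StepA
import Vale.Agent.P011.F3.FinT2

/-!
Values of a form of rank one close to given local values, and scalars with local conditions.
-/

open Filter NumberField IsDedekindDomain Topology Matrix Module

set_option linter.unusedSectionVars false

namespace Vale.Agent.P011.F3

open Vale.Agent.P011.Arith Vale.Agent.P011.Even Vale.Agent.P011.Two2
open Vale.Agent.P011.RP (RData Complete Dense)

section one

variable {k K D : Type} [Field k] [NumberField k] [Field K] [NumberField K] [StarRing K]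
  [DivisionRing D] [StarRing D] [Algebra k K] [Algebra k D] [Algebra K D] [IsScalarTower k K D]
  {d : kˣ} {s : K} {n N : ℕ}

/-- The form `c` represents elements close to given elements which it represents locally. -/
theorem dense_one (hS : Setting k K D d s) (hn : 0 < n) (hdeg : finrank K D = n ^ 2)
    (B : Module.Basis (Fin N) k D) {Ω : Type} [Field Ω] [Algebra K Ω]
    (f : D →ₐ[K] Matrix (Fin n) (Fin n) Ω) {c : D} (hc : star c = c) (hc0 : c ≠ 0)
    {T : Set (Pl k)} (hT : T.Finite) (hTne : T.Nonempty) (hTd : ∀ p ∈ T, d ∉ LSp p)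
    (Q : Pl k → D) (δ : Pl k → ℝ) (hδ : ∀ p, 0 < δ p) (hQs : ∀ p ∈ T, star (Q p) = Q p)
    (hQ0 : ∀ p ∈ T, Q p ≠ 0)
    (hF : ∀ v, Sum.inl v ∈ T → ∀ ν ν' : kˣ, (f c).det = algebraMap K Ω (algebraMap k K ν) →
      (f (Q (.inl v))).det = algebraMap K Ω (algebraMap k K ν') →
        ν * ν' ∈ NF d ⊔ LS (v.valuation k))
    (hR : ∀ φ, Sum.inr φ ∈ T → ∀ R' : RData K D n,
      (∀ x, R'.s (algebraMap k K x) = (φ x : ℂ)) → R'.CongAt c (Q (.inr φ))) :
    ∃ t : D, t ≠ 0 ∧ ∀ p ∈ T, ∀ i, plAbv p (B.repr (t * c * star t - Q p) i) < δ p := by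
  have hfin : Finite T := hT
  have hloc : ∀ p ∈ T, ∃ (P : PData B p s n) (t : P.C.E),
      t * P.C.φ c * P.C.σ t = P.C.φ (Q p) := by
    rintro (v | φ) hp
    · have hv : d ∉ LS (v.valuation k) := hTd _ hp
      obtain ⟨P, hP⟩ := exists_pfin hS hn hdeg B v hv
      obtain ⟨t, ht⟩ := fin_iso hS hn hdeg B f v hv hc (hQs _ hp) hc0 (hQ0 _ hp) (hF v hp)
      refine ⟨P, ?_⟩
      rw [hP]
      exact ⟨t, ht⟩
    · have hφ : φ d < 0 := notMem_LSR.mp (hTd _ hp)
      obtain ⟨R', hR'⟩ := exists_rdata_of hS hn hdeg hφ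
      obtain ⟨P, hP⟩ := exists_preal hS hn hdeg B hφ R' hR'
      obtain ⟨t, ht⟩ := real_iso hn R' (hR φ hp R' hR')
      refine ⟨P, ?_⟩
      rw [hP]
      exact ⟨t, ht⟩
  choose P t ht using fun p : T => hloc p p.2
  obtain ⟨x, hx⟩ := exists_sim B hT P t
  have hne : ∀ p : T, ∀ᶠ j in atTop, x j ≠ 0 := by
    intro p
    refine (P p).C.ne (hx p) fun h => ?_
    have h1 := ht p
    rw [h, zero_mul, zero_mul] at h1
    exact hQ0 p p.2 ((P p).C.φ.injective (by rw [← h1, map_zero]))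
  have hrc : ∀ p : T, (P p).C.cv (fun j => x j * c * star (x j)) ((P p).C.φ (Q p)) := by
    intro p
    have h1 := (P p).C.mul ((P p).C.mul (hx p) ((P p).C.const c)) ((P p).C.star' (hx p))
    rwa [ht] at h1
  have hev : ∀ᶠ j in atTop, ∀ p : T, nm B p (x j * c * star (x j) - Q p) < δ p := by
    rw [eventually_all]
    intro p
    exact ((P p).size (hrc p)).eventually (Iio_mem_nhds (hδ p))
  obtain ⟨p₀, hp₀⟩ := hTne
  obtain ⟨j, hj1, hj2⟩ := ((hne ⟨p₀, hp₀⟩).and hev).exists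
  exact ⟨x j, hj1, fun p hp i => nm_lt_coord B p (hj2 ⟨p, hp⟩) i⟩

end one

section scalar

variable {F : Type} [Field F] [NumberField F]

/-- A nonsquare at a nonsplit place, different from squares. -/
theorem ls_open (v : HeightOneSpectrum (𝓞 F)) {u : Fˣ} (hu : u ∉ LS (v.valuation F)) :
    ∃ δ : ℝ, 0 < δ ∧ ∀ x : F, plAbv (Sum.inl v : Pl F) (x - u) < δ →
      ∃ u' : Fˣ, (u' : F) = x ∧ u' ∉ LS (v.valuation F) := by
  have h40 : v.valuation F (4 * u) ≠ 0 :=
    (Valuation.ne_zero_iff _).mpr (mul_ne_zero (by norm_num) u.ne_zero)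
  obtain ⟨η, hη, hη'⟩ := exists_radius v (v.valuation F (4 * u)) h40
  refine ⟨η, hη, fun x hx => ?_⟩
  have h1 : v.valuation F (x - u) < v.valuation F (4 * u) := by
    apply hη'
    rwa [norm_algebraMap_eq]
  have h2 : v.valuation F (4 * u : F) ≤ v.valuation F (u : F) := by
    rw [map_mul]
    calc v.valuation F 4 * v.valuation F (u : F) ≤ 1 * v.valuation F (u : F) :=
          mul_le_mul' (val_four_le _) le_rfl
      _ = _ := one_mul _
  have hx0 : x ≠ 0 := by
    rintro rfl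
    rw [zero_sub, Valuation.map_neg] at h1
    exact absurd (lt_of_lt_of_le h1 h2) (lt_irrefl _)
  refine ⟨Units.mk0 x hx0, rfl, fun hxL => hu ?_⟩
  have h3 : Units.mk0 x hx0 / u ∈ LS (v.valuation F) := by
    apply LS_of_close
    have e1 : ((Units.mk0 x hx0 / u : Fˣ) : F) - 1 = (x - u) / u := by
      rw [Units.val_div_eq_div_val, Units.val_mk0, sub_div, div_self u.ne_zero]
    have hu0 : v.valuation F (u : F) ≠ 0 := (Valuation.ne_zero_iff _).mpr u.ne_zero
    rw [e1, map_div₀, div_lt_iff₀ (zero_lt_iff.mpr hu0), ← map_mul]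
    exact h1
  have h4 := Subgroup.mul_mem _ (Subgroup.inv_mem _ h3) hxL
  rwa [inv_div, div_mul_cancel] at h4

/-- Scalars with `A - l * C` not a square at given places and large with given signs at the real
places. -/
theorem exists_scalar {d : Fˣ} {V : Set (HeightOneSpectrum (𝓞 F))} (hV : V.Finite)
    (hns : ∀ v ∈ V, d ∉ LS (v.valuation F)) (A C : HeightOneSpectrum (𝓞 F) → F)
    (hC : ∀ v ∈ V, C v ≠ 0) (M : (F →+* ℝ) → ℝ) (ε : (F →+* ℝ) → ℤˣ) :
    ∃ l : F, (∀ v ∈ V, ∃ u : Fˣ, (u : F) = A v - l * C v ∧ u ∉ LS (v.valuation F)) ∧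
      ∀ φ : F →+* ℝ, M φ < (((ε φ : ℤˣ) : ℤ) : ℝ) * φ l := by
  classical
  have h1 : ∀ v : HeightOneSpectrum (𝓞 F), ∃ δ : ℝ, 0 < δ ∧ (v ∈ V → ∀ l : F,
      plAbv (Sum.inl v : Pl F) (l - (A v - d) / C v) < δ →
        ∃ u : Fˣ, (u : F) = A v - l * C v ∧ u ∉ LS (v.valuation F)) := by
    intro v
    by_cases hv : v ∈ V
    · obtain ⟨δ, hδ, h⟩ := ls_open v (hns v hv)
      have hC0 : 0 < plAbv (Sum.inl v : Pl F) (C v) := AbsoluteValue.pos _ (hC v hv)
      refine ⟨δ / plAbv (Sum.inl v : Pl F) (C v), by positivity, fun _ l hl => ?_⟩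
      apply h
      have e : A v - l * C v - (d : F) = -((l - (A v - d) / C v) * C v) := by
        have := hC v hv
        field_simp
        ring
      rw [e, AbsoluteValue.map_neg, AbsoluteValue.map_mul]
      rwa [lt_div_iff₀ hC0] at hl
    · exact ⟨1, one_pos, fun h => absurd h hv⟩
  choose δ hδ h using h1
  choose m hm using fun φ : F →+* ℝ => exists_nat_gt (M φ + 1)
  obtain ⟨l, hl⟩ := approx (F := F) (Sum.inl '' V ∪ Set.range Sum.inr)
    ((hV.image _).union (Set.finite_range _))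
    (fun p => Sum.elim (fun v => (A v - d) / C v)
      (fun φ => (((ε φ : ℤˣ) : ℤ) : F) * ((m φ : ℕ) : F)) p)
    (fun p => Sum.elim δ (fun _ => 1) p) (by
      rintro (v | φ)
      · exact hδ v
      · exact one_pos)
  refine ⟨l, fun v hv => h v hv l ?_, fun φ => ?_⟩
  · have := hl (Sum.inl v) (Or.inl ⟨v, hv, rfl⟩)
    simpa using this
  · have h2 := hl (Sum.inr φ) (Or.inr ⟨φ, rfl⟩)
    rw [plAbv_inr, Sum.elim_inr, Sum.elim_inr, map_sub, map_mul, map_natCast, map_intCast,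
      abs_lt] at h2
    have h3 := hm φ
    rcases Int.units_eq_one_or (ε φ) with h5 | h5
    · rw [h5] at h2 ⊢
      simp only [Units.val_one, Int.cast_one, one_mul] at h2 ⊢
      linarith [h2.1]
    · rw [h5] at h2 ⊢
      simp only [Units.val_neg, Units.val_one, Int.cast_neg, Int.cast_one, neg_mul,
        one_mul] at h2 ⊢
      linarith [h2.2]

end scalar

end Vale.Agent.P011.F3
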