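import Vale.Agent.P011.H402.Total

/-!
Invariant equivalence relations on the unit sphere of an anisotropic hermitian space: the set of
the real parts of the related pairs, and its stability.
-/

set_option linter.unusedSectionVars false

namespace Vale.Agent.P011.F3

open Vale.Agent.P011S

variable {D V : Type} [DivisionRing D] [StarRing D] [AddCommGroup V] [Module D V]

/-- All pairs of unit vectors `x`, `y` with `(1 - h(x,y))⁻¹` of real part `1 + σ` are related. -/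
def InP (H : AForm D V) (R : V → V → Prop) (σ : D) : Prop :=
  ∀ x y : V, H.h x x = 1 → H.h y y = 1 → H.h x y ≠ 1 →
    (1 - H.h x y)⁻¹ + star (1 - H.h x y)⁻¹ = 1 + σ → R x y

theorem norm_eq {Z σ : D} (hZ0 : Z ≠ 0) (hσ : Z + star Z = 1 + σ) :
    star (1 - Z⁻¹) * (1 - Z⁻¹) + star Z⁻¹ * σ * Z⁻¹ = 1 := by
  have h1 : σ = Z + star Z - 1 := by rw [hσ]; abel
  have hZ0' : star Z ≠ 0 := star_ne_zero.mpr hZ0
  rw [h1, star_sub, star_one, star_inv₀]
  have h2 : (star Z)⁻¹ * (Z + star Z - 1) * Z⁻¹ = (star Z)⁻¹ + Z⁻¹ - (star Z)⁻¹ * Z⁻¹ := by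
    rw [mul_sub, mul_add, inv_mul_cancel₀ hZ0', mul_one, sub_mul, add_mul, one_mul, mul_assoc,
      mul_inv_cancel₀ hZ0, mul_one]
  rw [h2, sub_mul, mul_sub, mul_sub, one_mul, one_mul, mul_one]
  abel

theorem inv_eq {Z σ : D} (hσ : Z + star Z = 1 + σ) (hσ0 : σ ≠ 0) :
    (star Z⁻¹ * σ * Z⁻¹)⁻¹ = 1 + (Z - σ) * σ⁻¹ * star (Z - σ) := by
  have hσs : star σ = σ := by
    have h1 : σ = Z + star Z - 1 := by rw [hσ]; abel
    rw [h1, star_sub, star_add, star_star, star_one, add_comm (star Z)]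
  have h1 : (star Z⁻¹ * σ * Z⁻¹)⁻¹ = Z * σ⁻¹ * star Z := by
    rw [mul_inv_rev, mul_inv_rev, inv_inv, star_inv₀, inv_inv, mul_assoc]
  have h2 : (Z - σ) * σ⁻¹ * star (Z - σ) = Z * σ⁻¹ * star Z - Z - star Z + σ := by
    rw [star_sub, hσs, sub_mul, mul_inv_cancel₀ hσ0, sub_mul, one_mul, mul_sub,
      inv_mul_cancel_right₀ hσ0]
    abel
  rw [h1, h2]
  have h3 : σ = Z + star Z - 1 := by rw [hσ]; abel
  nth_rewrite 3 [h3]
  abel

variable {H : AForm D V} {R : V → V → Prop}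

/-- From one pair to a set of real parts. -/
theorem rel_start (hR : H.InvRel R) {x y w : V} (hx : H.h x x = 1) (hy : H.h y y = 1)
    (hxy : H.h x y ≠ 1) (hRxy : R x y) (hwx : H.h w x = 0) (hwy : H.h w y = 0) {Z σ : D}
    (hZ : Z = (1 - H.h x y)⁻¹) (hσ : Z + star Z = 1 + σ) (hσ0 : σ ≠ 0) (t : D) :
    InP H R ((Z - σ) * σ⁻¹ * star (Z - σ) + t * H.h w w * star t) := by
  intro x₁ y₁ hx₁ hy₁ hxy₁ hZ₁
  obtain ⟨b, hb⟩ : ∃ b, b = H.h x y := ⟨_, rfl⟩
  have hb1 : 1 - b ≠ 0 := sub_ne_zero.mpr (by rw [hb]; exact Ne.symm hxy)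
  rw [← hb] at hZ
  have hZ0 : Z ≠ 0 := by rw [hZ]; exact inv_ne_zero hb1
  have hbZ : b = 1 - Z⁻¹ := by rw [hZ, inv_inv]; abel
  have hyx : H.h y x = star b := by rw [hb, H.star_h]
  obtain ⟨B, hB⟩ : ∃ B, B = star Z⁻¹ * σ * Z⁻¹ := ⟨_, rfl⟩
  have hB0 : B ≠ 0 := by
    rw [hB]
    exact mul_ne_zero (mul_ne_zero (star_ne_zero.mpr (inv_ne_zero hZ0)) hσ0) (inv_ne_zero hZ0)
  have hBb : star b * b + B = 1 := by rw [hbZ, hB]; exact norm_eq hZ0 hσ
  have hBi : B⁻¹ = 1 + (Z - σ) * σ⁻¹ * star (Z - σ) := by rw [hB]; exact inv_eq hσ hσ0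
  have hσs : star σ = σ := by
    have h1 : σ = Z + star Z - 1 := by rw [hσ]; abel
    rw [h1, star_sub, star_add, star_star, star_one, add_comm (star Z)]
  have hBs : star B = B := by
    rw [hB, star_mul, star_mul, star_star, hσs, mul_assoc]
  obtain ⟨y', hy'⟩ : ∃ y', y' = y - star b • x := ⟨_, rfl⟩
  have h1 : H.h y' x = 0 := by
    rw [hy', H.sub_left, H.smul_left, hyx, hx, mul_one, sub_self]
  have h2 : H.h y y' = B := by
    rw [hy', H.sub_right, H.smul_right, hyx, hy, star_star, ← hBb]; abel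
  have h3 : H.h y' y' = B := by
    nth_rewrite 1 [hy']
    rw [H.sub_left, H.smul_left, h2, H.orth_symm h1, mul_zero, sub_zero]
  have hyw : H.h y w = 0 := H.orth_symm hwy
  have hxw : H.h x w = 0 := H.orth_symm hwx
  have hy'w : H.h y' w = 0 := by
    rw [hy', H.sub_left, H.smul_left, hyw, hxw, mul_zero, sub_zero]
  obtain ⟨v, hv⟩ : ∃ v, v = B⁻¹ • y' + t • w := ⟨_, rfl⟩
  have hBis : star B⁻¹ = B⁻¹ := by rw [star_inv₀, hBs]
  have hyv : H.h y v = 1 := by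
    rw [hv, H.add_right, H.smul_right, H.smul_right, h2, hyw, zero_mul, add_zero, hBis,
      mul_inv_cancel₀ hB0]
  have hxv : H.h x v = 0 := by
    rw [hv, H.add_right, H.smul_right, H.smul_right, H.orth_symm h1, hxw, zero_mul, zero_mul,
      add_zero]
  have hvv : H.h v v = 1 + ((Z - σ) * σ⁻¹ * star (Z - σ) + t * H.h w w * star t) := by
    rw [← add_assoc, ← hBi, hv, H.add_left, H.add_right, H.add_right, H.smul_left, H.smul_left,
      H.smul_left, H.smul_left, H.smul_right, H.smul_right, H.smul_right, H.smul_right, h3, hy'w,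
      H.orth_symm hy'w, hBis, mul_inv_cancel₀ hB0, mul_one]
    simp only [zero_mul, mul_zero, add_zero, zero_add, mul_assoc]
  obtain ⟨Z₁, hZ₁d⟩ : ∃ Z₁, Z₁ = (1 - H.h x₁ y₁)⁻¹ := ⟨_, rfl⟩
  rw [← hZ₁d] at hZ₁
  have hb₁ : H.h x₁ y₁ = 1 - Z₁⁻¹ := by rw [hZ₁d, inv_inv]; abel
  have hcond : star Z₁ + star (star Z₁) = H.h v v := by
    rw [star_star, add_comm, hZ₁, hvv]
  obtain ⟨g, hg⟩ : ∃ g, g = H.qr v (star Z₁) hcond := ⟨_, rfl⟩
  have hgm : g ∈ H.isom := by rw [hg]; exact H.qr_mem _ _ _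
  have hgx : g x = x := by
    rw [hg, H.qr_apply, hxv, zero_mul, zero_smul, sub_zero]
  have hgy : H.h y (g y) = 1 - Z₁⁻¹ := by
    rw [hg, H.qr_apply, hyv, one_mul, H.sub_right, H.smul_right, hyv, hy, one_mul, star_inv₀,
      star_star]
  have h4 : R y (g y) := by
    have h5 := hR.inv hgm hRxy
    rw [hgx] at h5
    exact hR.trans (hR.symm hRxy) h5
  obtain ⟨e, he, he1, he2⟩ := AForm.witt_pair (H := H) (x := y) (y := g y) (x' := x₁) (y' := y₁)
    (by rw [hy, hx₁]) (by rw [H.isom_apply hgm, hy, hy₁]) (by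
      rw [← H.star_h, hgy, ← hb₁, H.star_h])
  have h5 := hR.inv he h4
  rwa [he1, he2] at h5

/-- The stability of the set of real parts. -/
theorem rel_step (hR : H.InvRel R) {σ : D} (h : InP H R σ) {e₁ e₂ e₃ : V}
    (h11 : H.h e₁ e₁ = 1) (h22 : H.h e₂ e₂ = σ) (h12 : H.h e₁ e₂ = 0) (h31 : H.h e₃ e₁ = 0)
    (h32 : H.h e₃ e₂ = 0) (hσ0 : σ ≠ 0) (hσ1 : 1 + σ ≠ 0) {μ : D} (hμ : μ + star μ = 1 - σ)
    (t : D) : InP H R (μ * σ⁻¹ * star μ + t * H.h e₃ e₃ * star t) := by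
  have hσs : star σ = σ := by rw [← h22, H.star_h]
  obtain ⟨Z, hZ⟩ : ∃ Z, Z = μ + σ := ⟨_, rfl⟩
  have hZσ : Z + star Z = 1 + σ := by
    have h1 : Z + star Z = (μ + star μ) + (σ + σ) := by rw [hZ, star_add, hσs]; abel
    rw [h1, hμ]; abel
  have hZ0 : Z ≠ 0 := by
    rintro h0
    apply hσ1
    rw [← hZσ, h0, star_zero, add_zero]
  have hZi : Z⁻¹ ≠ 0 := inv_ne_zero hZ0
  obtain ⟨b, hb⟩ : ∃ b, b = 1 - Z⁻¹ := ⟨_, rfl⟩
  obtain ⟨y, hy⟩ : ∃ y, y = star b • e₁ + star Z⁻¹ • e₂ := ⟨_, rfl⟩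
  have hxy : H.h e₁ y = b := by
    rw [hy, H.add_right, H.smul_right, H.smul_right, h11, h12, star_star, zero_mul, add_zero,
      one_mul]
  have hyy : H.h y y = 1 := by
    have h1 := norm_eq hZ0 hZσ
    rw [← hb] at h1
    rw [hy, H.add_left, H.add_right, H.add_right, H.smul_left, H.smul_left, H.smul_left,
      H.smul_left, H.smul_right, H.smul_right, H.smul_right, H.smul_right, h11, h22, h12,
      H.orth_symm h12, star_star, star_star, one_mul]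
    simp only [zero_mul, mul_zero, add_zero, zero_add]
    rw [← mul_assoc, h1]
  have hb1 : H.h e₁ y ≠ 1 := by
    rw [hxy, hb]
    intro h0
    apply hZi
    have : Z⁻¹ = 1 - (1 - Z⁻¹) := by abel
    rw [this, h0, sub_self]
  have hZb : Z = (1 - H.h e₁ y)⁻¹ := by
    rw [hxy, hb, sub_sub_cancel, inv_inv]
  have hRxy : R e₁ y := h e₁ y h11 hyy hb1 (by rw [← hZb]; exact hZσ)
  have h3y : H.h e₃ y = 0 := by
    rw [hy, H.add_right, H.smul_right, H.smul_right, h31, h32, zero_mul, zero_mul, add_zero]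
  have hfin := rel_start hR h11 hyy hb1 hRxy h31 h3y hZb hZσ hσ0 t
  have e1 : Z - σ = μ := by rw [hZ]; abel
  rwa [e1] at hfin

end Vale.Agent.P011.F3
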