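import Vale.Agent.P011.Two2.ThmS
import Vale.Agent.P011.Two2.FinIso
import Vale.Agent.P011.F3.Rel

/-!
Orthogonal frames of a hermitian space of rank three with a fixed first vector, and the class of
the discriminant of the orthogonal complement of that vector.
-/

open Module Matrix NumberField IsDedekindDomain

set_option linter.unusedSectionVars false

namespace Vale.Agent.P011.F3

open Vale.Agent.P011.Arith Vale.Agent.P011.Even Vale.Agent.P011S Vale.Agent.P011.Two2

section det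

variable {k K D : Type} [Field k] [NumberField k] [Field K] [NumberField K] [StarRing K]
    [DivisionRing D] [StarRing D] [Algebra k K] [Algebra k D] [Algebra K D] [IsScalarTower k K D]
    {d : kˣ} {s : K} {n : ℕ}

/-- The discriminant of a plane does not depend on the orthogonal basis, up to norms. -/
theorem disc_step (hS : Setting k K D d s) (hn : 0 < n) (hdeg : finrank K D = n ^ 2)
    {Ω : Type} [Field Ω] [Algebra K Ω] (f : D →ₐ[K] Matrix (Fin n) (Fin n) Ω) {p q α β : D}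
    (hp : star p = p) (hq : star q = q) (hp0 : p ≠ 0) (hq0 : q ≠ 0) (hβ : β ≠ 0)
    {w w' : D} (hw : w = α * p * star α + β * q * star β)
    (hw' : w' = p + p * star α * (β * q * star β)⁻¹ * α * p) (hw'0 : w' ≠ 0)
    {νp νq νw νw' : kˣ} (hνp : (f p).det = algebraMap K Ω (algebraMap k K νp))
    (hνq : (f q).det = algebraMap K Ω (algebraMap k K νq))
    (hνw : (f w).det = algebraMap K Ω (algebraMap k K νw))
    (hνw' : (f w').det = algebraMap K Ω (algebraMap k K νw')) :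
    νp * νq * (νw * νw') ∈ NF d := by
  obtain ⟨Q, hQ⟩ : ∃ Q, Q = β * q * star β := ⟨_, rfl⟩
  have hQs : star Q = Q := by rw [hQ, star_mul, star_mul, star_star, hq, mul_assoc]
  have hQ0 : Q ≠ 0 := by
    rw [hQ]; exact mul_ne_zero (mul_ne_zero hβ hq0) (star_ne_zero.mpr hβ)
  rw [← hQ] at hw hw'
  obtain ⟨S, hSd⟩ : ∃ S, S = p⁻¹ + star α * Q⁻¹ * α := ⟨_, rfl⟩
  have hSs : star S = S := by
    rw [hSd, star_add, star_mul, star_mul, star_star, star_inv₀, star_inv₀, hp, hQs, mul_assoc]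
  have hw'S : w' = p * S * p := by
    rw [hw', hSd, mul_add, mul_inv_cancel₀ hp0, add_mul, one_mul]
    simp only [mul_assoc]
  have hS0 : S ≠ 0 := by
    rintro h0
    apply hw'0
    rw [hw'S, h0, mul_zero, zero_mul]
  obtain ⟨νS, hνS⟩ := exists_nrd_unit hS hn hdeg f hSs hS0
  obtain ⟨νQ, hνQ⟩ := exists_nrd_unit hS hn hdeg f hQs hQ0
  have h1 : (f w').det = algebraMap K Ω (algebraMap k K ((νp * νS * νp : kˣ) : k)) := by
    rw [hw'S, map_mul, map_mul, det_mul, det_mul, hνp, hνS]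
    simp only [Units.val_mul, map_mul]
  have h2 : (f w).det = algebraMap K Ω (algebraMap k K ((νQ * (νp * νS) : kˣ) : k)) := by
    have h3 : w = Q * (1 + (Q⁻¹ * α) * (p * star α)) := by
      have h7 : Q * (Q⁻¹ * α * (p * star α)) = α * p * star α := by
        rw [mul_assoc Q⁻¹ α, mul_inv_cancel_left₀ hQ0, ← mul_assoc]
      rw [hw, mul_add, mul_one, h7, add_comm]
    have h4 : p * S = 1 + (p * star α) * (Q⁻¹ * α) := by
      rw [hSd, mul_add, mul_inv_cancel₀ hp0]
      simp only [mul_assoc]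
    have h5 : (f (1 + (Q⁻¹ * α) * (p * star α))).det = (f (p * S)).det := by
      rw [h4, map_add, map_add, map_one, map_mul, map_mul f (p * star α)]
      exact Matrix.det_one_add_mul_comm _ _
    rw [h3, map_mul, det_mul, h5, map_mul, det_mul, hνQ, hνp, hνS]
    simp only [Units.val_mul, map_mul]
  have hinj : ∀ {ν ν' : kˣ}, algebraMap K Ω (algebraMap k K ν) =
      algebraMap K Ω (algebraMap k K ν') → ν = ν' := fun {ν ν'} h =>
    Units.ext ((algebraMap k K).injective ((algebraMap K Ω).injective h))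
  have e1 : νw' = νp * νS * νp := hinj (hνw'.symm.trans h1)
  have e2 : νw = νQ * (νp * νS) := hinj (hνw.symm.trans h2)
  have h6 : νq * νQ ∈ NF d := by
    refine cls_conj hS hn hdeg f (t := β) hνq ?_
    rw [← hQ]
    exact hνQ
  have e3 : νp * νq * (νw * νw') = νq * νQ * (νp ^ 2 * νS) ^ 2 := by
    rw [e1, e2]
    apply Units.ext
    simp only [Units.val_mul, Units.val_pow_eq_pow_val]
    ring
  rw [e3]
  exact mul_mem h6 ⟨((νp ^ 2 * νS : kˣ) : k), 0, by rw [Units.val_pow_eq_pow_val]; ring⟩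

end det

section frame

variable {D V : Type} [DivisionRing D] [StarRing D] [AddCommGroup V] [Module D V]

/-- An orthogonal frame with a first vector of length one. -/
structure Fr (H : AForm D V) (e₁ e₂ e₃ : V) : Prop where
  h11 : H.h e₁ e₁ = 1
  h12 : H.h e₁ e₂ = 0
  h31 : H.h e₃ e₁ = 0
  h32 : H.h e₃ e₂ = 0
  e2 : e₂ ≠ 0
  e3 : e₃ ≠ 0

/-- Change of the frame. -/
theorem Fr.step {H : AForm D V} {e₁ e₂ e₃ : V} (h : Fr H e₁ e₂ e₃) (α : D) {β : D} (hβ : β ≠ 0) :
    ∃ e₃' : V, Fr H e₁ (α • e₂ + β • e₃) e₃' ∧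
      H.h (α • e₂ + β • e₃) (α • e₂ + β • e₃) =
        α * H.h e₂ e₂ * star α + β * H.h e₃ e₃ * star β ∧
      H.h e₃' e₃' = H.h e₂ e₂ + H.h e₂ e₂ * star α * (β * H.h e₃ e₃ * star β)⁻¹ * α *
        H.h e₂ e₂ := by
  obtain ⟨h11, h12, h31, h32, he2, he3⟩ := h
  obtain ⟨p, hp⟩ : ∃ p, p = H.h e₂ e₂ := ⟨_, rfl⟩
  obtain ⟨q, hq⟩ : ∃ q, q = H.h e₃ e₃ := ⟨_, rfl⟩
  have hps : star p = p := by rw [hp, H.star_h]
  have hqs : star q = q := by rw [hq, H.star_h]
  have hp0 : p ≠ 0 := by rw [hp]; exact H.self_ne_zero he2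
  have hq0 : q ≠ 0 := by rw [hq]; exact H.self_ne_zero he3
  have h23 : H.h e₂ e₃ = 0 := H.orth_symm h32
  have h13 : H.h e₁ e₃ = 0 := H.orth_symm h31
  have hβs : star β ≠ 0 := star_ne_zero.mpr hβ
  obtain ⟨η, hη⟩ : ∃ η, η = -(p * star α * (star β)⁻¹ * q⁻¹) := ⟨_, rfl⟩
  have hηs : star η = -(q⁻¹ * β⁻¹ * α * p) := by
    rw [hη, star_neg, star_mul, star_mul, star_mul, star_inv₀, star_inv₀, star_star, star_star,
      hps, hqs]
    simp only [mul_assoc]
  have h31' : H.h (e₂ + η • e₃) e₁ = 0 := by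
    rw [H.add_left, H.smul_left, h31, mul_zero, add_zero]
    exact H.orth_symm h12
  have h32' : H.h (e₂ + η • e₃) (α • e₂ + β • e₃) = 0 := by
    rw [H.add_left, H.add_right, H.add_right, H.smul_left, H.smul_left, H.smul_right,
      H.smul_right, H.smul_right, H.smul_right, ← hp, ← hq, h23, h32, hη]
    simp only [zero_mul, mul_zero, add_zero, zero_add, neg_mul]
    rw [← mul_assoc, mul_assoc _ q⁻¹ q, inv_mul_cancel₀ hq0, mul_one, mul_assoc _ _ (star β),
      inv_mul_cancel₀ hβs, mul_one, add_neg_cancel]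
  have hself : H.h (e₂ + η • e₃) (e₂ + η • e₃) = p + p * star α * (β * q * star β)⁻¹ * α * p := by
    rw [H.add_left, H.add_right, H.add_right, H.smul_left, H.smul_left, H.smul_right,
      H.smul_right, ← hp, ← hq, h23, h32, hηs, hη]
    have hinv : (β * q * star β)⁻¹ = (star β)⁻¹ * q⁻¹ * β⁻¹ := by
      rw [_root_.mul_inv_rev, _root_.mul_inv_rev, mul_assoc]
    rw [hinv]
    simp only [zero_mul, mul_zero, zero_add, add_zero, neg_zero, neg_mul, mul_neg, neg_neg,
      mul_assoc, inv_mul_cancel_left₀ hq0]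
  refine ⟨e₂ + η • e₃, ⟨h11, ?_, h31', h32', ?_, ?_⟩, ?_, ?_⟩
  · rw [H.add_right, H.smul_right, H.smul_right, h12, h13, zero_mul, zero_mul, add_zero]
  · intro h0
    have h1 : H.h (α • e₂ + β • e₃) e₃ = β * q := by
      rw [H.add_left, H.smul_left, H.smul_left, h23, mul_zero, zero_add, ← hq]
    rw [h0, H.zero_left] at h1
    exact mul_ne_zero hβ hq0 h1.symm
  · intro h0
    have h1 : H.h (e₂ + η • e₃) e₂ = p := by
      rw [H.add_left, H.smul_left, h32, mul_zero, add_zero, ← hp]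
    rw [h0, H.zero_left] at h1
    exact hp0 h1.symm
  · rw [H.add_left, H.add_right, H.add_right, H.smul_left, H.smul_left, H.smul_left,
      H.smul_left, H.smul_right, H.smul_right, H.smul_right, H.smul_right, h23, h32]
    simp only [zero_mul, mul_zero, add_zero, zero_add, mul_assoc]
  · rw [hself, hp, hq]

end frame

section cls

variable {k K D : Type} [Field k] [NumberField k] [Field K] [NumberField K] [StarRing K]
    [DivisionRing D] [StarRing D] [Algebra k K] [Algebra k D] [Algebra K D] [IsScalarTower k K D]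
    {d : kˣ} {s : K} {n : ℕ} {V : Type} [AddCommGroup V] [Module D V]

/-- The class of the discriminant of the complement of the first vector of the frame. -/
def Cls (d : kˣ) {Ω : Type} [Field Ω] [Algebra K Ω] (f : D →ₐ[K] Matrix (Fin n) (Fin n) Ω)
    (H : AForm D V) (a : kˣ) (e₂ e₃ : V) : Prop :=
  ∀ ν₂ ν₃ : kˣ, (f (H.h e₂ e₂)).det = algebraMap K Ω (algebraMap k K ν₂) →
    (f (H.h e₃ e₃)).det = algebraMap K Ω (algebraMap k K ν₃) → ν₂ * ν₃ * a ∈ NF d

theorem Fr.step_cls (hS : Setting k K D d s) (hn : 0 < n) (hdeg : finrank K D = n ^ 2)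
    {Ω : Type} [Field Ω] [Algebra K Ω] (f : D →ₐ[K] Matrix (Fin n) (Fin n) Ω)
    {H : AForm D V} {e₁ e₂ e₃ : V} (h : Fr H e₁ e₂ e₃) {a : kˣ} (hcl : Cls d f H a e₂ e₃)
    (α : D) {β : D} (hβ : β ≠ 0) :
    ∃ e₃' : V, Fr H e₁ (α • e₂ + β • e₃) e₃' ∧
      H.h (α • e₂ + β • e₃) (α • e₂ + β • e₃) =
        α * H.h e₂ e₂ * star α + β * H.h e₃ e₃ * star β ∧
      Cls d f H a (α • e₂ + β • e₃) e₃' := by
  obtain ⟨e₃', h1, h2, h3⟩ := h.step α hβ
  refine ⟨e₃', h1, h2, fun ν₂ ν₃ hν₂ hν₃ => ?_⟩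
  obtain ⟨νp, hνp⟩ := exists_nrd_unit hS hn hdeg f (H.star_h e₂ e₂) (H.self_ne_zero h.e2)
  obtain ⟨νq, hνq⟩ := exists_nrd_unit hS hn hdeg f (H.star_h e₃ e₃) (H.self_ne_zero h.e3)
  have h4 := hcl νp νq hνp hνq
  have h5 := disc_step hS hn hdeg f (H.star_h e₂ e₂) (H.star_h e₃ e₃) (H.self_ne_zero h.e2)
    (H.self_ne_zero h.e3) hβ h2 h3 (H.self_ne_zero h1.e3) hνp hνq hν₂ hν₃
  have e : ν₂ * ν₃ * a = νp * νq * (ν₂ * ν₃) * (νp * νq * a) * ((νp * νq) ^ 2)⁻¹ := by
    apply Units.ext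
    simp only [Units.val_mul, Units.val_pow_eq_pow_val, Units.val_inv_eq_inv_val]
    have := νp.ne_zero
    have := νq.ne_zero
    field_simp
  rw [e]
  refine mul_mem (mul_mem h5 h4) (inv_mem ⟨((νp * νq : kˣ) : k), 0, ?_⟩)
  rw [Units.val_pow_eq_pow_val]; ring

end cls

end Vale.Agent.P011.F3
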