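import Vale.Agent.P011.H402.PartI

/-!
Normal subgroups of the isometry group of an anisotropic hermitian space in which related pairs
of vectors of a given positive length propagate: the commutator subgroup is contained in them.
-/

set_option linter.unusedSectionVars false

namespace Vale.Agent.P011S

open Module
open scoped commutatorElement

variable {D V : Type} [DivisionRing D] [StarRing D] [CharZero D] [AddCommGroup V] [Module D V]

namespace AForm

variable {H : AForm D V}

/-- One related independent pair of vectors of length `c` propagates to all pairs. -/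
def Spread (H : AForm D V) (c : D) : Prop :=
  ∀ R : V → V → Prop, H.InvRel R → ∀ x y, H.h x x = c → H.h y y = c → (∀ d : D, x ≠ d • y) →
    R x y → ∀ x' y', H.h x' x' = c → H.h y' y' = c → R x' y'

/-- The group generated by the quasi-reflections in vectors of lengths in a given set. -/
def qrGp (H : AForm D V) (Pos : D → Prop) : Subgroup (V ≃ₗ[D] V) :=
  Subgroup.closure {g | ∃ (y : V) (s : D) (hs : s + star s = H.h y y),
    Pos (H.h y y) ∧ g = H.qr y s hs}

theorem qrGp_le (Pos : D → Prop) : H.qrGp Pos ≤ H.isom := by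
  rw [qrGp, Subgroup.closure_le]
  rintro g ⟨y, s, hs, -, rfl⟩
  exact H.qr_mem y s hs

/-- A relation which holds between the images of all vectors of a given length under an isometry
moving a line propagates. -/
theorem moved_pair (hnz : ∀ x y : V, ∃ w, w ≠ 0 ∧ H.h w x = 0 ∧ H.h w y = 0)
    {z z' : V} (hz : H.h z z = H.h z' z') (hind : ∀ c : D, z ≠ c • z') {c : D} (hc : c ≠ 0)
    (hS : H.Spread c) {R : V → V → Prop} (hR : H.InvRel R)
    (hmv : ∀ x, H.h x x = c → R ((H.refl z' * H.refl z) x) x) {x' y' : V}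
    (hx' : H.h x' x' = c) (hy' : H.h y' y' = c) : R x' y' := by
  have hx0 : x' ≠ 0 := by
    rintro rfl
    exact hc (by rw [← hx', H.zero_left])
  obtain ⟨x, hx, hxm⟩ := exists_moved hnz hz hind hx0
  rw [hx'] at hx
  refine hS R hR _ _ ?_ hx hxm (hmv x hx) x' y' hx' hy'
  rw [H.isom_apply (mul_mem (H.refl_mem z') (H.refl_mem z)), hx]

/-- **End of the proof for noncentral normal subgroups** (abstract form). -/
theorem comm_le_of_spread (hnz : ∀ x y : V, ∃ w, w ≠ 0 ∧ H.h w x = 0 ∧ H.h w y = 0)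
    (Pos : D → Prop) (h0 : ¬ Pos 0) {x₁ : V} (hx₁ : Pos (H.h x₁ x₁))
    (hS : ∀ c, Pos c → H.Spread c) (hgen : H.isom ≤ H.qrGp Pos)
    (htr : ∀ g ∈ H.isom, ∀ x y : V, ∃ e ∈ ⁅H.isom, H.isom⁆, e x = g x ∧ e y = g y)
    {θ : D} (hθ : star θ = -θ) (hθ0 : θ ≠ 0) (hθc : ∀ x, x * θ = θ * x)
    {N : Subgroup (V ≃ₗ[D] V)} (hN : CommNormal H N) (hNU : N ≤ H.isom) {σ : V ≃ₗ[D] V}
    (hσ : σ ∈ N) {x : V} (hx : ∀ c : D, σ x ≠ c • x) : ⁅H.isom, H.isom⁆ ≤ N := by
  obtain ⟨z, z', hzz, hind, hzN⟩ := start_any hnz hθ hθ0 hθc hN hNU hσ hx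
  have hne : ∀ c, Pos c → c ≠ 0 := by
    rintro c hc rfl
    exact h0 hc
  obtain ⟨A, hA⟩ : ∃ A, A = H.h x₁ x₁ := ⟨_, rfl⟩
  have hAP : Pos A := hA ▸ hx₁
  have hzI : H.refl z' * H.refl z ∈ H.isom := mul_mem (H.refl_mem z') (H.refl_mem z)
  -- normality for elements which agree with an arbitrary isometry on two vectors
  have hR1 : H.InvRel (fun x y => H.refl x * H.refl y ∈ N) := by
    refine ⟨fun {x y} h => rel_symm x y h, fun {x y z} h h' => rel_trans x y z h h', ?_⟩
    intro x y g hg h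
    obtain ⟨e, he, hex, hey⟩ := htr g hg x y
    have h1 := hN e he _ h
    rwa [conj_refl_prod (H.comm_le_isom he), hex, hey] at h1
  -- products of two reflections of the same positive length
  have hA1 : ∀ c, Pos c → ∀ x y, H.h x x = c → H.h y y = c → H.refl x * H.refl y ∈ N := by
    intro c hc x y hx hy
    refine moved_pair hnz hzz hind (hne c hc) (hS c hc) hR1 (fun w hw => ?_) hx hy
    -- `[τ, refl w] ∈ N`
    obtain ⟨e, he, hew, hew'⟩ := htr (H.refl w) (H.refl_mem w) z z'
    have h1 := hN e he _ hzN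
    rw [conj_refl_prod (H.comm_le_isom he), hew, hew', ← conj_refl_prod (H.refl_mem w)] at h1
    have h2 : H.refl ((H.refl z' * H.refl z) w) * H.refl w =
        (H.refl z' * H.refl z) * (H.refl w * (H.refl z' * H.refl z) * (H.refl w)⁻¹)⁻¹ := by
      rw [← H.refl_conj hzI]
      group
      simp only [zpow_neg_one, H.refl_inv]
    rw [h2]
    exact mul_mem hzN (inv_mem h1)
  have hTN : H.typeGp A ≤ N := by
    rw [typeGp, Subgroup.closure_le]
    rintro g ⟨x, y, hx, hy, rfl⟩
    exact hA1 A hAP x y hx hy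
  refine le_trans ?_ hTN
  -- an independent pair of vectors of length `A`
  obtain ⟨a, ha, ham⟩ := exists_moved hnz hzz hind (x₀ := x₁) (by
    rintro rfl
    exact hne _ hx₁ (H.zero_left _))
  rw [← hA] at ha
  have hb : H.h ((H.refl z' * H.refl z) a) ((H.refl z' * H.refl z) a) = A := by
    rw [H.isom_apply hzI, ha]
  obtain ⟨b, hbd⟩ : ∃ b, b = (H.refl z' * H.refl z) a := ⟨_, rfl⟩
  rw [← hbd] at hb ham
  -- transitivity
  have htrans : ∀ c, Pos c → ∀ x₀ x₁ : V, H.h x₀ x₀ = c → H.h x₁ x₁ = c →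
      ∃ g ∈ H.typeGp A, g x₀ = x₁ := by
    intro c hc x₀ x₁ h0 h1
    have hR2 : H.InvRel (fun x y => ∃ g ∈ H.typeGp A, g x = y) := by
      refine ⟨?_, ?_, ?_⟩
      · rintro x y ⟨g, hg, rfl⟩
        exact ⟨g⁻¹, inv_mem hg, by rw [← LinearEquiv.mul_apply, inv_mul_cancel]; rfl⟩
      · rintro x y z ⟨g, hg, rfl⟩ ⟨k, hk, rfl⟩
        exact ⟨k * g, mul_mem hk hg, rfl⟩
      · rintro x y g hg ⟨k, hk, rfl⟩
        refine ⟨g * k * g⁻¹, typeGp_conj hg hk, ?_⟩
        rw [LinearEquiv.mul_apply, LinearEquiv.mul_apply, ← LinearEquiv.mul_apply g⁻¹ g,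
          inv_mul_cancel]
        rfl
    refine moved_pair hnz (z := a) (z' := b) (by rw [ha, hb]) (fun d hd => ?_) (hne c hc)
      (hS c hc) hR2 (fun w hw => ?_) h0 h1
    · apply ham d⁻¹
      have hd0 : d ≠ 0 := by
        rintro rfl
        rw [zero_smul] at hd
        exact hne A hAP (by rw [← ha, hd, H.zero_left])
      rw [hd, smul_smul, inv_mul_cancel₀ hd0, one_smul]
    · refine ⟨(H.refl b * H.refl a)⁻¹, inv_mem (mem_typeGp hb ha), ?_⟩
      rw [← LinearEquiv.mul_apply, inv_mul_cancel]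
      rfl
  -- commutators
  rw [Subgroup.commutator_le]
  intro g hg ρ hρ
  have hρ' := hgen hρ
  clear hρ
  induction hρ' using Subgroup.closure_induction with
  | mem x hx =>
    obtain ⟨y, s, hs, hys, rfl⟩ := hx
    obtain ⟨e, he, hey⟩ := htrans _ hys y (g y) rfl (H.isom_apply hg y y)
    have he' := typeGp_le he
    have h1 : g * H.qr y s hs * g⁻¹ = e * H.qr y s hs * e⁻¹ := by
      rw [H.qr_conj hg y s hs (by rw [H.isom_apply hg, hs]),
        H.qr_conj he' y s hs (by rw [H.isom_apply he', hs])]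
      congr 1
      exact hey.symm
    rw [commutatorElement_def, h1]
    have h2 : e * H.qr y s hs * e⁻¹ * (H.qr y s hs)⁻¹
        = e * (H.qr y s hs * e⁻¹ * (H.qr y s hs)⁻¹) := by group
    rw [h2]
    exact mul_mem he (typeGp_conj (H.qr_mem y s hs) (inv_mem he))
  | one => rw [commutatorElement_one_right]; exact one_mem _
  | mul x y hx hy h1 h2 =>
    have : ⁅g, x * y⁆ = ⁅g, x⁆ * (x * ⁅g, y⁆ * x⁻¹) := by
      simp only [commutatorElement_def]; group
    rw [this]
    exact mul_mem h1 (typeGp_conj (qrGp_le Pos hx) h2)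
  | inv x hx h1 =>
    have : ⁅g, x⁻¹⁆ = x⁻¹ * (⁅g, x⁆)⁻¹ * (x⁻¹)⁻¹ := by
      simp only [commutatorElement_def]; group
    rw [this]
    exact typeGp_conj (inv_mem (qrGp_le Pos hx)) (inv_mem h1)

end AForm

end Vale.Agent.P011S
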