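import Vale.Agent.P011.Two2.FinPre

/-!
The local prescription at a nonsplit finite place, with a polynomial condition.
-/

open Module Matrix Polynomial NumberField IsDedekindDomain TensorProduct Filter Topology

namespace Vale.Agent.P011.F3

open Vale.Agent.P011.Even Vale.Agent.P011.Arith Vale.Agent.P011.Two2

section place

variable {F : Type} [Field F] [NumberField F]

/-- Small elements at a place. -/
theorem exists_small (v : HeightOneSpectrum (𝓞 F)) {m : ℕ} (t : ℕ → F) (u : Fˣ) :
    ∃ δ : Fˣ, v.valuation F (δ : F) ≤ 1 ∧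
      ∀ j < m, v.valuation F ((δ : F) * t j) ≤ v.valuation F (4 * u) := by
  obtain ⟨π, hπ⟩ := exists_val_lt_one v
  have h40 : v.valuation F (4 * u) ≠ 0 :=
    (Valuation.ne_zero_iff _).mpr (mul_ne_zero (by norm_num) u.ne_zero)
  have h1 : ∀ j : ℕ, ∃ N : ℕ,
      v.valuation F (π : F) ^ N * v.valuation F (t j / (4 * u)) ^ 1 ≤ 1 := fun j =>
    exists_pow_mul_le hπ
  choose M hM using h1
  refine ⟨π ^ (∑ j ∈ Finset.range m, M j), ?_, fun j hj => ?_⟩
  · rw [Units.val_pow_eq_pow_val, map_pow]
    exact pow_le_one₀ zero_le hπ.le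
  · rw [Units.val_pow_eq_pow_val, map_mul, map_pow]
    have h2 : v.valuation F (π : F) ^ (∑ j ∈ Finset.range m, M j) *
        v.valuation F (t j / (4 * u)) ≤ 1 := by
      have h3 := hM j
      rw [pow_one] at h3
      refine le_trans (mul_le_mul' (pow_le_pow_right_of_le_one' hπ.le ?_) le_rfl) h3
      exact Finset.single_le_sum (f := fun k => M k) (fun _ _ => Nat.zero_le _)
        (Finset.mem_range.mpr hj)
    rw [map_div₀, ← mul_div_assoc, div_le_one₀ (zero_lt_iff.mpr h40)] at h2
    exact h2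

/-- The value of a polynomial near a point. -/
theorem val_eval_sub_lt {E : Type} [Field E] [NumberField E] [Algebra F E]
    {v : HeightOneSpectrum (𝓞 F)} {w : HeightOneSpectrum (𝓞 E)} (hw : Ab w v) (P : F[X]) (e : F)
    (u : Fˣ) (hP : P.eval e = u) {δ : Fˣ} (hδ1 : v.valuation F (δ : F) ≤ 1)
    (hδ : ∀ j < P.natDegree + 1,
      v.valuation F ((δ : F) * (taylor e P).coeff j) ≤ v.valuation F (4 * u)) {θ : E}
    (hθ : w.valuation E (θ - algebraMap F E e) < w.valuation E (algebraMap F E (δ : F))) :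
    w.valuation E (aeval θ P - algebraMap F E u) <
      w.valuation E 4 * w.valuation E (algebraMap F E (u : F)) := by
  have e4 : w.valuation E 4 * w.valuation E (algebraMap F E (u : F)) =
      w.valuation E (algebraMap F E (4 * u)) := by
    rw [map_mul (algebraMap F E), map_ofNat (algebraMap F E) 4, map_mul]
  have h40 : w.valuation E (algebraMap F E (4 * u)) ≠ 0 :=
    (Valuation.ne_zero_iff _).mpr
      ((_root_.map_ne_zero _).mpr (mul_ne_zero (by norm_num) u.ne_zero))
  rw [e4]
  have hd1 : w.valuation E (algebraMap F E (δ : F)) ≤ 1 := by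
    rw [val_le_one_iff hw]
    exact hδ1
  have h1 : aeval θ P = ∑ j ∈ Finset.range (P.natDegree + 1),
      algebraMap F E ((taylor e P).coeff j) * (θ - algebraMap F E e) ^ j := by
    have h2 : aeval θ P = aeval (θ - algebraMap F E e) (taylor e P) := by
      rw [taylor_apply, aeval_comp, map_add, aeval_X, aeval_C, sub_add_cancel]
    rw [h2, aeval_eq_sum_range, natDegree_taylor]
    exact Finset.sum_congr rfl fun j _ => Algebra.smul_def _ _
  have h2 : aeval θ P - algebraMap F E u = ∑ j ∈ Finset.range P.natDegree,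
      algebraMap F E ((taylor e P).coeff (j + 1)) * (θ - algebraMap F E e) ^ (j + 1) := by
    rw [h1, Finset.sum_range_succ', pow_zero, mul_one, taylor_coeff_zero, hP, add_sub_cancel_right]
  rw [h2]
  refine Valuation.map_sum_lt _ h40 fun j hj => ?_
  rw [Finset.mem_range] at hj
  rw [map_mul, map_pow, pow_succ]
  have h3 := (val_le_val_iff hw _ _).mpr (hδ (j + 1) (by omega))
  rw [map_mul (algebraMap F E) (δ : F), map_mul] at h3
  by_cases h0 : (taylor e P).coeff (j + 1) = 0
  · rw [h0, map_zero, map_zero, zero_mul]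
    exact zero_lt_iff.mpr h40
  · have h4 : w.valuation E (algebraMap F E ((taylor e P).coeff (j + 1))) ≠ 0 :=
      (Valuation.ne_zero_iff _).mpr ((_root_.map_ne_zero _).mpr h0)
    have h5 : w.valuation E (θ - algebraMap F E e) ≤ 1 := hθ.le.trans hd1
    calc w.valuation E (algebraMap F E ((taylor e P).coeff (j + 1))) *
          (w.valuation E (θ - algebraMap F E e) ^ j * w.valuation E (θ - algebraMap F E e))
        ≤ w.valuation E (algebraMap F E ((taylor e P).coeff (j + 1))) *
          (1 * w.valuation E (θ - algebraMap F E e)) :=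
          mul_le_mul' le_rfl (mul_le_mul' (pow_le_one₀ zero_le h5) le_rfl)
      _ < w.valuation E (algebraMap F E ((taylor e P).coeff (j + 1))) *
          w.valuation E (algebraMap F E (δ : F)) := by
          rw [one_mul]
          exact mul_lt_mul_of_pos_left hθ (zero_lt_iff.mpr h4)
      _ ≤ _ := by
          rw [mul_comm]
          exact h3

/-- A place at which the value of a polynomial is not a square. -/
theorem exists_place_poly (v : HeightOneSpectrum (𝓞 F)) {n : ℕ} (r : Fin n → Fˣ)
    (hr : Function.Injective r) (i0 : Fin n) (P : F[X]) (u : Fˣ) (hP : P.eval (r i0 : F) = u)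
    (hns : u ∉ LS (v.valuation F)) : ∃ ε : Z0, ε ≠ 0 ∧ ∀ (E : Type) [Field E] [NumberField E]
      [Algebra F E] (θ : E), finrank F E = n → (minpoly F θ).natDegree = n →
      (∀ k, v.valuation F ((minpoly F θ - ∏ i, (X - C (r i : F))).coeff k) < ε) →
      TotSplit E v ∧ ∃ w : HeightOneSpectrum (𝓞 E), Ab w v ∧
        ∀ c : Eˣ, (c : E) = aeval θ P → c ∉ LS (w.valuation E) := by
  obtain ⟨ε1, hε1, h1⟩ := totSplit_of_near v (fun i => (r i : F))
    (fun i j hij => hr (Units.ext hij))
  obtain ⟨δ, hδ1, hδ2⟩ := exists_small v (m := P.natDegree + 1)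
    (fun j => (taylor (r i0 : F) P).coeff j) u
  obtain ⟨ε2, hε2, h2⟩ := exists_place_near v (fun i => (r i : F)) i0 δ
  refine ⟨min ε1 ε2, by
    rcases min_choice ε1 ε2 with h | h <;> rw [h] <;> assumption, ?_⟩
  intro E _ _ _ θ hE hdeg hnear
  have hts : TotSplit E v := h1 E θ hE hdeg fun k => lt_of_lt_of_le (hnear k) (min_le_left _ _)
  obtain ⟨w, hw, hwθ⟩ := h2 E θ hE hdeg fun k => lt_of_lt_of_le (hnear k) (min_le_right _ _)
  refine ⟨hts, w, hw, fun c hc hcL => ?_⟩
  apply notMem_LS_above hts hns hw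
  have hlt := val_eval_sub_lt hw P (r i0 : F) u hP hδ1 hδ2 hwθ
  have hwu0 : w.valuation E (algebraMap F E (u : F)) ≠ 0 :=
    (Valuation.ne_zero_iff _).mpr ((_root_.map_ne_zero _).mpr u.ne_zero)
  have hcw : c / inc F E u ∈ LS (w.valuation E) := by
    apply LS_of_close
    have hu0 : algebraMap F E (u : F) ≠ 0 := (_root_.map_ne_zero _).mpr u.ne_zero
    have e1 : ((c / inc F E u : Eˣ) : E) - 1 =
        (aeval θ P - algebraMap F E u) / algebraMap F E (u : F) := by
      rw [Units.val_div_eq_div_val, hc]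
      change aeval θ P / algebraMap F E (u : F) - 1 = _
      rw [sub_div, div_self hu0]
    rw [e1, map_div₀, div_lt_iff₀ (zero_lt_iff.mpr hwu0)]
    exact hlt
  have h3 := Subgroup.mul_mem _ (Subgroup.inv_mem _ hcw) hcL
  rwa [inv_div, div_mul_cancel] at h3

end place

section final

variable {k K D : Type} [Field k] [NumberField k] [Field K] [StarRing K]
    [DivisionRing D] [StarRing D] [Algebra k K] [Algebra k D] [Algebra K D] [IsScalarTower k K D]
    {d : kˣ} {s : K} {n : ℕ}

/-- The prescription at a nonsplit finite place. -/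
theorem fin_tgt (hS : Setting k K D d s) (hn : 2 ≤ n) (hdeg : finrank K D = n ^ 2) {N : ℕ}
    (B : Basis (Fin N) k D) {Ω : Type} [Field Ω] [Algebra K Ω]
    (f : D →ₐ[K] Matrix (Fin n) (Fin n) Ω) {b : D} (hb : star b = b) (hb0 : b ≠ 0)
    (v : HeightOneSpectrum (𝓞 k)) (hv : d ∉ LS (v.valuation k)) (g : kˣ) :
    ∃ e : Fin n → kˣ, Function.Injective e ∧ ∀ (P : k[X]) (i0 : Fin n) (u : kˣ),
      P.eval (e i0 : k) = u → u ∉ LS (v.valuation k) →
      ∃ (R : D) (δ : ℝ), 0 < δ ∧ star R = R ∧ ∀ r : D,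
        (∀ j, plAbv (Sum.inl v : Pl k) (B.repr (r - R) j) < δ) →
        r ≠ 0 ∧ b + r ≠ 0 ∧
        (∀ ν : kˣ, (f (b + r)).det = algebraMap K Ω (algebraMap k K ν) →
          ν * g ∈ NF d ⊔ LS (v.valuation k)) ∧
        LinearIndependent k (fun i : Fin n => r ^ (i : ℕ)) ∧
        ∀ (E : Type) [Field E] [NumberField E] [Algebra k E] (θ : E), finrank k E = n →
          (minpoly k θ).natDegree = n → aeval r (minpoly k θ) = 0 →
          TotSplit E v ∧ ∃ w : HeightOneSpectrum (𝓞 E), Ab w v ∧
            ∀ c : Eˣ, (c : E) = aeval θ P → c ∉ LS (w.valuation E) := by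
  classical
  let F := v.adicCompletion k
  obtain ⟨e, T, he, hTs, hli, hz, -, hev⟩ :=
    exists_target hS hn hdeg f B (star_one D) hb one_ne_zero hb0 v hv 1 g
  refine ⟨e, he, fun P i0 u hPu hu => ?_⟩
  obtain ⟨ε, hε, hsp⟩ := exists_place_poly v e he i0 P u hPu hu
  obtain ⟨η, hη, hη'⟩ := exists_radius v ε hε
  let BA := Algebra.TensorProduct.basis F B
  let g' : D →+* F ⊗[k] D := (Algebra.TensorProduct.includeRight : D →ₐ[k] F ⊗[k] D).toRingHom
  have hgx : ∀ x, g' x = 1 ⊗ₜ x := fun x => rfl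
  have hTc : ∑ j, BA.repr T j • g' (B j) = T := by
    conv_rhs => rw [← BA.sum_repr T]
    refine Finset.sum_congr rfl fun j _ => ?_
    rw [Algebra.TensorProduct.basis_apply, hgx]
  have hev2 := near_left (F := F) (A := F ⊗[k] D) B BA g'
    (fun a x => by
      rw [hgx, hgx, TensorProduct.tmul_smul, ← algebraMap_smul F a ((1 : F) ⊗ₜ[k] x)])
    (1 : D)⁻¹ (fun j => BA.repr T j) (n := n) (q := ∏ i, (X - C (algebraMap k F (e i : k))))
    (by rw [hTc]; exact hli)
    (monic_prod_of_monic _ _ fun i _ => monic_X_sub_C _) (natDegree_prod_X_sub_C' _)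
    (by rw [hTc]; exact hz) hη
  obtain ⟨R, δ, hδ, hR, h⟩ := exists_sym_near hS B v T hTs (hev.and hev2)
  refine ⟨R, δ, hδ, hR, fun r hr => ?_⟩
  obtain ⟨h1, h2⟩ := h r hr
  obtain ⟨a1, a2, -, a4⟩ := h1 r rfl
  obtain ⟨b1, b2⟩ := h2 r rfl
  rw [inv_one, one_mul] at b1 b2
  refine ⟨a1, a2, a4, b1, fun E _ _ _ θ hE hmin hz => hsp E θ hE hmin fun i => ?_⟩
  have hint : IsIntegral k θ := by
    have h7 : FiniteDimensional k E := by
      have : FiniteDimensional ℚ E := inferInstance
      have : IsScalarTower ℚ k E := IsScalarTower.of_algebraMap_eq fun q => by simp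
      exact Module.Finite.of_restrictScalars_finite ℚ k E
    exact Algebra.IsIntegral.isIntegral θ
  have h5 := b2 _ (minpoly.monic hint) hmin hz i
  have h6 : algebraMap k F ((minpoly k θ).coeff i) -
      (∏ i, (X - C (algebraMap k F (e i : k)))).coeff i =
      algebraMap k F ((minpoly k θ - ∏ i, (X - C (e i : k))).coeff i) := by
    have h7 : (∏ i, (X - C (algebraMap k F (e i : k)))) =
        (∏ i, (X - C (e i : k))).map (algebraMap k F) := by
      rw [Polynomial.map_prod]
      refine Finset.prod_congr rfl fun i _ => ?_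
      rw [Polynomial.map_sub, Polynomial.map_X, Polynomial.map_C]
    rw [h7, coeff_map, coeff_sub, map_sub]
  rw [h6] at h5
  exact hη' _ h5

end final

end Vale.Agent.P011.F3
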