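import Vale.Agent.P011.F3.Twist
import Vale.Agent.P011.Three.Comb

/-!
Rank three: noncentral normal subgroups of the special unitary group, from the propagation
property, the generation of the unitary group by positive quasi-reflections and the equality of
the special unitary group with the commutator subgroup of the unitary group.
-/

open Module Matrix
open scoped ComplexOrder commutatorElement

set_option linter.unusedSectionVars false

namespace Vale.Agent.P011.F3

open Vale.Agent.P011S Vale.Agent.P011.RP Vale.Agent.P011.T2 Vale.Agent.P011.Three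
open Vale.Agent.P011.Two.Hi

section lin

variable {D : Type} [DivisionRing D] [StarRing D] {m : ℕ}

/-- A linear map preserving all lines is the multiplication by a central element. -/
theorem scalar_of_rows (hm : 2 ≤ m) {T : (Fin m → D) →ₗ[D] (Fin m → D)}
    (hT : ∀ x, ∃ c : D, T x = c • x) :
    ∃ c : D, (∀ a, c * a = a * c) ∧ ∀ x, T x = c • x := by
  choose c hc using hT
  let e : Fin m → (Fin m → D) := fun i => Pi.single i 1
  have h1 : ∀ i j : Fin m, i ≠ j → ∀ a : D, a * c (e i) = c (e j) * a := by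
    intro i j hij a
    have h2 := hc (a • e i + e j)
    rw [map_add, map_smul, hc (e i), hc (e j)] at h2
    have h3 := congrFun h2 i
    have h4 := congrFun h2 j
    simp only [e, Pi.add_apply, Pi.smul_apply, smul_eq_mul, Pi.single_eq_same,
      Pi.single_eq_of_ne hij, Pi.single_eq_of_ne hij.symm, mul_one, mul_zero, add_zero,
      zero_add] at h3 h4
    rw [h4, ← h3]
  obtain ⟨i0, i1, h01⟩ : ∃ i0 i1 : Fin m, i0 ≠ i1 :=
    ⟨⟨0, by omega⟩, ⟨1, by omega⟩, by simp [Fin.ext_iff]⟩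
  obtain ⟨b, hb⟩ : ∃ b, b = c (e i0) := ⟨_, rfl⟩
  have hbc : ∀ a, b * a = a * b := by
    intro a
    have h2 := h1 i0 i1 h01 1
    rw [one_mul, mul_one, ← hb] at h2
    have h3 := h1 i0 i1 h01 a
    rw [← hb, ← h2] at h3
    exact h3.symm
  have hall : ∀ i, c (e i) = b := by
    intro i
    by_cases hi : i = i0
    · rw [hi, hb]
    · have h2 := h1 i i0 hi 1
      rwa [one_mul, mul_one, ← hb] at h2
  refine ⟨b, hbc, fun x => ?_⟩
  rw [map_eq_sum T x]
  ext j
  rw [Finset.sum_apply, Finset.sum_eq_single j]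
  · change (x j • T (e j)) j = _
    rw [hc (e j), hall j]
    simp only [e, Pi.smul_apply, smul_eq_mul, Pi.single_eq_same, mul_one]
    exact (hbc (x j)).symm
  · intro i _ hij
    change (x i • T (e i)) j = _
    rw [hc (e i)]
    simp only [e, Pi.smul_apply, smul_eq_mul, Pi.single_eq_of_ne hij.symm, mul_zero]
  · intro h
    exact absurd (Finset.mem_univ j) h

/-- In rank at least three there is a nonzero vector orthogonal to two given ones. -/
theorem exists_orth_row (H : Matrix (Fin m) (Fin m) D) (hH : IsAnisotropicForm H) (hm : 3 ≤ m)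
    (x y : Fin m → D) :
    ∃ w, w ≠ 0 ∧ (rowA H hH).h w x = 0 ∧ (rowA H hH).h w y = 0 := by
  let F : (Fin m → D) →ₗ[D] (D × D) :=
    { toFun := fun w => ((rowA H hH).h w x, (rowA H hH).h w y)
      map_add' := fun a b => by
        ext
        · exact (rowA H hH).add_left a b x
        · exact (rowA H hH).add_left a b y
      map_smul' := fun c a => by
        ext
        · exact (rowA H hH).smul_left c a x
        · exact (rowA H hH).smul_left c a y }
  have h1 : LinearMap.ker F ≠ ⊥ := by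
    apply LinearMap.ker_ne_bot_of_finrank_lt
    rw [Module.finrank_prod, Module.finrank_self, Module.finrank_fin_fun]
    omega
  obtain ⟨w, hw, hw0⟩ := (Submodule.ne_bot_iff _).mp h1
  have h2 : F w = 0 := hw
  exact ⟨w, hw0, congrArg Prod.fst h2, congrArg Prod.snd h2⟩

theorem isom_eq_map (H : Matrix (Fin m) (Fin m) D) (hH : IsAnisotropicForm H) :
    (rowA H hH).isom = (UH H).map rp := by
  ext T
  constructor
  · intro hT
    obtain ⟨g, rfl⟩ := rp_surj T
    exact ⟨g, (rp_mem hH).mp hT, rfl⟩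
  · rintro ⟨g, hg, rfl⟩
    exact (rp_mem hH).mpr hg

theorem comm_eq_map (H : Matrix (Fin m) (Fin m) D) (hH : IsAnisotropicForm H) :
    ⁅(rowA H hH).isom, (rowA H hH).isom⁆ = (⁅UH H, UH H⁆).map rp := by
  rw [isom_eq_map, Subgroup.map_commutator]

end lin

section main

variable {K D Ω : Type} [Field K] [StarRing K] [DivisionRing D] [StarRing D] [Algebra K D]
  [Field Ω] [Algebra K Ω] {n : ℕ} (f : D →ₐ[K] Matrix (Fin n) (Fin n) Ω) {m : ℕ}

theorem GG_eq {H : Matrix (Fin m) (Fin m) D} (hH : IsAnisotropicForm H)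
    (hcomm : SU f H = ⁅UH H, UH H⁆) :
    Two.Hi.GG f H = ⁅(rowA H hH).isom, (rowA H hH).isom⁆ := by
  rw [comm_eq_map, Two.Hi.GG, hcomm]

/-- A subgroup whose elements preserve all lines is central. -/
theorem central_of_lines (hm : 2 ≤ m) {H : Matrix (Fin m) (Fin m) D} (N : Subgroup (SU f H))
    (h : ∀ σ ∈ NN f N, ∀ x : Fin m → D, ∃ c : D, σ x = c • x) :
    N ≤ Subgroup.center (SU f H) := by
  intro g hg
  have h1 := h (rp (g : (Matrix (Fin m) (Fin m) D)ˣ)) ⟨_, ⟨g, hg, rfl⟩, rfl⟩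
  obtain ⟨c, hc, hx⟩ := scalar_of_rows (T := ((rp (g : (Matrix (Fin m) (Fin m) D)ˣ) :
    (Fin m → D) ≃ₗ[D] (Fin m → D)) : (Fin m → D) →ₗ[D] (Fin m → D))) hm h1
  have h2 : ∀ k : (Matrix (Fin m) (Fin m) D)ˣ, rp k * rp (g : (Matrix (Fin m) (Fin m) D)ˣ) =
      rp (g : (Matrix (Fin m) (Fin m) D)ˣ) * rp k := by
    intro k
    apply LinearEquiv.ext
    intro x
    have e1 : ∀ x, rp (g : (Matrix (Fin m) (Fin m) D)ˣ) x = c • x := hx
    rw [LinearEquiv.mul_apply, LinearEquiv.mul_apply, e1, e1, map_smul]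
  rw [Subgroup.mem_center_iff]
  intro k
  apply Subtype.ext
  apply rp_injective
  change rp ((k : (Matrix (Fin m) (Fin m) D)ˣ) * (g : (Matrix (Fin m) (Fin m) D)ˣ)) =
    rp ((g : (Matrix (Fin m) (Fin m) D)ˣ) * (k : (Matrix (Fin m) (Fin m) D)ˣ))
  rw [map_mul, map_mul, h2]

/-- **The last step**: noncentral normal subgroups. -/
theorem top_or_central [CharZero D] (hm : 3 ≤ m) {H : Matrix (Fin m) (Fin m) D}
    (hH : IsAnisotropicForm H) {Pos : D → Prop} (h0 : ¬ Pos 0) {x₁ : Fin m → D}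
    (hx₁ : Pos ((rowA H hH).h x₁ x₁)) (hS : ∀ c, Pos c → (rowA H hH).Spread c)
    (hgen : (rowA H hH).isom ≤ (rowA H hH).qrGp Pos)
    (htr : ∀ g ∈ (rowA H hH).isom, ∀ x y : Fin m → D, ∃ e ∈ Two.Hi.GG f H, e x = g x ∧ e y = g y)
    (hcomm : SU f H = ⁅UH H, UH H⁆)
    {θ : D} (hθ : star θ = -θ) (hθ0 : θ ≠ 0) (hθc : ∀ x, x * θ = θ * x)
    (N : Subgroup (SU f H)) [hN : N.Normal] : N ≤ Subgroup.center (SU f H) ∨ N = ⊤ := by
  by_cases h : ∀ σ ∈ NN f N, ∀ x : Fin m → D, ∃ c : D, σ x = c • x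
  · exact Or.inl (central_of_lines f (by omega) N h)
  · right
    push Not at h
    obtain ⟨σ, hσ, x, hx⟩ := h
    have hG := GG_eq f hH hcomm
    have h1 : ⁅(rowA H hH).isom, (rowA H hH).isom⁆ ≤ NN f N := by
      refine AForm.comm_le_of_spread (exists_orth_row H hH hm) Pos h0 hx₁ hS hgen ?_ hθ hθ0 hθc
        ?_ ?_ hσ hx
      · intro g hg x y
        obtain ⟨e, he, hex, hey⟩ := htr g hg x y
        exact ⟨e, hG ▸ he, hex, hey⟩
      · intro e he g hg
        exact NN_conj f N (hG ▸ he) hg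
      · intro g hg
        rw [isom_eq_map]
        obtain ⟨_, ⟨a, -, rfl⟩, rfl⟩ := hg
        exact ⟨a, a.2.1, rfl⟩
    rw [← hG] at h1
    rw [eq_top_iff]
    intro g _
    obtain ⟨_, ⟨a, ha, rfl⟩, hag⟩ := h1 ⟨(g : (Matrix (Fin m) (Fin m) D)ˣ), g.2, rfl⟩
    have h2 : a = g := Subtype.ext (rp_injective hag)
    rwa [← h2]

end main

/-- The statement for normalised forms. -/
def NormNon (m : ℕ) : Prop :=
  ∀ (K D : Type) [Field K] [NumberField K] [StarRing K] [DivisionRing D] [StarRing D]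
    [Algebra K D] [StarModule K D] [FiniteDimensional K D] [Algebra.IsCentral K D]
    (_ : ∃ k : K, star k ≠ k) (n : ℕ) (_ : 2 ≤ n) (_ : finrank K D = n ^ 2)
    (F : Type) [Field F] [Algebra K F] (f : D →ₐ[K] Matrix (Fin n) (Fin n) F)
    (H : Matrix (Fin m) (Fin m) D) (_ : IsAnisotropicForm H)
    (ι : Type) [Fintype ι] (R : ι → RData K D n) (_ : Complete R) (_ : RP.Dense R)
    (_ : ∀ i, (R i).A.PosDef) (_ : ∀ i, PosDim (R i) H n) (N : Subgroup (SU f H)) [N.Normal],
    N ≤ Subgroup.center (SU f H) ∨ N = ⊤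

theorem tw_congr_non {X : Type} [Group X] {G G' : Subgroup X} (hG : G' = G)
    (h : ∀ N : Subgroup G', N.Normal → N ≤ Subgroup.center G' ∨ N = ⊤) (N : Subgroup G)
    (hN : N.Normal) : N ≤ Subgroup.center G ∨ N = ⊤ := by
  subst hG
  exact h N hN

/-- Reduction to normalised forms. -/
theorem of_normNon {m : ℕ} (hm : 2 ≤ m) (h : NormNon m) {K D : Type} [Field K] [NumberField K]
    [StarRing K] [DivisionRing D] [StarRing D] [Algebra K D] [StarModule K D]
    [FiniteDimensional K D] [Algebra.IsCentral K D] (hK : ∃ k : K, star k ≠ k) {n : ℕ}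
    (hn : 2 ≤ n) (hdeg : finrank K D = n ^ 2) {F : Type} [Field F] [Algebra K F]
    (f : D →ₐ[K] Matrix (Fin n) (Fin n) F) (H : Matrix (Fin m) (Fin m) D)
    (hH : IsAnisotropicForm H) (N : Subgroup (SU f H)) [N.Normal] :
    N ≤ Subgroup.center (SU f H) ∨ N = ⊤ := by
  classical
  have hn0 : 0 < n := by omega
  have hchar : CharZero D := charZero_of_injective_algebraMap (algebraMap K D).injective
  obtain ⟨ι, _, R, hc, hd⟩ := exists_family (D := D) hK hn0 hdeg
  have hHu : IsUnit H := isUnit_of_anis hH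
  obtain ⟨ε, u, hu⟩ := exists_plane (q := 1) R hd (by omega) hH.1 hHu
  obtain ⟨a, ha, ha0, haP⟩ : ∃ a : D, star a = a ∧ a ≠ 0 ∧
      ∀ i, ((((ε i : ℤˣ) : ℤ) : ℂ) • ((R i).f a * (R i).A)).PosDef := by
    rcases isEmpty_or_nonempty ι with hι | ⟨⟨i0⟩⟩
    · exact ⟨1, star_one D, one_ne_zero, fun i => (hι.false i).elim⟩
    · obtain ⟨a, ha, haP⟩ := exists_definite R hd ε
      refine ⟨a, ha, ?_, haP⟩
      rintro rfl
      have h1 := (haP i0).diag_pos (i := ⟨0, hn0⟩)
      rw [map_zero, zero_mul, smul_zero, Matrix.zero_apply] at h1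
      exact lt_irrefl _ h1
  refine tw_congr_non (SU_twist a ha0 ha f H) (fun N hN => ?_) N ‹_›
  refine @h K D _ _ _ _ (twist a ha0 ha) _ (twist_module a ha0 ha) _ _ hK n hn hdeg F _ _ f
    (Vale.Agent.P011.T2.tw a H) (anis_twist a ha0 ha hH) ι _
    (fun i => (R i).tw a ha0 ha (ε i)) hc hd haP (fun i => ?_) N hN
  obtain ⟨u', hu'⟩ : ∃ u' : Fin m → D, u' = fun b => u 0 b * a⁻¹ := ⟨_, rfl⟩
  have h1 := @U1_gram K D _ _ _ (twist a ha0 ha) _ n m (twist_module a ha0 ha) _ _
    ((R i).tw a ha0 ha (ε i)) (Vale.Agent.P011.T2.tw a H) u' u'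
  refine ⟨@U1 K D _ _ _ (twist a ha0 ha) _ n m ((R i).tw a ha0 ha (ε i)) u', ?_⟩
  rw [h1, hu', rowH_tw]
  have h2 := hu i (fun _ => 1) (fun h => one_ne_zero (congrFun h 0))
  have e1 : (fun b => ∑ c : Fin 1, (1 : D) * u c b) = u 0 := by
    funext b
    simp
  rw [e1] at h2
  change ((R i).f (rowH H (u 0) (u 0) * a⁻¹) *
    ((((ε i : ℤˣ) : ℤ) : ℂ) • ((R i).f a * (R i).A))).PosDef
  rw [mul_smul_comm, ← mul_assoc, ← map_mul, mul_assoc, inv_mul_cancel₀ ha0, mul_one]
  exact h2

/-- Positive lengths. -/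
def PosL {K D : Type} [Field K] [StarRing K] [DivisionRing D] [StarRing D] [Algebra K D] {n : ℕ}
    {ι : Type} (R : ι → RData K D n) (c : D) : Prop :=
  c ≠ 0 ∧ star c = c ∧ ∀ i, (R i).PosAt c

/-- The generation statement in rank three. -/
def GenStmt : Prop :=
  ∀ (K D : Type) [Field K] [NumberField K] [StarRing K] [DivisionRing D] [StarRing D]
    [Algebra K D] [StarModule K D] [FiniteDimensional K D] [Algebra.IsCentral K D]
    (_ : ∃ k : K, star k ≠ k) (n : ℕ) (_ : 2 ≤ n) (_ : finrank K D = n ^ 2)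
    (ι : Type) [Fintype ι] (R : ι → RData K D n) (_ : Complete R) (_ : RP.Dense R)
    (_ : ∀ i, (R i).A.PosDef) (H : Matrix (Fin 3) (Fin 3) D) (hH : IsAnisotropicForm H)
    (_ : ∀ i, PosDim (R i) H n), (rowA H hH).isom ≤ (rowA H hH).qrGp (PosL R)

/-- The special unitary group is the commutator subgroup of the unitary group. -/
def CommStmt : Prop :=
  ∀ (K D : Type) [Field K] [NumberField K] [StarRing K] [DivisionRing D] [StarRing D]
    [Algebra K D] [StarModule K D] [FiniteDimensional K D] [Algebra.IsCentral K D]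
    (_ : ∃ k : K, star k ≠ k) (n : ℕ) (_ : 2 ≤ n) (_ : finrank K D = n ^ 2)
    (F : Type) [Field F] [Algebra K F] (f : D →ₐ[K] Matrix (Fin n) (Fin n) F)
    (H : Matrix (Fin 3) (Fin 3) D) (_ : IsAnisotropicForm H), SU f H = ⁅UH H, UH H⁆

/-- Transitivity of the special unitary group on pairs. -/
def TrStmt : Prop :=
  ∀ (K D : Type) [Field K] [NumberField K] [StarRing K] [DivisionRing D] [StarRing D]
    [Algebra K D] [StarModule K D] [FiniteDimensional K D] [Algebra.IsCentral K D]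
    (_ : ∃ k : K, star k ≠ k) (n : ℕ) (_ : 0 < n) (_ : finrank K D = n ^ 2)
    (F : Type) [Field F] [Algebra K F] (f : D →ₐ[K] Matrix (Fin n) (Fin n) F)
    (H : Matrix (Fin 3) (Fin 3) D) (hH : IsAnisotropicForm H),
    ∀ g ∈ (rowA H hH).isom, ∀ x y : Fin 3 → D, ∃ e ∈ Two.Hi.GG f H, e x = g x ∧ e y = g y

/-- **Rank three**, from the four statements. -/
theorem norm_three (hT : ThmTStmt) (hG : GenStmt) (hC : CommStmt) (hP : TrStmt) :
    NormNon 3 := by
  intro K D _ _ _ _ _ _ _ _ _ hK n hn hdeg F _ _ f H hH ι _ R hc hd hA hH1 N hN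
  have hn0 : 0 < n := by omega
  have hchar : CharZero D := charZero_of_injective_algebraMap (algebraMap K D).injective
  obtain ⟨e, he⟩ := exists_unit hK hn0 hdeg hc hd (by norm_num) hA hH hH1
  obtain ⟨θ, hθ0, hθ, hθs⟩ : ∃ θ : D, θ ≠ 0 ∧ (∀ x, x * θ = θ * x) ∧ star θ = -θ := by
    obtain ⟨k, hk⟩ := hK
    refine ⟨algebraMap K D (k - star k), ?_, ?_, ?_⟩
    · rw [Ne, map_eq_zero]
      exact sub_ne_zero.mpr (Ne.symm hk)
    · intro x
      exact (Algebra.commutes _ x).symm
    · rw [← algebraMap_star_comm, star_sub, star_star, ← map_neg, neg_sub]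
  refine top_or_central f le_rfl hH (Pos := PosL R) (fun h => h.1 rfl) (x₁ := e) ?_
    (fun c hc' => spread_pos hT hK hn hdeg R hc hd hH hH1 hc'.1 hc'.2.1 hc'.2.2)
    (hG K D hK n hn hdeg ι R hc hd hA H hH hH1) (hP K D hK n hn0 hdeg F f H hH)
    (hC K D hK n hn hdeg F f H hH) hθs hθ0 hθ N
  rw [he]
  refine ⟨one_ne_zero, star_one D, fun i => ?_⟩
  change ((R i).f 1 * (R i).A).PosDef
  rw [map_one, one_mul]
  exact hA i

/-- **Rank three**: noncentral normal subgroups, from the four statements. -/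
theorem non_three (hT : ThmTStmt) (hG : GenStmt) (hC : CommStmt) (hP : TrStmt) {K D : Type}
    [Field K] [NumberField K]
    [StarRing K] [DivisionRing D] [StarRing D] [Algebra K D] [StarModule K D]
    [FiniteDimensional K D] [Algebra.IsCentral K D] (hK : ∃ k : K, star k ≠ k) {n : ℕ}
    (hn : 2 ≤ n) (hdeg : finrank K D = n ^ 2) {F : Type} [Field F] [Algebra K F]
    (f : D →ₐ[K] Matrix (Fin n) (Fin n) F) (H : Matrix (Fin 3) (Fin 3) D)
    (hH : IsAnisotropicForm H) (N : Subgroup (SU f H)) [N.Normal] :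
    N ≤ Subgroup.center (SU f H) ∨ N = ⊤ :=
  of_normNon (by norm_num) (norm_three hT hG hC hP) hK hn hdeg f H hH N

end Vale.Agent.P011.F3
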