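import Vale.Agent.P011.F3.Nu
import Vale.Agent.P011.Two.HigherFinal

/-!
Isometries of prescribed reduced norm supported on a given line, and transitivity of the special
unitary group on the images of two vectors.
-/

open Module Matrix

namespace Vale.Agent.P011.F3

open Vale.Agent.P011S Vale.Agent.P011.Two.Hi
open Vale.Agent.P011.RP (rowH rowF)

variable {K D : Type} [Field K] [DivisionRing D] [StarRing D] [Algebra K D] {Ω : Type} [Field Ω]
  [Algebra K Ω] {n : ℕ} (f : D →ₐ[K] Matrix (Fin n) (Fin n) Ω) {m : ℕ}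
  {H : Matrix (Fin m) (Fin m) D} {hH : IsAnisotropicForm H}

/-- The reduced norm of a quasi-reflection. -/
theorem redNorm_qr {y : Fin m → D} {z : D} (hz : z + star z = (rowA H hH).h y y) (hz0 : z ≠ 0) :
    redNorm f (Fin m) (rm ((rowA H hH).qr y z hz : (Fin m → D) →ₗ[D] (Fin m → D))) =
      (f (-(star z * z⁻¹))).det := by
  obtain ⟨C, hC⟩ : ∃ C : Matrix (Fin m) (Fin 1) D, C = Matrix.of fun i _ =>
    (rowA H hH).h (Pi.single i 1) y * z⁻¹ := ⟨_, rfl⟩
  obtain ⟨Y, hY⟩ : ∃ Y : Matrix (Fin 1) (Fin m) D, Y = Matrix.of fun _ j => y j := ⟨_, rfl⟩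
  have hx : ∀ x : Fin m → D, (rowA H hH).h x y = ∑ i, x i * (rowA H hH).h (Pi.single i 1) y := by
    intro x
    let T : (Fin m → D) →ₗ[D] D :=
      { toFun := fun x => (rowA H hH).h x y
        map_add' := fun a b => (rowA H hH).add_left a b y
        map_smul' := fun a b => (rowA H hH).smul_left a b y }
    exact map_eq_sum T x
  have h1 : rm ((rowA H hH).qr y z hz : (Fin m → D) →ₗ[D] (Fin m → D)) = 1 - C * Y := by
    apply rm_eq
    intro x
    rw [Matrix.vecMul_sub, Matrix.vecMul_one]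
    change (rowA H hH).qr y z hz x = _
    rw [(rowA H hH).qr_apply, hx x]
    congr 1
    ext j
    rw [← Matrix.vecMul_vecMul, hC, hY]
    simp only [Pi.smul_apply, smul_eq_mul, Matrix.vecMul, dotProduct, Matrix.of_apply,
      Finset.univ_unique, Finset.sum_singleton]
    rw [Finset.sum_mul]
    congr 1
    exact Finset.sum_congr rfl fun i _ => by rw [mul_assoc]
  rw [h1, redNorm_one_sub_mul_comm]
  have h2 : (1 - Y * C : Matrix (Fin 1) (Fin 1) D) = dg (-(star z * z⁻¹)) := by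
    ext i j
    have hi : i = 0 := Subsingleton.elim _ _
    have hj : j = 0 := Subsingleton.elim _ _
    subst hi hj
    rw [Matrix.sub_apply, Matrix.one_apply_eq, Matrix.mul_apply, hY, hC]
    simp only [Matrix.of_apply, dg]
    have h3 : ∑ j, y j * ((rowA H hH).h (Pi.single j 1) y * z⁻¹) = (rowA H hH).h y y * z⁻¹ := by
      rw [hx y, Finset.sum_mul]
      exact Finset.sum_congr rfl fun i _ => by rw [mul_assoc]
    rw [h3, ← hz, add_mul, mul_inv_cancel₀ hz0]
    simp
  rw [h2, redNorm_dg]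

theorem redNorm_one' : redNorm f (Fin m) (rm ((1 : (Fin m → D) ≃ₗ[D] (Fin m → D)) :
    (Fin m → D) →ₗ[D] (Fin m → D))) = 1 := by
  have h : rm ((1 : (Fin m → D) ≃ₗ[D] (Fin m → D)) : (Fin m → D) →ₗ[D] (Fin m → D)) = 1 :=
    rm_eq fun x => (Matrix.vecMul_one x).symm
  rw [h, map_one]

theorem redNorm_mul' (a b : (Fin m → D) ≃ₗ[D] (Fin m → D)) :
    redNorm f (Fin m) (rm ((a * b : (Fin m → D) ≃ₗ[D] (Fin m → D)) :
      (Fin m → D) →ₗ[D] (Fin m → D))) =
    redNorm f (Fin m) (rm (a : (Fin m → D) →ₗ[D] (Fin m → D))) *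
      redNorm f (Fin m) (rm (b : (Fin m → D) →ₗ[D] (Fin m → D))) := by
  have h : rm ((a * b : (Fin m → D) ≃ₗ[D] (Fin m → D)) : (Fin m → D) →ₗ[D] (Fin m → D)) =
      rm (b : (Fin m → D) →ₗ[D] (Fin m → D)) * rm (a : (Fin m → D) →ₗ[D] (Fin m → D)) := by
    refine rm_eq fun x => ?_
    rw [← Matrix.vecMul_vecMul, ← rm_apply, ← rm_apply]
    rfl
  rw [h, map_mul, mul_comm]

theorem redNorm_inv' (a : (Fin m → D) ≃ₗ[D] (Fin m → D)) :
    redNorm f (Fin m) (rm (a : (Fin m → D) →ₗ[D] (Fin m → D))) *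
      redNorm f (Fin m) (rm ((a⁻¹ : (Fin m → D) ≃ₗ[D] (Fin m → D)) :
        (Fin m → D) →ₗ[D] (Fin m → D))) = 1 := by
  rw [← redNorm_mul', mul_inv_cancel, redNorm_one']

/-- Isometries supported on a line with the reduced norm of a given isometry. -/
theorem exists_line [CharZero K] [CharZero D] [FiniteDimensional ℚ D] (hn : 0 < n)
    {w : Fin m → D} (hw : w ≠ 0) {g : (Fin m → D) ≃ₗ[D] (Fin m → D)}
    (hg : g ∈ (rowA H hH).isom) : ∃ u ∈ (rowA H hH).isom,
      (∀ v, (rowA H hH).h v w = 0 → u v = v) ∧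
      redNorm f (Fin m) (rm (u : (Fin m → D) →ₗ[D] (Fin m → D))) =
        redNorm f (Fin m) (rm (g : (Fin m → D) →ₗ[D] (Fin m → D))) := by
  have hg' := hg
  rw [isom_eq_closure] at hg'
  clear hg
  induction hg' using Subgroup.closure_induction with
  | mem g hg =>
    obtain ⟨y, z, hz, rfl⟩ := hg
    by_cases hy : y = 0
    · subst hy
      refine ⟨1, one_mem _, fun v _ => rfl, ?_⟩
      rw [qr_zero]
    · have hzz : z + star z ≠ 0 := by
        rw [hz]
        exact (rowA H hH).self_ne_zero hy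
      have hz0 : z ≠ 0 := by
        rintro rfl
        exact hzz (by rw [star_zero, add_zero])
      obtain ⟨s₁, s₂, h₁, h₂, h10, hre⟩ := nu hn f hzz ((rowA H hH).star_h w w)
      have h20 : s₂ ≠ 0 := by
        rintro rfl
        rw [mul_zero, star_zero, add_zero] at hre
        exact (rowA H hH).self_ne_zero hw hre.symm
      refine ⟨(rowA H hH).qr w (z * s₁ * s₂) hre, (rowA H hH).qr_mem _ _ _,
        fun v hv => qr_fix hv, ?_⟩
      rw [redNorm_qr f hre (mul_ne_zero (mul_ne_zero hz0 h10) h20), redNorm_qr f hz hz0,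
        det_comm_prod f h₁ h₂ h10 h20]
  | one => exact ⟨1, one_mem _, fun v _ => rfl, rfl⟩
  | mul a b _ _ iha ihb =>
    obtain ⟨u, hu, hu1, hu2⟩ := iha
    obtain ⟨v, hv, hv1, hv2⟩ := ihb
    refine ⟨u * v, mul_mem hu hv, fun x hx => ?_, ?_⟩
    · rw [LinearEquiv.mul_apply, hv1 x hx, hu1 x hx]
    · rw [redNorm_mul', redNorm_mul', hu2, hv2]
  | inv a _ iha =>
    obtain ⟨u, hu, hu1, hu2⟩ := iha
    refine ⟨u⁻¹, inv_mem hu, fun x hx => ?_, ?_⟩
    · nth_rewrite 1 [← hu1 x hx]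
      exact u.symm_apply_apply x
    · have h1 := redNorm_inv' f u
      have h2 := redNorm_inv' f a
      rw [hu2] at h1
      have h3 : redNorm f (Fin m) (rm (a : (Fin m → D) →ₗ[D] (Fin m → D))) ≠ 0 :=
        left_ne_zero_of_mul_eq_one h2
      exact mul_left_cancel₀ h3 (by rw [h1, h2])

/-- A nonzero vector orthogonal to two given ones. -/
theorem exists_orth_two (hm : 3 ≤ m) (x y : Fin m → D) :
    ∃ w, w ≠ 0 ∧ (rowA H hH).h w x = 0 ∧ (rowA H hH).h w y = 0 := by
  let T : (Fin m → D) →ₗ[D] (D × D) :=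
    { toFun := fun w => ((rowA H hH).h w x, (rowA H hH).h w y)
      map_add' := fun a b => Prod.ext ((rowA H hH).add_left a b x) ((rowA H hH).add_left a b y)
      map_smul' := fun a b => Prod.ext ((rowA H hH).smul_left a b x)
        ((rowA H hH).smul_left a b y) }
  have h1 := LinearMap.finrank_range_add_finrank_ker T
  have h2 : finrank D (LinearMap.range T) ≤ 2 := by
    refine (Submodule.finrank_le _).trans ?_
    rw [Module.finrank_prod, Module.finrank_self]
  rw [Module.finrank_fin_fun] at h1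
  have h3 : LinearMap.ker T ≠ ⊥ := by
    intro h
    rw [h, finrank_bot] at h1
    omega
  obtain ⟨w, hw, hw0⟩ := Submodule.exists_mem_ne_zero_of_ne_bot h3
  have hw' : T w = 0 := hw
  exact ⟨w, hw0, congrArg Prod.fst hw', congrArg Prod.snd hw'⟩

theorem mem_GG' {T : (Fin m → D) ≃ₗ[D] (Fin m → D)} (hT : T ∈ (rowA H hH).isom)
    (h : redNorm f (Fin m) (rm (T : (Fin m → D) →ₗ[D] (Fin m → D))) = 1) : T ∈ GG f H := by
  obtain ⟨g, rfl⟩ := rp_surj T
  have hg : g ∈ UH H := (rp_mem hH).mp hT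
  rw [rm_rp, redNorm_conj f hH hg] at h
  exact ⟨g, ⟨hg, h⟩, rfl⟩

/-- **Transitivity.** Every isometry agrees at two given vectors with an element of the special
unitary group. -/
theorem htr [CharZero K] [CharZero D] [FiniteDimensional ℚ D] (hn : 0 < n) (hm : 3 ≤ m)
    {g : (Fin m → D) ≃ₗ[D] (Fin m → D)} (hg : g ∈ (rowA H hH).isom) (x y : Fin m → D) :
    ∃ e ∈ GG f H, e x = g x ∧ e y = g y := by
  obtain ⟨w, hw, hx, hy⟩ := exists_orth_two (H := H) (hH := hH) hm x y
  obtain ⟨u, hu, hu1, hu2⟩ := exists_line f hn hw (inv_mem hg)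
  have hge : g * u ∈ (rowA H hH).isom := mul_mem hg hu
  refine ⟨g * u, mem_GG' f hge ?_, ?_, ?_⟩
  · rw [redNorm_mul', hu2, redNorm_inv']
  · rw [LinearEquiv.mul_apply, hu1 x ((rowA H hH).orth_symm hx)]
  · rw [LinearEquiv.mul_apply, hu1 y ((rowA H hH).orth_symm hy)]

end Vale.Agent.P011.F3
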