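import Vale.Agent.P011.F3.ChainR

/-!
Two frames of the same lengths in a hermitian space are carried into each other by an isometry
(a product of quasi-reflections).
-/

open Module
open Vale.Agent.P011.T2

namespace Vale.Agent.P011.F3

open Vale.Agent.P011.Two (IsFrame)

variable {F L W : Type} [Field F] [Field L] [CharZero L] [StarRing L] [Algebra F L]
  [AddCommGroup W] [Module L W]

/-- `f` is carried into `f'` by an isometry -/
def Isom (b : HF L W) {r : ℕ} (f f' : Fin r → W) : Prop :=
  ∃ g : W → W, (∀ x y, b.h (g x) (g y) = b.h x y) ∧ ∀ i, g (f i) = f' i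

theorem Isom.trans {b : HF L W} {r : ℕ} {f f' f'' : Fin r → W} (h : Isom b f f')
    (h' : Isom b f' f'') : Isom b f f'' := by
  obtain ⟨g, hg, hg'⟩ := h
  obtain ⟨g₂, hg₂, hg₂'⟩ := h'
  exact ⟨fun x => g₂ (g x), fun x y => by rw [hg₂, hg], fun i => (congrArg g₂ (hg' i)).trans (hg₂' i)⟩

omit [CharZero L] in
theorem isom_move {b : HF L W} {r : ℕ} {α : Fin r → Fˣ} {f : Fin r → W} (hf : IsFrame b α f)
    (j : Fin r) {e : W} (he : b.h e e = b.h (f j) (f j)) (hne : b.h (f j) (f j - e) ≠ 0)
    (ho : ∀ i, i < j → b.h (f i) e = 0) :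
    ∃ f', IsFrame b α f' ∧ Isom b f f' ∧ f' j = e ∧ ∀ i, i < j → f' i = f i := by
  have hu : b.h (f j) (f j - e) + star (b.h (f j) (f j - e)) = b.h (f j - e) (f j - e) := by
    rw [b.star_h]
    simp only [b.sub_left, b.sub_right, he]
    ring
  have hc : (b.h (f j) (f j - e))⁻¹ + star (b.h (f j) (f j - e))⁻¹ =
      (b.h (f j) (f j - e))⁻¹ * b.h (f j - e) (f j - e) * star (b.h (f j) (f j - e))⁻¹ := by
    rw [← hu]
    have h1 : star (b.h (f j) (f j - e)) ≠ 0 := star_ne_zero.mpr hne
    rw [star_inv₀]
    field_simp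
    ring
  refine ⟨fun i => qrf b (f j - e) (b.h (f j) (f j - e))⁻¹ (f i),
    ⟨fun i => by rw [qrf_h b hc]; exact hf.1 i, fun i j hij => by rw [qrf_h b hc]; exact hf.2 i j hij⟩,
    ⟨qrf b (f j - e) (b.h (f j) (f j - e))⁻¹, fun x y => qrf_h b hc x y, fun i => rfl⟩, ?_,
    fun i hi => ?_⟩
  · change f j + (-(b.h (f j) (f j - e) * (b.h (f j) (f j - e))⁻¹)) • (f j - e) = e
    rw [mul_inv_cancel₀ hne, neg_smul, one_smul]
    abel
  · refine qrf_of_orth b _ ?_
    rw [b.sub_right, ho i hi, hf.2 i j hi.ne, sub_zero]

theorem exists_isom (b : HF L W) {r : ℕ} (α : Fin r → Fˣ)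
    (_hs : ∀ a : F, star (algebraMap F L a) = algebraMap F L a) {f f' : Fin r → W}
    (hf : IsFrame b α f) (hf' : IsFrame b α f') :
    ∃ g : W → W, (∀ x y, b.h (g x) (g y) = b.h x y) ∧ ∀ i, g (f i) = f' i := by
  have key : ∀ m : ℕ, ∀ f f' : Fin r → W, IsFrame b α f → IsFrame b α f' →
      (∀ i : Fin r, (i : ℕ) + m < r → f i = f' i) → Isom b f f' := by
    intro m
    induction m with
    | zero =>
      intro f f' hf hf' h
      exact ⟨id, fun _ _ => rfl, fun i => h i i.2⟩
    | succ m ih =>
      intro f f' hf hf' h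
      by_cases hm : m < r
      · obtain ⟨j, hj⟩ : ∃ j : Fin r, (j : ℕ) + m + 1 = r := ⟨⟨r - m - 1, by omega⟩, by
          change r - m - 1 + m + 1 = r
          omega⟩
        have hlt : ∀ i, i < j → f i = f' i := fun i hi => h i (by
          have : (i : ℕ) < j := hi
          omega)
        have hfin : ∀ g : Fin r → W, IsFrame b α g → Isom b f g → g j = f' j →
            (∀ i, i < j → g i = f i) → Isom b f f' := by
          intro g hg hfg hgj hgi
          refine hfg.trans (ih g f' hg hf' fun i hi => ?_)
          rcases lt_trichotomy i j with h1 | h1 | h1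
          · rw [hgi i h1, hlt i h1]
          · rw [h1, hgj]
          · exfalso
            have : (j : ℕ) < i := h1
            omega
        have hee : b.h (f' j) (f' j) = b.h (f j) (f j) := by rw [hf.1, hf'.1]
        have ho : ∀ i, i < j → b.h (f i) (f' j) = 0 := fun i hi => by
          rw [hlt i hi]
          exact hf'.2 i j hi.ne
        by_cases hne : b.h (f j) (f j - f' j) = 0
        · -- first change the sign
          have ha : b.h (f j) (f j) ≠ 0 := by
            rw [hf.1]
            exact (_root_.map_ne_zero _).mpr (α j).ne_zero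
          obtain ⟨g, hg, hfg, hgj, hgi⟩ := isom_move hf j (e := -f j)
            (by rw [b.neg_left, b.neg_right, neg_neg]) (by
              rw [sub_neg_eq_add, b.add_right, ← two_mul]
              exact mul_ne_zero two_ne_zero ha) (fun i hi => by
              rw [b.neg_right, hf.2 i j hi.ne, neg_zero])
          obtain ⟨g', hg', hgg', hgj', hgi'⟩ := isom_move hg j (e := f' j)
            (by rw [hgj, b.neg_left, b.neg_right, neg_neg, hee]) (by
              rw [hgj, b.sub_right, b.neg_left, b.neg_left, b.neg_right, neg_neg]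
              rw [b.sub_right, sub_eq_zero] at hne
              rw [← hne, sub_neg_eq_add, ← two_mul]
              exact mul_ne_zero two_ne_zero ha) (fun i hi => by
              rw [hgi i hi]
              exact ho i hi)
          exact hfin g' hg' (hfg.trans hgg') hgj' fun i hi => by
            rw [hgi' i hi, hgi i hi]
        · obtain ⟨g, hg, hfg, hgj, hgi⟩ := isom_move hf j hee hne ho
          exact hfin g hg hfg hgj hgi
      · exact ih f f' hf hf' fun i hi => absurd hi (by omega)
  exact key r f f' hf hf' fun i hi => absurd hi (by omega)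

end Vale.Agent.P011.F3
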