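import Vale.Agent.P011.F3.Model
import Vale.Agent.P011.F3.ChainF
import Vale.Agent.P011.F3.Isom
import Vale.Agent.P011.Even.DiagPair

/-!
Chains of vectors of given length over a completion.
-/

open Module Matrix Filter Topology

set_option linter.unusedSectionVars false

namespace Vale.Agent.P011.F3

open Vale.Agent.P011.T2
open Vale.Agent.P011.Two2 (CData)
open Vale.Agent.P011.Two (IsFrame Univ2 SqNear)
open Vale.Agent.P011.RP (rowH)
open Relation (ReflTransGen)

variable {D : Type} [DivisionRing D] [StarRing D] {C : CData D} {n m : ℕ}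
  {H : Matrix (Fin m) (Fin m) D}

/-- Two vectors of the same length are linked. -/
def Lnk (C : CData D) (H : Matrix (Fin m) (Fin m) D) (c : D) (Ball : C.E → Prop)
    (X Y : Fin m → C.E) : Prop :=
  HB C H X X = C.φ c ∧ HB C H Y Y = C.φ c ∧
    ∃ Z, HB C H Z Z = C.φ c ∧ Ball (HB C H X Z) ∧ Ball (HB C H Y Z)

theorem Lnk.symm {c : D} {Ball : C.E → Prop} {X Y : Fin m → C.E} (h : Lnk C H c Ball X Y) :
    Lnk C H c Ball Y X := by
  obtain ⟨h1, h2, Z, h3, h4, h5⟩ := h
  exact ⟨h2, h1, Z, h3, h5, h4⟩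

theorem rtg_symm {α : Type} {r : α → α → Prop} (hr : ∀ x y, r x y → r y x) {x y : α}
    (h : ReflTransGen r x y) : ReflTransGen r y x := by
  induction h with
  | refl => exact .refl
  | tail _ h ih => exact ReflTransGen.head (hr _ _ h) ih

variable {L : Type} [Field L] [StarRing L] (M : HMod C n L) {F : Type} [Field F] [Algebra F L]

/-- A vector with given product. -/
theorem HMod.exists_center (hH : Hᴴ = H) {P : Matrix (Fin n) (Fin n) L} (hP : IsUnit P) {c : D}
    {α : Fin n → Fˣ}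
    (hα : P * (M.ρ (C.φ c) * M.A) * Pᴴ = Matrix.diagonal fun i => algebraMap F L (α i))
    (hisom : ∀ f f' : Fin n → Fin m → Fin n → L, IsFrame (M.form hH) α f →
      IsFrame (M.form hH) α f' → ∃ g : (Fin m → Fin n → L) → (Fin m → Fin n → L),
        (∀ x y, (M.form hH).h (g x) (g y) = (M.form hH).h x y) ∧ ∀ i, g (f i) = f' i)
    {x₁ y₁ : Fin m → D} (hx₁ : rowH H x₁ x₁ = c) (hy₁ : rowH H y₁ y₁ = c) {X : Fin m → C.E}
    (hX : HB C H X X = C.φ c) :
    ∃ Z, HB C H Z Z = C.φ c ∧ HB C H X Z = C.φ (rowH H x₁ y₁) := by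
  obtain ⟨g, hg, hgx⟩ := hisom (M.fr P fun i => C.φ (x₁ i)) (M.fr P X)
    ((M.frame_iff hH hP hα _).mpr (by rw [HB_φ, hx₁])) ((M.frame_iff hH hP hα _).mpr hX)
  refine ⟨M.unfr P fun i => g (M.fr P (fun i => C.φ (y₁ i)) i), ?_, ?_⟩
  · rw [M.isom hH hP hg, M.unfr_fr hP, HB_φ, hy₁]
  · have h1 : X = M.unfr P fun i => g (M.fr P (fun i => C.φ (x₁ i)) i) := by
      conv_lhs => rw [← M.unfr_fr hP X]
      congr 1
      funext i
      rw [hgx]
    conv_lhs => rw [h1]
    rw [M.isom hH hP hg, M.unfr_fr hP, M.unfr_fr hP, HB_φ]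

theorem HMod.herm_c {c : D} (hcs : star c = c) : (M.ρ (C.φ c) * M.A)ᴴ = M.ρ (C.φ c) * M.A := by
  rw [Matrix.conjTranspose_mul, M.herm, ← M.star', C.σ_φ, hcs]

theorem HMod.det_c {c : D} (hc0 : c ≠ 0) : (M.ρ (C.φ c) * M.A).det ≠ 0 := by
  have h1 : IsUnit (M.ρ (C.φ c) * M.A) :=
    (((isUnit_iff_ne_zero.mpr hc0).map C.φ).map M.ρ).mul M.unit
  exact ((Matrix.isUnit_iff_isUnit_det _).mp h1).ne_zero

variable [CharZero L] {d : F}

/-- Chains over a nonarchimedean completion. -/
theorem HMod.links_fin (hQ : QuadL F L d) (hU : Univ2 F L) (hSq : SqNear F) (hH : Hᴴ = H)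
    (hu : IsUnit H) (hn : n + 4 ≤ m * n) {c : D} (hc0 : c ≠ 0)
    {x₁ y₁ : Fin m → D} (hx₁ : rowH H x₁ x₁ = c) (hy₁ : rowH H y₁ y₁ = c) {Ball : C.E → Prop}
    (hball : ∀ U : C.E, ∃ l : F, l ≠ 0 ∧ Ball (C.φ (rowH H x₁ y₁) +
      M.ρ.symm (Matrix.scalar (Fin n) (algebraMap F L l)) * U))
    {X Y : Fin m → C.E} (hX : HB C H X X = C.φ c) (hY : HB C H Y Y = C.φ c) :
    ReflTransGen (Lnk C H c Ball) X Y ∧ Lnk C H c Ball Y Y := by
  have hcs : star c = c := by rw [← hx₁, row_star hH]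
  obtain ⟨P, α, hP, hα⟩ := Even.exists_diag hQ _ (M.herm_c hcs) (M.det_c hc0)
  have hb0 : Ball (C.φ (rowH H x₁ y₁)) := by
    obtain ⟨l, -, h1⟩ := hball 0
    rwa [mul_zero, add_zero] at h1
  have hcen : ∀ X, HB C H X X = C.φ c → _ := fun X hX =>
    M.exists_center hH hP hα
      (fun _ _ hf hf' => exists_isom (M.form hH) α hQ.fix' hf hf') hx₁ hy₁ hX
  have key := chain_fin (Lk := fun f f' => ReflTransGen (Lnk C H c Ball) (M.unfr P f) (M.unfr P f'))
    (b := M.form hH) (α := α) hQ hU hSq (M.nondeg hH hu)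
    (by rw [Module.finrank_pi_fintype]; simpa using hn)
    (fun f f' h => rtg_symm (fun _ _ h => h.symm) h)
    (fun f f' f'' h h' => h.trans h') (fun f _ => ReflTransGen.refl)
    (fun g hg f f' h => by
      have h1 : ∀ X Y, Lnk C H c Ball X Y →
          Lnk C H c Ball (M.unfr P fun i => g (M.fr P X i)) (M.unfr P fun i => g (M.fr P Y i)) := by
        rintro X Y ⟨h1, h2, Z, h3, h4, h5⟩
        refine ⟨?_, ?_, M.unfr P fun i => g (M.fr P Z i), ?_, ?_, ?_⟩
        · rwa [M.isom hH hP hg, M.unfr_fr hP]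
        · rwa [M.isom hH hP hg, M.unfr_fr hP]
        · rwa [M.isom hH hP hg, M.unfr_fr hP]
        · rwa [M.isom hH hP hg, M.unfr_fr hP, M.unfr_fr hP]
        · rwa [M.isom hH hP hg, M.unfr_fr hP, M.unfr_fr hP]
      have h2 : ReflTransGen (Lnk C H c Ball) (M.unfr P fun i => g (M.fr P (M.unfr P f) i))
          (M.unfr P fun i => g (M.fr P (M.unfr P f') i)) :=
        h.lift (fun X => M.unfr P fun i => g (M.fr P X i)) h1
      rw [M.fr_unfr hP, M.fr_unfr hP] at h2
      exact h2)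
    (fun f hf j t htt ht => by
      have hfX : HB C H (M.unfr P f) (M.unfr P f) = C.φ c :=
        (M.frame_iff hH hP hα _).mp (by rwa [M.fr_unfr hP])
      obtain ⟨Z, hZ, hXZ⟩ := hcen _ hfX
      obtain ⟨T, hT⟩ : ∃ T : Fin m → C.E, T = M.unfr P (Pi.single j t) := ⟨_, rfl⟩
      obtain ⟨l, hl, hlb⟩ := hball (HB C H T Z)
      refine ⟨l, hl, ?_⟩
      have hupd : M.unfr P (Function.update f j (f j + algebraMap F L l • t)) =
          M.unfr P f + M.ρ.symm (Matrix.scalar (Fin n) (algebraMap F L l)) • T := by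
        funext i
        apply M.ρ.injective
        rw [Pi.add_apply, Pi.smul_apply, smul_eq_mul, map_add, map_mul, hT]
        simp only [HMod.unfr, RingEquiv.apply_symm_apply]
        rw [← mul_assoc, (Matrix.scalar_commute (n := Fin n) (algebraMap F L l)
          (fun _ => mul_comm _ _) P⁻¹).eq, mul_assoc, ← mul_add]
        congr 1
        ext a b
        rw [Matrix.add_apply, Matrix.scalar_apply, Matrix.diagonal_mul]
        simp only [Matrix.of_apply]
        by_cases ha : a = j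
        · subst ha
          rw [Function.update_self, Pi.single_eq_same]
          rfl
        · rw [Function.update_of_ne ha, Pi.single_eq_of_ne ha]
          simp
      have ht0 : ∀ i, (M.form hH).h t (f i) = 0 := (mem_orth _ f t).mp ht
      have ht0' : ∀ i, (M.form hH).h (f i) t = 0 := mem_orth' _ ht
      have hfr : IsFrame (M.form hH) α (Function.update f j (f j + algebraMap F L l • t)) :=
        frame_update hf (by
          rw [HF.add_left, HF.add_right, HF.add_right, HF.smul_left, HF.smul_left, HF.smul_right,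
            HF.smul_right, htt, ht0, ht0', hf.1]
          ring) (fun i hi => by
          rw [HF.add_left, HF.smul_left, ht0, hf.2 j i (Ne.symm hi)]
          ring)
      refine ReflTransGen.single ⟨hfX, ?_, Z, hZ, ?_, ?_⟩
      · exact (M.frame_iff hH hP hα _).mp (by rwa [M.fr_unfr hP])
      · rw [hXZ]
        exact hb0
      · rw [hupd, HB_add_left, HB_smul_left, hXZ]
        exact hlb)
    ((M.frame_iff hH hP hα X).mpr hX) ((M.frame_iff hH hP hα Y).mpr hY)
  rw [M.unfr_fr hP, M.unfr_fr hP] at key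
  obtain ⟨Z, hZ, hYZ⟩ := hcen Y hY
  have hb1 : Ball (HB C H Y Z) := by
    rw [hYZ]
    exact hb0
  exact ⟨key, hY, hY, Z, hZ, hb1, hb1⟩

/-- Chains over the field of real numbers. -/
theorem HMod.links_real (M : HMod C n ℂ) {d : ℝ} (hQ : QuadL ℝ ℂ d) (hH : Hᴴ = H)
    {c : D} (hc0 : c ≠ 0)
    {x₁ y₁ : Fin m → D} (hx₁ : rowH H x₁ x₁ = c) (hy₁ : rowH H y₁ y₁ = c) {Ball : C.E → Prop}
    (hball : ∀ᶠ U in 𝓝 (M.ρ (C.φ (rowH H x₁ y₁))), Ball (M.ρ.symm U))
    {X Y : Fin m → C.E} (hX : HB C H X X = C.φ c) (hY : HB C H Y Y = C.φ c) :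
    ReflTransGen (Lnk C H c Ball) X Y ∧ Lnk C H c Ball Y Y := by
  have hcs : star c = c := by rw [← hx₁, row_star hH]
  obtain ⟨P, α, hP, hα⟩ := Even.exists_diag hQ _ (M.herm_c hcs) (M.det_c hc0)
  have hb0 : Ball (C.φ (rowH H x₁ y₁)) := by
    have h1 := hball.self_of_nhds
    rwa [RingEquiv.symm_apply_apply] at h1
  have hcen : ∀ X, HB C H X X = C.φ c → _ := fun X hX =>
    M.exists_center hH hP hα
      (fun _ _ hf hf' => exists_isom (M.form hH) α hQ.fix' hf hf') hx₁ hy₁ hX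
  have key := chain_real (Lk := fun f f' => ReflTransGen (Lnk C H c Ball) (M.unfr P f) (M.unfr P f'))
    (b := M.form hH) (α := α)
    (fun f f' h => rtg_symm (fun _ _ h => h.symm) h)
    (fun f f' f'' h h' => h.trans h')
    (fun f hf => by
      have hfX : HB C H (M.unfr P f) (M.unfr P f) = C.φ c :=
        (M.frame_iff hH hP hα _).mp (by rwa [M.fr_unfr hP])
      obtain ⟨Z, hZ, hXZ⟩ := hcen _ hfX
      obtain ⟨A', hA', hA''⟩ : ∃ A', M.A * Pᴴ * A' = 1 ∧ A' * (M.A * Pᴴ) = 1 := by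
        obtain ⟨u, hu⟩ := M.unit.mul ((Matrix.isUnit_conjTranspose (A := P)).mpr hP)
        exact ⟨_, by rw [← hu]; exact u.mul_inv, by rw [← hu]; exact u.inv_mul⟩
      have hfor : ∀ f' : Fin n → Fin m → Fin n → ℂ, M.ρ (HB C H (M.unfr P f') Z) =
          P⁻¹ * (Matrix.of fun a b => (M.form hH).h (f' a) (M.fr P Z b)) * A' := by
        intro f'
        have h1 : (Matrix.of fun a b => (M.form hH).h (f' a) (M.fr P Z b)) =
            P * (M.ρ (HB C H (M.unfr P f') Z) * M.A) * Pᴴ := by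
          ext a b
          rw [← M.gram hH, M.fr_unfr hP]
          rfl
        rw [h1]
        calc M.ρ (HB C H (M.unfr P f') Z) = (P⁻¹ * P) * M.ρ (HB C H (M.unfr P f') Z) *
              (M.A * Pᴴ * A') := by rw [hA', inv_mul_P hP, mul_one, one_mul]
          _ = _ := by simp only [mul_assoc]
      have hcont : Continuous fun f' : Fin n → Fin m → Fin n → ℂ =>
          M.ρ (HB C H (M.unfr P f') Z) := by
        simp only [hfor]
        refine (continuous_const.matrix_mul ?_).matrix_mul continuous_const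
        refine continuous_matrix fun a b => ?_
        have h2 : Continuous ((M.form hH).lin (M.fr P Z b)) :=
          LinearMap.continuous_of_finiteDimensional _
        exact h2.comp (continuous_apply a)
      have h3 : ∀ᶠ f' in 𝓝 f, Ball (M.ρ.symm (M.ρ (HB C H (M.unfr P f') Z))) := by
        have h4 := hcont.tendsto f
        rw [hXZ] at h4
        exact h4.eventually hball
      filter_upwards [h3] with f' h4 hf'
      rw [RingEquiv.symm_apply_apply] at h4
      refine ReflTransGen.single ⟨hfX, ?_, Z, hZ, ?_, h4⟩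
      · exact (M.frame_iff hH hP hα _).mp (by rwa [M.fr_unfr hP])
      · rw [hXZ]
        exact hb0)
    (M.fr P X) (M.fr P Y)
    ((M.frame_iff hH hP hα X).mpr hX) ((M.frame_iff hH hP hα Y).mpr hY)
  rw [M.unfr_fr hP, M.unfr_fr hP] at key
  obtain ⟨Z, hZ, hYZ⟩ := hcen Y hY
  have hb1 : Ball (HB C H Y Z) := by
    rw [hYZ]
    exact hb0
  exact ⟨key, hY, hY, Z, hZ, hb1, hb1⟩

end Vale.Agent.P011.F3
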