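import Vale.Agent.P011.F3.Links
import Vale.Agent.P011.Two2.Dense2
import Vale.Agent.P011.Two.LocChain
import Vale.Agent.P011.Even.RealSide

/-!
A relation between vectors of given length which holds as soon as the product is close to a given
one at finitely many places is total.
-/

open Filter NumberField IsDedekindDomain TensorProduct Topology Matrix Module

set_option linter.unusedSectionVars false

namespace Vale.Agent.P011.F3

open Vale.Agent.P011.Arith Vale.Agent.P011.Even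
open Vale.Agent.P011.T2
open Vale.Agent.P011.RP (RData rowH)
open Vale.Agent.P011.Two (Univ2 SqNear sg sg_sg szA cof cof_tmul cof_smul Cv plAbv_norm)
open Vale.Agent.P011.Two2 (CData PData cfin creal exists_pfin exists_preal exists_sim)
open Relation (ReflTransGen)

/-- The elements such that all sequences converging to them are eventually close to `b₁`. -/
def Ball {k D : Type} [Field k] [NumberField k] [DivisionRing D] [StarRing D] [Algebra k D]
    {N : ℕ} (B : Basis (Fin N) k D) (p : Pl k) (C : CData D) (b₁ : D) (ε : ℝ) (Y : C.E) : Prop :=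
  ∀ w, C.cv w Y → ∀ᶠ j in atTop, nm B p (w j - b₁) < ε

/-- From a chain to sequences. -/
theorem exists_links {D : Type} [DivisionRing D] [StarRing D] {C : CData D} {m : ℕ}
    {H : Matrix (Fin m) (Fin m) D} {c : D} {Ba : C.E → Prop} {X Y : Fin m → C.E}
    (h : ReflTransGen (Lnk C H c Ba) X Y) (hY : Lnk C H c Ba Y Y) :
    ∃ (M : ℕ) (Xs Zs : ℕ → Fin m → C.E), Xs 0 = X ∧ (∀ i, M ≤ i → Xs i = Y) ∧
      ∀ i, HB C H (Xs i) (Xs i) = C.φ c ∧ HB C H (Zs i) (Zs i) = C.φ c ∧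
        Ba (HB C H (Xs i) (Zs i)) ∧ Ba (HB C H (Xs (i + 1)) (Zs i)) := by
  obtain ⟨M, W, h0, hM, hs⟩ := Two.exists_seq_rtg h
  have hl : ∀ i, Lnk C H c Ba (W (min i M)) (W (min (i + 1) M)) := by
    intro i
    by_cases hi : i < M
    · rw [min_eq_left hi.le, min_eq_left (show i + 1 ≤ M from hi)]
      exact hs i hi
    · rw [min_eq_right (not_lt.mp hi), min_eq_right (by omega), hM]
      exact hY
  choose Z hZ using fun i => (hl i).2.2
  refine ⟨M, fun i => W (min i M), Z, ?_, fun i hi => ?_, fun i => ?_⟩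
  · dsimp only
    rw [Nat.zero_min, h0]
  · dsimp only
    rw [min_eq_right hi, hM]
  · exact ⟨(hl i).1, (hZ i).1, (hZ i).2.1, (hZ i).2.2⟩

variable {k K D : Type} [Field k] [NumberField k] [Field K] [StarRing K]
  [DivisionRing D] [StarRing D] [Algebra k K] [Algebra k D] [Algebra K D] [IsScalarTower k K D]
  {d : kˣ} {s : K} {n N m : ℕ}

/-- **From local chains to the global relation.** -/
theorem total_of_local (hS : Setting k K D d s) (hn : 0 < n) (B : Basis (Fin N) k D)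
    {H : Matrix (Fin m) (Fin m) D} (hH : Hᴴ = H) {c : D} (hc0 : c ≠ 0) {T : Set (Pl k)}
    (hT : T.Finite) {Rel : (Fin m → D) → (Fin m → D) → Prop}
    (hsymm : ∀ x y, Rel x y → Rel y x) (htrans : ∀ x y z, Rel x y → Rel y z → Rel x z)
    {ε : Pl k → ℝ} {b₁ : D} (P : ∀ p : T, PData B (p : Pl k) s n)
    (hlinks : ∀ p : T, ∀ X Y : Fin m → (P p).C.E, HB (P p).C H X X = (P p).C.φ c →
      HB (P p).C H Y Y = (P p).C.φ c →
      ReflTransGen (Lnk (P p).C H c (Ball B p (P p).C b₁ (ε p))) X Y ∧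
        Lnk (P p).C H c (Ball B p (P p).C b₁ (ε p)) Y Y)
    (hnear : ∀ x y, rowH H x x = c → rowH H y y = c →
      (∀ p ∈ T, nm B p (rowH H x y - b₁) < ε p) → Rel x y)
    {x y : Fin m → D} (hx : rowH H x x = c) (hy : rowH H y y = c) : Rel x y := by
  classical
  have hfin : Finite T := hT
  have hdat : ∀ p : T, ∃ (M : ℕ) (Xs Zs : ℕ → Fin m → (P p).C.E),
      Xs 0 = (fun i => (P p).C.φ (x i)) ∧ (∀ i, M ≤ i → Xs i = fun i => (P p).C.φ (y i)) ∧
      ∀ i, HB (P p).C H (Xs i) (Xs i) = (P p).C.φ c ∧ HB (P p).C H (Zs i) (Zs i) = (P p).C.φ c ∧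
        Ball B p (P p).C b₁ (ε p) (HB (P p).C H (Xs i) (Zs i)) ∧
        Ball B p (P p).C b₁ (ε p) (HB (P p).C H (Xs (i + 1)) (Zs i)) := by
    intro p
    obtain ⟨h1, h2⟩ := hlinks p (fun i => (P p).C.φ (x i)) (fun i => (P p).C.φ (y i))
      (by rw [HB_φ, hx]) (by rw [HB_φ, hy])
    exact exists_links h1 h2
  choose M Xs Zs h0 hM hXZ using hdat
  obtain ⟨M₀, hM₀⟩ : ∃ M₀ : ℕ, ∀ p, M p ≤ M₀ := by
    obtain ⟨M₀, h⟩ := (Set.finite_range M).bddAbove
    exact ⟨M₀, fun p => h ⟨p, rfl⟩⟩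
  have hsph : ∀ Z : ∀ p : T, Fin m → (P p).C.E, (∀ p, HB (P p).C H (Z p) (Z p) = (P p).C.φ c) →
      ∃ z : ℕ → Fin m → D, (∀ j, rowH H (z j) (z j) = c) ∧ ∀ p, cvV (P p).C z (Z p) :=
    fun Z hZ => sphere_dense hS hn (fun p : T => (P p).C) (fun p => (P p).M) (exists_sim B hT P)
      hH hc0 hx Z hZ
  -- the global sequences
  have hw : ∀ i : ℕ, ∃ z : ℕ → Fin m → D, (∀ j, rowH H (z j) (z j) = c) ∧
      (∀ p, cvV (P p).C z (Xs p i)) ∧ (i = 0 → z = fun _ => x) ∧
      (M₀ + 1 ≤ i → z = fun _ => y) := by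
    intro i
    by_cases hi : i = 0
    · refine ⟨fun _ => x, fun _ => hx, fun p => ?_, fun _ => rfl, fun h => by omega⟩
      rw [hi, h0]
      exact fun a => (P p).C.const (x a)
    · by_cases hi' : M₀ + 1 ≤ i
      · refine ⟨fun _ => y, fun _ => hy, fun p => ?_, fun h => absurd h hi, fun _ => rfl⟩
        rw [hM p i (by have := hM₀ p; omega)]
        exact fun a => (P p).C.const (y a)
      · obtain ⟨z, hz, hz'⟩ := hsph (fun p => Xs p i) fun p => (hXZ p i).1
        exact ⟨z, hz, hz', fun h => absurd h hi, fun h => absurd h hi'⟩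
  choose w hwc hwX hw0 hw1 using hw
  choose z hzc hzZ using fun i : ℕ => hsph (fun p => Zs p i) fun p => (hXZ p i).2.1
  have hrel : ∀ i, ∀ᶠ j in atTop, Rel (w i j) (z i j) ∧ Rel (w (i + 1) j) (z i j) := by
    intro i
    have h1 : ∀ᶠ j in atTop, ∀ p : T, nm B p (rowH H (w i j) (z i j) - b₁) < ε p ∧
        nm B p (rowH H (w (i + 1) j) (z i j) - b₁) < ε p := by
      rw [eventually_all]
      intro p
      exact ((hXZ p i).2.2.1 _ (cvV.form _ H (hwX i p) (hzZ i p))).and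
        ((hXZ p i).2.2.2 _ (cvV.form _ H (hwX (i + 1) p) (hzZ i p)))
    filter_upwards [h1] with j hj
    exact ⟨hnear _ _ (hwc i j) (hzc i j) fun p hp => (hj ⟨p, hp⟩).1,
      hnear _ _ (hwc (i + 1) j) (hzc i j) fun p hp => (hj ⟨p, hp⟩).2⟩
  have hall : ∀ i, ∀ᶠ j in atTop, Rel (w 0 j) (w i j) := by
    intro i
    induction i with
    | zero =>
      filter_upwards [hrel 0] with j hj
      exact htrans _ _ _ hj.1 (hsymm _ _ hj.1)
    | succ i ih =>
      filter_upwards [ih, hrel i] with j hj hj'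
      exact htrans _ _ _ hj (htrans _ _ _ hj'.1 (hsymm _ _ hj'.2))
  obtain ⟨j, hj⟩ := (hall (M₀ + 1)).exists
  rwa [hw0 0 rfl, hw1 (M₀ + 1) le_rfl] at hj

/-- The sizes of the differences with a given element. -/
theorem Cv_size {B : Basis (Fin N) k D} {v : HeightOneSpectrum (𝓞 k)} {x : ℕ → D}
    {X : v.adicCompletion k ⊗[k] D} (hx : Cv B v x X) (b : D) :
    Tendsto (fun j => nm B (Sum.inl v) (x j - b)) atTop (𝓝 (szA B v (X - 1 ⊗ₜ b))) := by
  have h1 : ∀ j, nm B (Sum.inl v) (x j - b) =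
      ∑ i, ‖algebraMap k (v.adicCompletion k) (B.repr (x j) i) - cof B v (1 ⊗ₜ b) i‖ := by
    intro j
    refine Finset.sum_congr rfl fun i _ => ?_
    rw [plAbv_norm, cof_tmul, ← map_sub, map_sub, Finsupp.sub_apply]
  have h2 : szA B v (X - 1 ⊗ₜ b) = ∑ i, ‖cof B v X i - cof B v (1 ⊗ₜ b) i‖ := by
    refine Finset.sum_congr rfl fun i _ => ?_
    rw [cof, map_sub, Finsupp.sub_apply]
    rfl
  simp only [h1, h2]
  exact tendsto_finsetSum _ fun i _ => ((hx i).sub_const (cof B v (1 ⊗ₜ b) i)).norm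

theorem szA_smul {B : Basis (Fin N) k D} {v : HeightOneSpectrum (𝓞 k)} (l : v.adicCompletion k)
    (X : v.adicCompletion k ⊗[k] D) : szA B v (l • X) = ‖l‖ * szA B v X := by
  rw [szA, szA, Finset.mul_sum]
  exact Finset.sum_congr rfl fun i _ => by rw [cof_smul, norm_mul]

/-- Local chains at a nonsplit finite place. -/
theorem links_at_fin (hS : Setting k K D d s) (hn : 2 ≤ n) (hdeg : finrank K D = n ^ 2)
    (B : Basis (Fin N) k D) (v : HeightOneSpectrum (𝓞 k)) (hv : d ∉ LS (v.valuation k))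
    {H : Matrix (Fin m) (Fin m) D} (hH : Hᴴ = H) (hu : IsUnit H) (hm : 3 ≤ m) {c : D}
    (hc0 : c ≠ 0) {x₁ y₁ : Fin m → D} (hx₁ : rowH H x₁ x₁ = c) (hy₁ : rowH H y₁ y₁ = c) {ε : ℝ}
    (hε : 0 < ε) (X Y : Fin m → (cfin hS B v).E)
    (hX : HB (cfin hS B v) H X X = (cfin hS B v).φ c)
    (hY : HB (cfin hS B v) H Y Y = (cfin hS B v).φ c) :
    ReflTransGen (Lnk (cfin hS B v) H c (Ball B (.inl v) (cfin hS B v) (rowH H x₁ y₁) ε)) X Y ∧
      Lnk (cfin hS B v) H c (Ball B (.inl v) (cfin hS B v) (rowH H x₁ y₁) ε) Y Y := by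
  have hn0 : 0 < n := by omega
  obtain ⟨L, _, _, _, ρ, G, hfix, hL2, hGu, hGs, hG⟩ := exists_local_model hS hdeg v hv
  have : CharZero L := charZero_of_injective_algebraMap
    (algebraMap (v.adicCompletion k) L).injective
  obtain ⟨θ, -, hθ0, hθs, hθ⟩ := Two.model_theta (hS := hS) hn0 hGu hG
  have hQ : QuadL (v.adicCompletion k) L (algebraMap k _ (d : k)) :=
    ⟨fun x hx => (hfix x).mp hx, fun e => (hfix _).mpr ⟨e, rfl⟩, θ, hθ0, hθs, hθ⟩
  obtain ⟨h1, h2⟩ := Two.model_inv hGu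
  have hst : ∀ X : v.adicCompletion k ⊗[k] D,
      ρ (hS.sig.baseChange (v.adicCompletion k) X) * G⁻¹ = G⁻¹ * (ρ X)ᴴ := fun X => by
    calc ρ (hS.sig.baseChange (v.adicCompletion k) X) * G⁻¹ =
        G⁻¹ * (G * ρ (hS.sig.baseChange (v.adicCompletion k) X)) * G⁻¹ := by
          rw [← mul_assoc, h2, one_mul]
      _ = G⁻¹ * (ρ X)ᴴ := by rw [hG, ← mul_assoc, mul_assoc, h1, mul_one]
  have hsc : ∀ (l : v.adicCompletion k) (U : v.adicCompletion k ⊗[k] D),
      ρ.symm (Matrix.scalar (Fin n) (algebraMap _ L l)) * U = l • U := by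
    intro l U
    apply ρ.injective
    rw [map_mul, AlgEquiv.apply_symm_apply, map_smul, Matrix.scalar_apply,
      ← Matrix.smul_eq_diagonal_mul, algebraMap_smul]
  let M : HMod (cfin hS B v) n L :=
    { ρ := ρ.toRingEquiv
      A := G⁻¹
      unit := by
        rw [Matrix.isUnit_nonsing_inv_iff]
        exact hGu
      herm := by rw [Matrix.conjTranspose_nonsing_inv, hGs]
      star' := hst }
  refine M.links_fin hQ (Two.univ2 hv hfix hθs hθ) (Two.sqNear v) hH hu ?_ hc0 hx₁ hy₁ ?_ hX hY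
  · nlinarith
  · intro (U : v.adicCompletion k ⊗[k] D)
    obtain ⟨a, ha0, ha⟩ := exists_abv_lt (.inl v : Pl k)
      (show 0 < ε / (szA B v U + 1) by
        have := Two.szA_nonneg (B := B) U
        positivity)
    refine ⟨algebraMap k _ a, (_root_.map_ne_zero _).mpr ha0, fun w hw => ?_⟩
    have hw' : Cv B v w ((1 : v.adicCompletion k) ⊗ₜ[k] rowH H x₁ y₁ +
        algebraMap k (v.adicCompletion k) a • U) := by
      rw [← hsc]
      exact hw
    refine (Cv_size hw' (rowH H x₁ y₁)).eventually (Iio_mem_nhds ?_)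
    rw [add_sub_cancel_left, szA_smul, ← plAbv_norm]
    have h5 := Two.szA_nonneg (B := B) U
    calc plAbv (.inl v) a * szA B v U ≤ plAbv (.inl v) a * (szA B v U + 1) :=
          mul_le_mul_of_nonneg_left (by linarith) (AbsoluteValue.nonneg _ _)
      _ < ε / (szA B v U + 1) * (szA B v U + 1) :=
          mul_lt_mul_of_pos_right ha (by linarith)
      _ = ε := div_mul_cancel₀ _ (by linarith)

/-- Local chains at a nonsplit real place. -/
theorem links_at_real (hS : Setting k K D d s) (hn : 0 < n) (hdeg : finrank K D = n ^ 2)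
    (B : Basis (Fin N) k D) {φ : k →+* ℝ} (hφ : φ d < 0) (R : RData K D n)
    (hR : ∀ x : k, R.s (algebraMap k K x) = (φ x : ℂ))
    {H : Matrix (Fin m) (Fin m) D} (hH : Hᴴ = H) {c : D}
    (hc0 : c ≠ 0) {x₁ y₁ : Fin m → D} (hx₁ : rowH H x₁ x₁ = c) (hy₁ : rowH H y₁ y₁ = c) {ε : ℝ}
    (hε : 0 < ε) (X Y : Fin m → (creal hn R).E)
    (hX : HB (creal hn R) H X X = (creal hn R).φ c)
    (hY : HB (creal hn R) H Y Y = (creal hn R).φ c) :
    ReflTransGen (Lnk (creal hn R) H c (Ball B (.inr φ) (creal hn R) (rowH H x₁ y₁) ε)) X Y ∧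
      Lnk (creal hn R) H c (Ball B (.inr φ) (creal hn R) (rowH H x₁ y₁) ε) Y Y := by
  have hiA : R.A⁻¹ * R.A = 1 :=
    Matrix.nonsing_inv_mul _ ((Matrix.isUnit_iff_isUnit_det _).mp R.unit)
  have hst : ∀ X : Matrix (Fin n) (Fin n) ℂ, R.A * Xᴴ * R.A⁻¹ * R.A = R.A * Xᴴ := fun X => by
    rw [mul_assoc, hiA, mul_one]
  let M : HMod (creal hn R) n ℂ :=
    { ρ := RingEquiv.refl _
      A := R.A
      unit := R.unit
      herm := R.hA
      star' := hst }
  refine M.links_real quadC hH hc0 hx₁ hy₁ ?_ hX hY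
  obtain ⟨b₁, hb₁⟩ : ∃ b₁, b₁ = rowH H x₁ y₁ := ⟨_, rfl⟩
  rw [← hb₁]
  let Λ := LinearEquiv.ofBijective (Lam B R) (Lam_bij hS B hn hdeg hφ R hR)
  have hΛrc : ∀ x, Λ (rc B φ x) = R.f x := Lam_rc B R hR
  have h2 : Continuous Λ.symm := LinearMap.continuous_of_finiteDimensional Λ.symm.toLinearMap
  have hcont : Continuous fun U : Matrix (Fin n) (Fin n) ℂ =>
      ∑ i, |Λ.symm (U - R.f b₁) i| := by
    refine continuous_finsetSum _ fun i _ => ?_
    exact ((continuous_apply i).comp (h2.comp (continuous_id.sub continuous_const))).abs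
  have hopen : ∀ᶠ U in 𝓝 (R.f b₁), ∑ i, |Λ.symm (U - R.f b₁) i| < ε := by
    refine (hcont.tendsto (R.f b₁)).eventually (Iio_mem_nhds ?_)
    rw [sub_self, map_zero]
    simpa using hε
  have hnm : ∀ x : D, nm B (.inr φ) (x - b₁) = ∑ i, |Λ.symm (R.f x - R.f b₁) i| := by
    intro x
    rw [← map_sub, ← hΛrc, LinearEquiv.symm_apply_apply]
    rfl
  have hB : ∀ᶠ U in 𝓝 (R.f b₁), ∀ w : ℕ → D, Tendsto (fun j => R.f (w j)) atTop (𝓝 U) →
      ∀ᶠ j in atTop, nm B (.inr φ) (w j - b₁) < ε := by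
    filter_upwards [hopen.eventually_nhds] with U hU w hw
    filter_upwards [hw.eventually hU] with j hj
    rw [hnm]
    exact hj
  exact hB

/-- **A relation which holds near a given product is total** (any rank at least three). -/
theorem total_of_near_m [NumberField K] (hS : Setting k K D d s) (hn : 2 ≤ n)
    (hdeg : finrank K D = n ^ 2)
    (B : Basis (Fin N) k D) (hm : 3 ≤ m) {H : Matrix (Fin m) (Fin m) D} (hH : Hᴴ = H)
    (hu : IsUnit H) {c : D} (hc0 : c ≠ 0) {T : Set (Pl k)} (hT : T.Finite)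
    (hTd : ∀ p ∈ T, d ∉ LSp p) {Rel : (Fin m → D) → (Fin m → D) → Prop}
    (hsymm : ∀ x y, Rel x y → Rel y x) (htrans : ∀ x y z, Rel x y → Rel y z → Rel x z)
    {x₁ y₁ : Fin m → D} (hx₁ : rowH H x₁ x₁ = c) (hy₁ : rowH H y₁ y₁ = c)
    {ε : Pl k → ℝ} (hε : ∀ p, 0 < ε p)
    (hnear : ∀ x y, rowH H x x = c → rowH H y y = c →
      (∀ p ∈ T, nm B p (rowH H x y - rowH H x₁ y₁) < ε p) → Rel x y) :
    ∀ x y, rowH H x x = c → rowH H y y = c → Rel x y := by
  have hn0 : 0 < n := by omega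
  intro x y hx hy
  have hP : ∀ p : T, ∃ P : PData B (p : Pl k) s n, ∀ X Y : Fin m → P.C.E,
      HB P.C H X X = P.C.φ c → HB P.C H Y Y = P.C.φ c →
      ReflTransGen (Lnk P.C H c (Ball B p P.C (rowH H x₁ y₁) (ε p))) X Y ∧
        Lnk P.C H c (Ball B p P.C (rowH H x₁ y₁) (ε p)) Y Y := by
    rintro ⟨v | φ, hp⟩
    · have hv : d ∉ LS (v.valuation k) := hTd _ hp
      obtain ⟨P, hP⟩ := exists_pfin hS hn0 hdeg B v hv
      refine ⟨P, ?_⟩
      rw [hP]
      exact links_at_fin hS hn hdeg B v hv hH hu hm hc0 hx₁ hy₁ (hε _)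
    · have hφ : φ d < 0 := notMem_LSR.mp (hTd _ hp)
      obtain ⟨R, hR⟩ := exists_rdata_of hS hn0 hdeg hφ
      obtain ⟨P, hP⟩ := exists_preal hS hn0 hdeg B hφ R hR
      refine ⟨P, ?_⟩
      rw [hP]
      exact links_at_real hS hn0 hdeg B hφ R hR hH hc0 hx₁ hy₁ (hε _)
  choose P hP' using hP
  exact total_of_local hS hn0 B hH hc0 hT hsymm htrans P hP' hnear hx hy

/-- **A relation which holds near a given product is total** (rank three). -/
theorem total_of_near [NumberField K] (hS : Setting k K D d s) (hn : 2 ≤ n)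
    (hdeg : finrank K D = n ^ 2)
    (B : Basis (Fin N) k D) {H : Matrix (Fin 3) (Fin 3) D} (hH : Hᴴ = H)
    (hu : IsUnit H) {c : D} (hc0 : c ≠ 0) {T : Set (Pl k)} (hT : T.Finite)
    (hTd : ∀ p ∈ T, d ∉ LSp p) {Rel : (Fin 3 → D) → (Fin 3 → D) → Prop}
    (hsymm : ∀ x y, Rel x y → Rel y x) (htrans : ∀ x y z, Rel x y → Rel y z → Rel x z)
    {x₁ y₁ : Fin 3 → D} (hx₁ : rowH H x₁ x₁ = c) (hy₁ : rowH H y₁ y₁ = c)
    {ε : Pl k → ℝ} (hε : ∀ p, 0 < ε p)
    (hnear : ∀ x y, rowH H x x = c → rowH H y y = c →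
      (∀ p ∈ T, nm B p (rowH H x y - rowH H x₁ y₁) < ε p) → Rel x y) :
    ∀ x y, rowH H x x = c → rowH H y y = c → Rel x y :=
  total_of_near_m hS hn hdeg B le_rfl hH hu hc0 hT hTd hsymm htrans hx₁ hy₁ hε hnear

end Vale.Agent.P011.F3
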