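import Vale.Agent.P011.F3.End
import Vale.Agent.P011.Two2.NormM
import Vale.Agent.P011.Two.HigherB

/-!
Vectors of a positive length `c` become vectors of length one after a change of the involution.
-/

open Module Matrix
open scoped ComplexOrder

set_option linter.unusedSectionVars false

namespace Vale.Agent.P011.F3

open Vale.Agent.P011S Vale.Agent.P011.RP Vale.Agent.P011.T2 Vale.Agent.P011.Three
open Vale.Agent.P011.Two.Hi

/-- Transfer of the propagation property along a similarity of hermitian spaces for two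
different involutions. -/
theorem spread_transfer {D V V' : Type} [DivisionRing D] {S S' : StarRing D}
    [CharZero D] [AddCommGroup V] [Module D V] [AddCommGroup V'] [Module D V']
    (H : @AForm D V _ S _ _) (H' : @AForm D V' _ S' _ _) (φ : V ≃ₗ[D] V') {c : D} (hc0 : c ≠ 0)
    (hφ : ∀ x y, @AForm.h D V' _ S' _ _ H' (φ x) (φ y) = @AForm.h D V _ S _ _ H x y * c⁻¹)
    (h : @AForm.Spread D V' _ S' _ _ H' 1) : @AForm.Spread D V _ S _ _ H c := by
  intro R hR x y hx hy hxy hRxy x' y' hx' hy'
  have hone : ∀ x, @AForm.h D V _ S _ _ H x x = c → @AForm.h D V' _ S' _ _ H' (φ x) (φ x) = 1 := by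
    intro x hx
    rw [hφ, hx, mul_inv_cancel₀ hc0]
  have hinv : @AForm.InvRel D _ S' V' _ _ H' (fun u v => R (φ.symm u) (φ.symm v)) := by
    refine @AForm.InvRel.mk D _ S' V' _ _ H' _ ?_ ?_ ?_
    · intro u v huv
      exact @AForm.InvRel.symm D _ S V _ _ H R hR _ _ huv
    · intro u v w huv hvw
      exact @AForm.InvRel.trans D _ S V _ _ H R hR _ _ _ huv hvw
    · intro u v g hg huv
      have hg' : (φ.trans g).trans φ.symm ∈ @AForm.isom D V _ S _ _ H := by
        rw [@AForm.mem_isom D V _ S _ _ H]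
        intro a b
        have e1 := hφ (((φ.trans g).trans φ.symm) a) (((φ.trans g).trans φ.symm) b)
        have e2 : ∀ a, φ (((φ.trans g).trans φ.symm) a) = g (φ a) := by
          intro a
          simp only [LinearEquiv.trans_apply, LinearEquiv.apply_symm_apply]
        rw [e2, e2, @AForm.isom_apply D V' _ S' _ _ H' g hg, hφ] at e1
        exact (mul_right_cancel₀ (inv_ne_zero hc0) e1).symm
      have e3 : ∀ u, φ.symm (g u) = ((φ.trans g).trans φ.symm) (φ.symm u) := by
        intro u
        simp only [LinearEquiv.trans_apply, LinearEquiv.apply_symm_apply]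
      change R (φ.symm (g u)) (φ.symm (g v))
      rw [e3, e3]
      exact @AForm.InvRel.inv D _ S V _ _ H R hR _ _ _ hg' huv
  have h1 := h _ hinv (φ x) (φ y) (hone x hx) (hone y hy)
    (fun d hd => hxy d (φ.injective (by rw [hd, map_smul])))
    (by simpa only [LinearEquiv.symm_apply_apply] using hRxy) (φ x') (φ y') (hone x' hx')
    (hone y' hy')
  simpa only [LinearEquiv.symm_apply_apply] using h1

/-- Multiplication of rows by an element, on the right. -/
def rmul {D : Type} [DivisionRing D] {m : ℕ} (a : D) (ha : a ≠ 0) :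
    (Fin m → D) ≃ₗ[D] (Fin m → D) where
  toFun x := fun i => x i * a
  invFun x := fun i => x i * a⁻¹
  map_add' x y := by
    funext i
    simp only [Pi.add_apply, add_mul]
  map_smul' b x := by
    funext i
    simp only [Pi.smul_apply, smul_eq_mul, RingHom.id_apply, mul_assoc]
  left_inv x := by
    funext i
    simp only [mul_assoc, mul_inv_cancel₀ ha, mul_one]
  right_inv x := by
    funext i
    simp only [mul_assoc, inv_mul_cancel₀ ha, mul_one]

theorem rowH_tw2 {D : Type} [DivisionRing D] [StarRing D] {m : ℕ} (H : Matrix (Fin m) (Fin m) D)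
    (a : D) (ha0 : a ≠ 0) (ha : star a = a) (u w : Fin m → D) :
    @rowH D _ (twist a ha0 ha) m (Vale.Agent.P011.T2.tw a H) (fun b => u b * a⁻¹)
      (fun b => w b * a⁻¹) = rowH H u w * a⁻¹ := by
  unfold rowH
  rw [Finset.sum_mul]
  refine Finset.sum_congr rfl fun b _ => ?_
  rw [Finset.sum_mul]
  refine Finset.sum_congr rfl fun c _ => ?_
  change u b * a⁻¹ * (a * H b c) * (a * star (w c * a⁻¹) * a⁻¹) = _
  rw [star_mul, star_inv₀, ha]
  calc u b * a⁻¹ * (a * H b c) * (a * (a⁻¹ * star (w c)) * a⁻¹)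
      = u b * (a⁻¹ * a) * H b c * (a * a⁻¹) * star (w c) * a⁻¹ := by simp only [mul_assoc]
    _ = _ := by rw [inv_mul_cancel₀ ha0, mul_inv_cancel₀ ha0, mul_one, mul_one]

/-- Propagation for vectors of length `c`, from the twisted form. -/
theorem spread_of_twist {D : Type} [DivisionRing D] [StarRing D] [CharZero D] {m : ℕ}
    (H : Matrix (Fin m) (Fin m) D) (hH : IsAnisotropicForm H) {a : D} (ha0 : a ≠ 0)
    (ha : star a = a)
    (h : @AForm.Spread D (Fin m → D) _ (twist a ha0 ha) _ _
      (@rowA D _ (twist a ha0 ha) m (Vale.Agent.P011.T2.tw a H) (anis_twist a ha0 ha hH)) 1) :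
    (rowA H hH).Spread a :=
  spread_transfer (rowA H hH)
    (@rowA D _ (twist a ha0 ha) m (Vale.Agent.P011.T2.tw a H) (anis_twist a ha0 ha hH))
    (rmul a⁻¹ (inv_ne_zero ha0)) ha0 (fun x y => rowH_tw2 H a ha0 ha x y) h

section

variable {K D : Type} [Field K] [StarRing K] [DivisionRing D] [StarRing D] [Algebra K D] {n : ℕ}

/-- The number of positive directions does not change. -/
theorem posDim_tw {m r : ℕ} (R : RData K D n) (H : Matrix (Fin m) (Fin m) D) {a : D}
    (ha0 : a ≠ 0) (ha : star a = a) (h : PosDim R H r) :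
    @PosDim K D _ _ _ (twist a ha0 ha) _ n m (R.tw a ha0 ha 1) (Vale.Agent.P011.T2.tw a H) r := by
  obtain ⟨Y, hY⟩ := h
  let F : Matrix (Fin m × Fin n) (Fin m × Fin n) ℂ := cm (Matrix.scalar (Fin m) (R.f a))
  let F' : Matrix (Fin m × Fin n) (Fin m × Fin n) ℂ := cm (Matrix.scalar (Fin m) (R.f a⁻¹))
  have hFF : F' * F = 1 := by
    change cm _ * cm _ = _
    rw [← cm_mul, ← map_mul, ← map_mul, inv_mul_cancel₀ ha0, map_one, map_one]
    ext ⟨i, p⟩ ⟨j, q⟩
    change (1 : Matrix (Fin m) (Fin m) (Matrix (Fin n) (Fin n) ℂ)) i j p q = _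
    rw [Matrix.one_apply, Matrix.one_apply]
    by_cases hij : i = j
    · subst hij
      rw [if_pos rfl, Matrix.one_apply]
      by_cases hpq : p = q
      · subst hpq; rw [if_pos rfl, if_pos rfl]
      · rw [if_neg hpq, if_neg (fun h => hpq (Prod.ext_iff.mp h).2)]
    · rw [if_neg hij, if_neg (fun h => hij (Prod.ext_iff.mp h).1)]
      rfl
  have hG : @RData.Gam K D _ _ _ (twist a ha0 ha) _ n (R.tw a ha0 ha 1) m
      (Vale.Agent.P011.T2.tw a H) = F * R.Gam H * Fᴴ := by
    have e1 : F * R.Gam H * Fᴴ = cm (Matrix.scalar (Fin m) (R.f a) *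
        (Matrix.of fun i j => R.f (H i j) * R.A) * (Matrix.scalar (Fin m) (R.f a))ᴴ) := by
      rw [cm_mul, cm_mul, ← cm_conj]
      rfl
    rw [e1]
    ext ⟨i, p⟩ ⟨j, q⟩
    change (R.f (a * H i j) * ((((1 : ℤˣ) : ℤ) : ℂ) • (R.f a * R.A))) p q =
      (Matrix.scalar (Fin m) (R.f a) * (Matrix.of fun i j => R.f (H i j) * R.A) *
        (Matrix.scalar (Fin m) (R.f a))ᴴ) i j p q
    rw [Matrix.scalar_apply, Matrix.diagonal_conjTranspose, Matrix.mul_diagonal,
      Matrix.diagonal_mul, Matrix.of_apply]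
    have e2 : (star fun _ : Fin m => R.f a) j = (R.f a)ᴴ := rfl
    rw [e2, mul_assoc (R.f a), mul_assoc (R.f (H i j)), ← R.star_f, ha, map_mul, mul_assoc]
    simp only [Units.val_one, Int.cast_one, one_smul]
  refine ⟨Y * F', ?_⟩
  have e3 : Y * F' * (F * R.Gam H * Fᴴ) * (Y * F')ᴴ = Y * R.Gam H * Yᴴ := by
    rw [Matrix.conjTranspose_mul]
    calc Y * F' * (F * R.Gam H * Fᴴ) * (F'ᴴ * Yᴴ)
        = Y * (F' * F) * R.Gam H * (F' * F)ᴴ * Yᴴ := by
          rw [Matrix.conjTranspose_mul]
          simp only [Matrix.mul_assoc]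
      _ = _ := by rw [hFF, Matrix.conjTranspose_one, Matrix.mul_one, Matrix.mul_one]
  rw [hG, e3]
  exact hY

end

/-- **Theorem (T)**: for a normalised form of rank three, one related independent pair of
vectors of length one makes all pairs of vectors of length one related. -/
def ThmTStmt : Prop :=
  ∀ (K D : Type) [Field K] [NumberField K] [StarRing K] [DivisionRing D] [StarRing D]
    [Algebra K D] [StarModule K D] [FiniteDimensional K D] [Algebra.IsCentral K D] [CharZero D]
    (_ : ∃ k : K, star k ≠ k) (n : ℕ) (_ : 2 ≤ n) (_ : finrank K D = n ^ 2)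
    (ι : Type) [Fintype ι] (R : ι → RData K D n) (_ : Complete R) (_ : RP.Dense R)
    (_ : ∀ i, (R i).A.PosDef) (H : Matrix (Fin 3) (Fin 3) D) (hH : IsAnisotropicForm H)
    (_ : ∀ i, PosDim (R i) H n), (rowA H hH).Spread 1

section

variable {K D : Type} [Field K] [NumberField K] [StarRing K] [DivisionRing D] [StarRing D]
  [Algebra K D] [StarModule K D] [FiniteDimensional K D] [Algebra.IsCentral K D] [CharZero D]

/-- Theorem (T) for all positive lengths. -/
theorem spread_pos (hT : ThmTStmt) (hK : ∃ k : K, star k ≠ k) {n : ℕ} (hn : 2 ≤ n)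
    (hdeg : finrank K D = n ^ 2) {ι : Type} [Fintype ι] (R : ι → RData K D n)
    (hc : Complete R) (hd : RP.Dense R) {H : Matrix (Fin 3) (Fin 3) D}
    (hH : IsAnisotropicForm H) (hP : ∀ i, PosDim (R i) H n) {a : D} (ha0 : a ≠ 0)
    (ha : star a = a) (haP : ∀ i, (R i).PosAt a) : (rowA H hH).Spread a := by
  refine spread_of_twist H hH ha0 ha ?_
  refine @hT K D _ _ _ _ (twist a ha0 ha) _ (twist_module a ha0 ha) _ _ _ hK n hn hdeg ι _
    (fun i => (R i).tw a ha0 ha 1) hc hd (fun i => ?_) (Vale.Agent.P011.T2.tw a H)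
    (anis_twist a ha0 ha hH) (fun i => posDim_tw (R i) H ha0 ha (hP i))
  change ((((1 : ℤˣ) : ℤ) : ℂ) • ((R i).f a * (R i).A)).PosDef
  simp only [Units.val_one, Int.cast_one, one_smul]
  exact haP i

end

end Vale.Agent.P011.F3
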