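import Vale.Agent.P011.F3.Phase2
import Vale.Agent.P011.F3.Total
import Vale.Agent.P011.F3.Twist
import Vale.Agent.P011.Even.Global

/-!
Theorem (T): in rank three one related independent pair of vectors of length one makes all pairs
of vectors of length one related.
-/

open Module Matrix Polynomial NumberField IsDedekindDomain
open scoped ComplexOrder

set_option linter.unusedSectionVars false

namespace Vale.Agent.P011.F3

open Vale.Agent.P011.Arith Vale.Agent.P011.Even Vale.Agent.P011S Vale.Agent.P011.Two2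
open Vale.Agent.P011.Two.Hi
open Vale.Agent.P011.RP (RData Complete Dense rowH isUnit_of_anis)

section start

variable {D V : Type} [DivisionRing D] [StarRing D] [AddCommGroup V] [Module D V]

/-- From a related pair to a frame whose second length is the real part of related pairs. -/
theorem start_frame {H : AForm D V} {R : V → V → Prop} (hR : H.InvRel R) {x y w : V}
    (hx : H.h x x = 1) (hy : H.h y y = 1) (hxy : ∀ d : D, x ≠ d • y) (hRxy : R x y)
    (hw : w ≠ 0) (hwx : H.h w x = 0) (hwy : H.h w y = 0) :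
    ∃ e₂ e₃ : V, Fr H x e₂ e₃ ∧ InP H R (H.h e₂ e₂) := by
  obtain ⟨b, hb⟩ : ∃ b, b = H.h x y := ⟨_, rfl⟩
  have hyx : H.h y x = star b := by rw [hb, H.star_h]
  have hb1 : H.h x y ≠ 1 := by
    intro h1
    have h2 : H.h (x - y) (x - y) = 0 := by
      rw [H.sub_left, H.sub_right, H.sub_right, hx, hy, h1, hyx, hb, h1, star_one]
      simp
    have h3 := H.anis h2
    apply hxy 1
    rw [one_smul]
    exact sub_eq_zero.mp h3
  have hb1' : 1 - b ≠ 0 := sub_ne_zero.mpr (by rw [hb]; exact Ne.symm hb1)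
  obtain ⟨Z, hZ⟩ : ∃ Z, Z = (1 - H.h x y)⁻¹ := ⟨_, rfl⟩
  have hZ0 : Z ≠ 0 := by rw [hZ, ← hb]; exact inv_ne_zero hb1'
  have hbZ : b = 1 - Z⁻¹ := by rw [hZ, inv_inv, ← hb]; abel
  obtain ⟨σ, hσ⟩ : ∃ σ, Z + star Z = 1 + σ := ⟨Z + star Z - 1, by abel⟩
  obtain ⟨y', hy'⟩ : ∃ y', y' = y - star b • x := ⟨_, rfl⟩
  have hy'0 : y' ≠ 0 := by
    intro h0
    rw [hy', sub_eq_zero] at h0
    have hb0 : star b ≠ 0 := by
      intro h1
      rw [h1, zero_smul] at h0
      rw [h0, H.zero_left] at hy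
      exact zero_ne_one hy
    apply hxy (star b)⁻¹
    rw [h0, smul_smul, inv_mul_cancel₀ hb0, one_smul]
  have hy'x : H.h y' x = 0 := by
    rw [hy', H.sub_left, H.smul_left, hyx, hx, mul_one, sub_self]
  have hN := norm_eq hZ0 hσ
  rw [← hbZ] at hN
  have hy'y' : H.h y' y' = star Z⁻¹ * σ * Z⁻¹ := by
    have h2 : H.h y y' = star Z⁻¹ * σ * Z⁻¹ := by
      rw [hy', H.sub_right, H.smul_right, hyx, hy, star_star, ← hN]; abel
    nth_rewrite 1 [hy']
    rw [H.sub_left, H.smul_left, h2, H.orth_symm hy'x, mul_zero, sub_zero]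
  have hσ0 : σ ≠ 0 := by
    rintro rfl
    rw [mul_zero, zero_mul] at hy'y'
    exact H.self_ne_zero hy'0 hy'y'
  have hσs : star σ = σ := by
    have h1 : σ = Z + star Z - 1 := by rw [hσ]; abel
    rw [h1, star_sub, star_add, star_star, star_one, add_comm (star Z)]
  have hsZ0 : star Z ≠ 0 := star_ne_zero.mpr hZ0
  -- the first frame
  have h22 : H.h (star Z • y') (star Z • y') = σ := by
    rw [H.smul_left, H.smul_right, hy'y', star_star, star_inv₀]
    calc star Z * ((star Z)⁻¹ * σ * Z⁻¹ * Z) = (star Z * (star Z)⁻¹) * σ * (Z⁻¹ * Z) := by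
          simp only [mul_assoc]
      _ = _ := by rw [mul_inv_cancel₀ hsZ0, inv_mul_cancel₀ hZ0, one_mul, mul_one]
  have hwy' : H.h w y' = 0 := by
    rw [hy', H.sub_right, H.smul_right, hwy, hwx, zero_mul, sub_zero]
  have hfr : Fr H x (star Z • y') w :=
    ⟨hx, by rw [H.smul_right, H.orth_symm hy'x, zero_mul], hwx,
      by rw [H.smul_right, hwy', zero_mul], smul_ne_zero hsZ0 hy'0, hw⟩
  obtain ⟨e₃', hfr', hlen, -⟩ := hfr.step ((Z - σ) * σ⁻¹) (one_ne_zero (α := D))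
  refine ⟨_, e₃', hfr', ?_⟩
  have h3 := rel_start hR hx hy hb1 hRxy hwx hwy hZ hσ hσ0 1
  rw [hlen, h22, star_mul, star_inv₀, hσs]
  have e1 : (Z - σ) * σ⁻¹ * σ * (σ⁻¹ * star (Z - σ)) = (Z - σ) * σ⁻¹ * star (Z - σ) := by
    rw [inv_mul_cancel_right₀ hσ0, mul_assoc]
  rw [e1]
  exact h3

end start

section inv

variable {k D : Type} [Field k] [NumberField k] [DivisionRing D] [StarRing D] [Algebra k D] {N : ℕ}

/-- The inversion is continuous. -/
theorem inv_near (B : Basis (Fin N) k D) (p : Pl k) {u₁ : D} (hu₁ : u₁ ≠ 0) {η : ℝ} (hη : 0 < η) :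
    ∃ ε : ℝ, 0 < ε ∧ ∀ u : D, nm B p (u - u₁) < ε → u ≠ 0 ∧ nm B p (u⁻¹ - u₁⁻¹) < η := by
  obtain ⟨C, hC, hCm⟩ := nm_mul B p
  have h10 : 0 < nm B p (1 : D) := nm_pos B p one_ne_zero
  have hi0 : 0 < nm B p u₁⁻¹ := nm_pos B p (inv_ne_zero hu₁)
  -- the bound for `v`
  obtain ⟨κ, hκ, hκ1, hκ2, hκ3⟩ : ∃ κ : ℝ, 0 < κ ∧ κ ≤ nm B p (1 : D) ∧ C * κ ≤ 1 / 2 ∧
      C * (C * κ * (2 * nm B p (1 : D))) * nm B p u₁⁻¹ < η := by
    refine ⟨min (nm B p (1 : D)) (min (1 / (2 * C))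
      (η / (2 * (C * C * (2 * nm B p (1 : D)) * nm B p u₁⁻¹)))), by positivity, min_le_left _ _,
      ?_, ?_⟩
    · calc C * _ ≤ C * (1 / (2 * C)) := mul_le_mul_of_nonneg_left
            ((min_le_right _ _).trans (min_le_left _ _)) hC.le
        _ = 1 / 2 := by field_simp
    · obtain ⟨q, hq⟩ : ∃ q : ℝ, q = C * C * (2 * nm B p (1 : D)) * nm B p u₁⁻¹ := ⟨_, rfl⟩
      have hq0 : 0 < q := by rw [hq]; positivity
      rw [← hq]
      have h1 : min (nm B p (1 : D)) (min (1 / (2 * C)) (η / (2 * q))) ≤ η / (2 * q) :=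
        (min_le_right _ _).trans (min_le_right _ _)
      calc C * (C * min (nm B p (1 : D)) (min (1 / (2 * C)) (η / (2 * q))) *
            (2 * nm B p (1 : D))) * nm B p u₁⁻¹
          = q * min (nm B p (1 : D)) (min (1 / (2 * C)) (η / (2 * q))) := by rw [hq]; ring
        _ ≤ q * (η / (2 * q)) := mul_le_mul_of_nonneg_left h1 hq0.le
        _ = η / 2 := by field_simp
        _ < η := by linarith
  refine ⟨κ / (C * nm B p u₁⁻¹), by positivity, fun u hu => ?_⟩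
  obtain ⟨v, hv⟩ : ∃ v, v = u₁⁻¹ * (u - u₁) := ⟨_, rfl⟩
  have hvκ : nm B p v < κ := by
    rw [hv]
    refine lt_of_le_of_lt (hCm _ _) ?_
    rw [lt_div_iff₀ (by positivity)] at hu
    linarith
  have huv : u = u₁ * (1 + v) := by
    rw [hv, mul_add, mul_one, mul_inv_cancel_left₀ hu₁, add_sub_cancel]
  have hv1 : 1 + v ≠ 0 := by
    intro h0
    have h1 : v = -1 := by
      rw [add_comm] at h0
      exact eq_neg_of_add_eq_zero_left h0
    rw [h1, nm_neg] at hvκ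
    linarith
  have hvi : (1 + v)⁻¹ - 1 = -(v * (1 + v)⁻¹) := by
    have h1 : (1 + v) * (1 + v)⁻¹ = 1 := mul_inv_cancel₀ hv1
    rw [add_mul, one_mul] at h1
    rw [eq_neg_iff_add_eq_zero, sub_add_eq_add_sub, h1, sub_self]
  have hN : nm B p (1 + v)⁻¹ ≤ 2 * nm B p (1 : D) := by
    have h1 : (1 + v)⁻¹ = 1 - v * (1 + v)⁻¹ := by
      rw [sub_eq_add_neg, ← hvi, add_sub_cancel]
    have h2 : nm B p (1 + v)⁻¹ ≤ nm B p (1 : D) + nm B p (v * (1 + v)⁻¹) := by
      nth_rewrite 1 [h1]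
      exact nm_sub_le B p _ _
    have h3 := hCm v (1 + v)⁻¹
    have h4 : C * nm B p v * nm B p (1 + v)⁻¹ ≤ 1 / 2 * nm B p (1 + v)⁻¹ :=
      mul_le_mul_of_nonneg_right ((mul_le_mul_of_nonneg_left hvκ.le hC.le).trans hκ2)
        (nm_nonneg B p _)
    linarith
  refine ⟨by rw [huv]; exact mul_ne_zero hu₁ hv1, ?_⟩
  have e1 : u⁻¹ - u₁⁻¹ = ((1 + v)⁻¹ - 1) * u₁⁻¹ := by
    rw [huv, _root_.mul_inv_rev, sub_mul, one_mul]
  rw [e1, hvi]
  refine lt_of_le_of_lt (hCm _ _) (lt_of_le_of_lt ?_ hκ3)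
  refine mul_le_mul_of_nonneg_right (mul_le_mul_of_nonneg_left ?_ hC.le) hi0.le
  rw [nm_neg]
  refine (hCm _ _).trans ?_
  exact mul_le_mul (mul_le_mul_of_nonneg_left hvκ.le hC.le) hN (nm_nonneg B p _) (by positivity)

end inv

section main

variable {k K D : Type} [Field k] [NumberField k] [Field K] [NumberField K] [StarRing K]
    [DivisionRing D] [StarRing D] [Algebra k K] [Algebra k D] [Algebra K D] [IsScalarTower k K D]
    {d : kˣ} {s : K} {n N : ℕ}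

/-- Theorem (T) in the standard setting. -/
theorem thmT_set (hS : Setting k K D d s) (hn : 2 ≤ n) (hdeg : finrank K D = n ^ 2)
    {ι : Type} [Fintype ι] {R : ι → RData K D n} (hc : Complete R) (hd : Dense R)
    (hA : ∀ i, (R i).A.PosDef) {H : Matrix (Fin 3) (Fin 3) D} (hH : IsAnisotropicForm H)
    {Rel : (Fin 3 → D) → (Fin 3 → D) → Prop} (hRel : (rowA H hH).InvRel Rel)
    {x y w : Fin 3 → D} (hx : (rowA H hH).h x x = 1) (hy : (rowA H hH).h y y = 1)
    (hxy : ∀ d : D, x ≠ d • y) (hRxy : Rel x y) (hw : w ≠ 0) (hwx : (rowA H hH).h w x = 0)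
    (hwy : (rowA H hH).h w y = 0) :
    ∀ x' y', rowH H x' x' = 1 → rowH H y' y' = 1 → Rel x' y' := by
  classical
  have hn0 : 0 < n := by omega
  have := hS.fin
  have := hS.cen
  have hfk := hS.fin_k
  have : StarModule K D := ⟨hS.star_smul⟩
  have hchar : CharZero D := charZero_of_injective_algebraMap (algebraMap K D).injective
  let B := Module.finBasis k D
  obtain ⟨f⟩ := Vale.Agent.P011S.exists_split (K := K) (D := D) hdeg (AlgebraicClosure K)
  obtain ⟨e₂, e₃, hfr, hP⟩ := start_frame hRel hx hy hxy hRxy hw hwx hwy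
  -- the class
  obtain ⟨ν₂, hν₂⟩ := exists_nrd_unit hS hn0 hdeg f ((rowA H hH).star_h e₂ e₂)
    ((rowA H hH).self_ne_zero hfr.e2)
  obtain ⟨ν₃, hν₃⟩ := exists_nrd_unit hS hn0 hdeg f ((rowA H hH).star_h e₃ e₃)
    ((rowA H hH).self_ne_zero hfr.e3)
  obtain ⟨a, ha⟩ : ∃ a : kˣ, a = (-1) ^ n * (ν₂ * ν₃) := ⟨_, rfl⟩
  have hcl : Cls d f (rowA H hH) ((-1) ^ n * a) e₂ e₃ := by
    intro ν₂' ν₃' h2 h3
    have e2 : ν₂' = ν₂ := Units.ext ((algebraMap k K).injective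
      ((algebraMap K (AlgebraicClosure K)).injective (h2.symm.trans hν₂)))
    have e3 : ν₃' = ν₃ := Units.ext ((algebraMap k K).injective
      ((algebraMap K (AlgebraicClosure K)).injective (h3.symm.trans hν₃)))
    have hm1 : ((-1 : kˣ) ^ n) * (-1) ^ n = 1 := by
      rw [← mul_pow, neg_mul_neg, one_mul, one_pow]
    rw [e2, e3, ha, ← mul_assoc ((-1 : kˣ) ^ n), hm1, one_mul]
    exact ⟨((ν₂ * ν₃ : kˣ) : k), 0, by rw [Units.val_mul (ν₂ * ν₃)]; ring⟩
  obtain ⟨V, hV⟩ := exists_ctrl hS.ns a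
  have hne : V.Nonempty ∨ ∃ φ : k →+* ℝ, φ d < 0 := by
    obtain ⟨p, hp, -, hpV⟩ := hV.jet
    rcases p with v | φ
    · exact Or.inl ⟨v, hpV v rfl⟩
    · exact Or.inr ⟨φ, notMem_LSR.mp hp⟩
  have hTne : (Tset d V).Nonempty := by
    rcases hne with ⟨v, hv⟩ | ⟨φ, hφ⟩
    · exact ⟨_, (inl_Tset hV.nonsplit).mpr hv⟩
    · exact ⟨_, inr_Tset.mpr hφ⟩
  -- the signatures
  have hs2 : ∀ i, ∃ m, HasSig (R i) (rowH H e₂ e₂) m := fun i =>
    hasSig_exists (R i) ((rowA H hH).star_h e₂ e₂) ((rowA H hH).self_ne_zero hfr.e2)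
  have hs3 : ∀ i, ∃ m, HasSig (R i) (rowH H e₃ e₃) m := fun i =>
    hasSig_exists (R i) ((rowA H hH).star_h e₃ e₃) ((rowA H hH).self_ne_zero hfr.e3)
  choose m₂ hm₂ using hs2
  choose m₃ hm₃ using hs3
  obtain ⟨Nm, hNm⟩ : ∃ Nm : ι → ℕ, ∀ i, Nm i = m₂ i + m₃ i := ⟨_, fun _ => rfl⟩
  have hsig : ∀ e₂ e₃ : Fin 3 → D, Fr (rowA H hH) x e₂ e₃ → ∀ i m₂ m₃,
      HasSig (R i) (rowH H e₂ e₂) m₂ → HasSig (R i) (rowH H e₃ e₃) m₃ → m₂ + m₃ = Nm i := by
    intro e₂' e₃' h i m m' h1 h2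
    rw [hNm]
    exact h.sig hfr h1 h2 (hm₂ i) (hm₃ i)
  obtain ⟨ε, hε⟩ := exists_sign hS hn0 hdeg hd Nm
  -- the two phases
  obtain ⟨l, f₂, f₃, hl, hPl, hfr1, hlen1, hcl1⟩ := phase_one hS hn hdeg B f hc hd hA hH hRel hfr
    hcl hV hsig hne hε hP
  obtain ⟨l', Rt, δ, hδ, hRts, hnear⟩ := phase_two hS hn hdeg B f hc hd hA hH hRel hfr1 hcl1 hV
    hsig hne hε hl hlen1 hPl
  -- a symmetric element close to the targets
  have hLin : ∃ L : D →ₗ[k] D, ∀ z, L z = (2 : k)⁻¹ • (z + star z) :=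
    ⟨(2 : k)⁻¹ • (LinearMap.id + hS.sig), fun z => rfl⟩
  obtain ⟨L, hL⟩ := hLin
  have hLs : ∀ z : D, star z = z → L z = z := by
    intro z hz
    rw [hL, hz, ← two_smul k z, smul_smul, inv_mul_cancel₀ two_ne_zero, one_smul]
  have hstk : ∀ (a : k) (z : D), star (a • z) = a • star z := fun a z => map_smul hS.sig a z
  have hLsym : ∀ z : D, star (L z) = L z := by
    intro z
    rw [hL, hstk, star_add, star_star, add_comm]
  choose CL hCL hCLm using fun p => nm_linear B p L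
  obtain ⟨z, hz⟩ := approxD B (Tset d V) (Tset_fin hV.fin) Rt (fun p => δ p / 2 / CL p)
    (fun p => by have := hδ p; have := hCL p; positivity)
  obtain ⟨r₁, hr₁⟩ : ∃ r₁, r₁ = L z := ⟨_, rfl⟩
  have hr₁s : star r₁ = r₁ := by rw [hr₁]; exact hLsym z
  have hr₁n : ∀ p ∈ Tset d V, nm B p (r₁ - Rt p) < δ p / 2 := by
    intro p hp
    have e1 : r₁ - Rt p = L (z - Rt p) := by rw [map_sub, hr₁, hLs _ (hRts p hp)]
    rw [e1]
    refine lt_of_le_of_lt (hCLm p _) ?_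
    have h1 := hz p hp
    rwa [lt_div_iff₀' (hCL p)] at h1
  obtain ⟨hP1, g₂, g₃, hfr2, hlen2⟩ := hnear r₁ hr₁s fun p hp j =>
    lt_of_lt_of_le (nm_lt_coord B p (hr₁n p hp) j) (by have := hδ p; linarith)
  have hl'0 : l' ≠ 0 := by
    rintro rfl
    rw [zero_smul] at hlen2
    exact (rowA H hH).self_ne_zero hfr2.e2 hlen2
  obtain ⟨σ, hσd⟩ : ∃ σ, σ = l' • r₁ := ⟨_, rfl⟩
  rw [← hσd] at hlen2
  have hσs : star σ = σ := by rw [hσd, hstk, hr₁s]
  have h1σ : (1 : D) + σ ≠ 0 := by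
    intro h1
    have h3 : (rowA H hH).h (x + g₂) (x + g₂) = 0 := by
      rw [(rowA H hH).add_left, (rowA H hH).add_right, (rowA H hH).add_right, hfr2.h11, hfr2.h12,
        (rowA H hH).orth_symm hfr2.h12, add_zero, zero_add]
      change 1 + rowH H g₂ g₂ = 0
      rw [hlen2]
      exact h1
    have h4 := (rowA H hH).anis h3
    have h5 : (rowA H hH).h (x + g₂) x = 1 := by
      rw [(rowA H hH).add_left, hfr2.h11, (rowA H hH).orth_symm hfr2.h12, add_zero]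
    rw [h4, (rowA H hH).zero_left] at h5
    exact zero_ne_one h5
  -- the pair
  have h20 : (2 : D) ≠ 0 := two_ne_zero
  obtain ⟨Z, hZd⟩ : ∃ Z, Z = (2 : D)⁻¹ * (1 + σ) := ⟨_, rfl⟩
  have hZ0 : Z ≠ 0 := by rw [hZd]; exact mul_ne_zero (inv_ne_zero h20) h1σ
  have hZs : star Z = Z := by
    rw [hZd, star_mul, star_two_inv, star_add, star_one, hσs]
    exact two_inv_comm _
  have hZσ : Z + star Z = 1 + σ := by
    rw [hZs, ← two_mul, hZd, ← mul_assoc, mul_inv_cancel₀ h20, one_mul]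
  obtain ⟨b, hb⟩ : ∃ b, b = 1 - Z⁻¹ := ⟨_, rfl⟩
  obtain ⟨y₁, hy₁⟩ : ∃ y₁, y₁ = star b • x + star Z⁻¹ • g₂ := ⟨_, rfl⟩
  have hg22 : (rowA H hH).h g₂ g₂ = σ := hlen2
  have hxy₁ : (rowA H hH).h x y₁ = b := by
    rw [hy₁, (rowA H hH).add_right, (rowA H hH).smul_right, (rowA H hH).smul_right, hfr2.h11,
      hfr2.h12, star_star, zero_mul, add_zero, one_mul]
  have hy₁y₁ : (rowA H hH).h y₁ y₁ = 1 := by
    have h1 := norm_eq hZ0 hZσ
    rw [← hb] at h1
    rw [hy₁, (rowA H hH).add_left, (rowA H hH).add_right, (rowA H hH).add_right,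
      (rowA H hH).smul_left, (rowA H hH).smul_left, (rowA H hH).smul_left,
      (rowA H hH).smul_left, (rowA H hH).smul_right, (rowA H hH).smul_right,
      (rowA H hH).smul_right, (rowA H hH).smul_right, hfr2.h11, hg22, hfr2.h12,
      (rowA H hH).orth_symm hfr2.h12, star_star, star_star, one_mul]
    simp only [zero_mul, mul_zero, add_zero, zero_add]
    rw [← mul_assoc, h1]
  -- continuity
  have hLin2 : ∃ L₂ : D →ₗ[k] D, ∀ z, L₂ z = l'⁻¹ • (z + star z) :=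
    ⟨l'⁻¹ • (LinearMap.id + hS.sig), fun z => rfl⟩
  obtain ⟨L₂, hL₂⟩ := hLin2
  choose C₂ hC₂ hC₂m using fun p => nm_linear B p L₂
  choose η hη hηn using fun p : Pl k => inv_near B p (inv_ne_zero hZ0)
    (show 0 < δ p / 2 / C₂ p by have := hδ p; have := hC₂ p; positivity)
  have hZr : L₂ Z - l'⁻¹ • 1 = r₁ := by
    rw [hL₂, hZσ, ← smul_sub, add_sub_cancel_left, hσd, smul_smul, inv_mul_cancel₀ hl'0, one_smul]
  refine total_of_near hS hn hdeg B hH.1 (isUnit_of_anis hH) one_ne_zero (Tset_fin hV.fin)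
    (fun p hp => hp.2) (fun _ _ h => hRel.symm h) (fun _ _ _ h h' => hRel.trans h h') (x₁ := x)
    (y₁ := y₁) hx hy₁y₁ hη fun u v hu hv huv => ?_
  have hb' : ∀ p ∈ Tset d V, nm B p ((1 - rowH H u v) - Z⁻¹) < η p := by
    intro p hp
    have h1 := huv p hp
    have h2 : rowH H x y₁ = b := hxy₁
    rw [h2, ← nm_neg] at h1
    have e1 : -(rowH H u v - b) = (1 - rowH H u v) - Z⁻¹ := by rw [hb]; abel
    rwa [e1] at h1
  obtain ⟨c, hcd⟩ : ∃ c, c = 1 - rowH H u v := ⟨_, rfl⟩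
  rw [← hcd] at hb'
  have hc0 : c ≠ 0 := by
    obtain ⟨p, hp⟩ := hTne
    exact (hηn p c (hb' p hp)).1
  have hcn : ∀ p ∈ Tset d V, nm B p (c⁻¹ - Z) < δ p / 2 / C₂ p := by
    intro p hp
    have h1 := (hηn p c (hb' p hp)).2
    rwa [inv_inv] at h1
  obtain ⟨r, hr⟩ : ∃ r, r = L₂ c⁻¹ - l'⁻¹ • 1 := ⟨_, rfl⟩
  have hrs : star r = r := by
    rw [hr, hL₂, star_sub, hstk, hstk, star_add, star_star, star_one, add_comm (star c⁻¹)]
  obtain ⟨hPr, -⟩ := hnear r hrs fun p hp j => by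
    refine nm_lt_coord B p ?_ j
    have e1 : r - Rt p = L₂ (c⁻¹ - Z) + (r₁ - Rt p) := by
      rw [map_sub, hr, ← hZr]; abel
    rw [e1]
    refine lt_of_le_of_lt (nm_add_le B p _ _) ?_
    have h1 := hCL p
    have h2 : nm B p (L₂ (c⁻¹ - Z)) < δ p / 2 := by
      refine lt_of_le_of_lt (hC₂m p _) ?_
      have h3 := hcn p hp
      rwa [lt_div_iff₀' (hC₂ p)] at h3
    have h4 := hr₁n p hp
    linarith
  refine hPr u v hu hv ?_ ?_
  · intro h1
    apply hc0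
    rw [hcd]
    change 1 - (rowA H hH).h u v = 0
    rw [h1, sub_self]
  · change (1 - rowH H u v)⁻¹ + star (1 - rowH H u v)⁻¹ = 1 + l' • r
    rw [← hcd, hr, hL₂, smul_sub, smul_smul, smul_smul, mul_inv_cancel₀ hl'0, one_smul, one_smul,
      add_sub_cancel]

end main

/-- **Theorem (T).** -/
theorem thmT : ThmTStmt := by
  intro K D _ _ _ _ _ _ _ _ _ _ hK n hn hdeg ι _ R hc hd hA H hH _ Rel hRel x y hx hy hxy hRxy
    x' y' hx' hy'
  obtain ⟨k0, hk0⟩ := hK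
  have hθ0 : k0 - star k0 ≠ 0 := sub_ne_zero.mpr (Ne.symm hk0)
  have hθ : star (k0 - star k0) = -(k0 - star k0) := by rw [star_sub, star_star, neg_sub]
  let _ := algFK (K := K) (D := D)
  have _ : IsScalarTower (FK K) K D := IsScalarTower.of_algebraMap_eq fun _ => rfl
  have hS : Setting (FK K) K D (sqU hθ0 hθ) (k0 - star k0) := setting hθ0 hθ
  obtain ⟨w, hw, hwx, hwy⟩ : ∃ w, w ≠ 0 ∧ (rowA H hH).h w x = 0 ∧ (rowA H hH).h w y = 0 := by
    let F : (Fin 3 → D) →ₗ[D] (D × D) :=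
      { toFun := fun w => ((rowA H hH).h w x, (rowA H hH).h w y)
        map_add' := fun a b => by
          ext
          · exact (rowA H hH).add_left a b x
          · exact (rowA H hH).add_left a b y
        map_smul' := fun c a => by
          ext
          · exact (rowA H hH).smul_left c a x
          · exact (rowA H hH).smul_left c a y }
    have h1 : LinearMap.ker F ≠ ⊥ := by
      apply LinearMap.ker_ne_bot_of_finrank_lt
      rw [Module.finrank_prod, Module.finrank_self, Module.finrank_fin_fun]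
      omega
    obtain ⟨w, hw, hw0⟩ := (Submodule.ne_bot_iff _).mp h1
    have h2 : F w = 0 := hw
    exact ⟨w, hw0, congrArg Prod.fst h2, congrArg Prod.snd h2⟩
  exact thmT_set hS hn hdeg hc hd hA hH hRel hx hy hxy hRxy hw hwx hwy x' y' hx' hy'

end Vale.Agent.P011.F3
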