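import Vale.Agent.P011.F3.Quasi
import Vale.Agent.P011.F3.ThmT
import Vale.Agent.P011.U2.Perf
import Vale.Agent.P011.Two2.Final
import Vale.Agent.P011.W.Quasi

/-!
Special unitary groups of anisotropic hermitian forms of rank at least two over noncommutative
division algebras: the final statements.
-/

open Module Matrix
open scoped commutatorElement

namespace Vale.Agent.P011.F3

open Vale.Agent.P011S Vale.Agent.P011.RP Vale.Agent.P011.T2 Vale.Agent.P011.Three
open Vale.Agent.P011.Two.Hi

theorem genStmt : GenStmt := by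
  intro K D _ _ _ _ _ _ _ _ _ hK n hn hdeg ι _ R hc hd hA H hH hH1
  exact U2.isom_le_qrGp hK (by omega) hdeg hc hd hA (by norm_num) hH hH1

theorem commStmt : CommStmt := by
  intro K D _ _ _ _ _ _ _ _ _ hK n hn hdeg F _ _ f H hH
  exact U2.su_eq_comm f hK hn hdeg (by norm_num) H hH

theorem trStmt : TrStmt := by
  intro K D _ _ _ _ _ _ _ _ _ hK n hn hdeg F _ _ f H hH g hg x y
  have hchar : CharZero D := charZero_of_injective_algebraMap (algebraMap K D).injective
  have hfin : FiniteDimensional ℚ D := FiniteDimensional.trans ℚ K D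
  exact htr f hn le_rfl hg x y

variable {K D F : Type} [Field K] [NumberField K] [StarRing K] [DivisionRing D] [StarRing D]
  [Algebra K D] [StarModule K D] [FiniteDimensional K D] [Algebra.IsCentral K D]
  [Field F] [Algebra K F]

/-- **Normal subgroups**, rank at least three. -/
theorem normal_all (hK : ∃ k : K, star k ≠ k) {n : ℕ} (hn : 2 ≤ n)
    (hdeg : finrank K D = n ^ 2) (f : D →ₐ[K] Matrix (Fin n) (Fin n) F) {m : ℕ} (hm : 3 ≤ m)
    (H : Matrix (Fin m) (Fin m) D) (hH : IsAnisotropicForm H) (N : Subgroup (SU f H))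
    [N.Normal] : N ≤ Subgroup.center (SU f H) ∨ N = ⊤ := by
  rcases Nat.lt_or_ge 3 m with h | h
  · exact W.normal_all hK (by omega) hdeg f h H hH N
  · obtain rfl : m = 3 := by omega
    exact non_three thmT genStmt commStmt trStmt hK hn hdeg f H hH N

/-- The special unitary group is perfect and simple modulo its centre, rank at least three. -/
theorem quasi_all (hK : ∃ k : K, star k ≠ k) {n : ℕ} (hn : 2 ≤ n)
    (hdeg : finrank K D = n ^ 2) (f : D →ₐ[K] Matrix (Fin n) (Fin n) F) {m : ℕ} (hm : 3 ≤ m)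
    (H : Matrix (Fin m) (Fin m) D) (hH : IsAnisotropicForm H) : IsQuasisimple (SU f H) := by
  have hchar : CharZero D := charZero_of_injective_algebraMap (algebraMap K D).injective
  have hfin : FiniteDimensional ℚ D := FiniteDimensional.trans ℚ K D
  exact quasi_of_dich f (by omega) hm hH fun N _ => normal_all hK hn hdeg f hm H hH N

/-- All clauses. -/
theorem all_clauses (hK : ∃ k : K, star k ≠ k) {n : ℕ} (hn : 2 ≤ n)
    (hdeg : finrank K D = n ^ 2) (f : D →ₐ[K] Matrix (Fin n) (Fin n) F) {m : ℕ} (hm : 2 ≤ m)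
    (H : Matrix (Fin m) (Fin m) D) (hH : IsAnisotropicForm H) :
    (∀ S : Subgroup (SU f H), S.index ≠ 0 → S = ⊤) ∧ SU f H = ⁅UH H, UH H⁆ ∧
      (3 ≤ m → (∀ (N : Subgroup (SU f H)) [N.Normal], N ≤ Subgroup.center (SU f H) ∨ N = ⊤) ∧
        IsQuasisimple (SU f H)) :=
  ⟨fun S hS => Two2.top_of_index hK hn hdeg f hm H hH S hS, U2.su_eq_comm f hK hn hdeg hm H hH,
    fun h3 => ⟨fun N _ => normal_all hK hn hdeg f h3 H hH N, quasi_all hK hn hdeg f h3 H hH⟩⟩

end Vale.Agent.P011.F3
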