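import Vale.Agent.P011.F3.SphereM
import Vale.Agent.P011.Two.FrameDefs

/-!
The hermitian space over the centre attached to a matrix model of a completion.
-/

open Module Matrix

set_option linter.unusedSectionVars false

namespace Vale.Agent.P011.F3

open Vale.Agent.P011.T2
open Vale.Agent.P011.Two2 (CData)
open Vale.Agent.P011.Two (IsFrame)
open Vale.Agent.P011.RP (rowH)

/-- A matrix model of a completion, with a hermitian matrix describing the involution. -/
structure HMod {D : Type} [DivisionRing D] [StarRing D] (C : CData D) (n : ℕ) (L : Type)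
    [Field L] [StarRing L] where
  ρ : C.E ≃+* Matrix (Fin n) (Fin n) L
  A : Matrix (Fin n) (Fin n) L
  unit : IsUnit A
  herm : Aᴴ = A
  star' : ∀ X, ρ (C.σ X) * A = A * (ρ X)ᴴ

variable {D : Type} [DivisionRing D] [StarRing D] {C : CData D} {n m : ℕ} {L : Type} [Field L]
  [StarRing L] (M : HMod C n L) {H : Matrix (Fin m) (Fin m) D}

/-- The matrices of the form. -/
def HMod.V (M : HMod C n L) (H : Matrix (Fin m) (Fin m) D) (i j : Fin m) :
    Matrix (Fin n) (Fin n) L := M.ρ (C.φ (H i j)) * M.A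

theorem HMod.V_herm (hH : Hᴴ = H) (i j : Fin m) : (M.V H i j)ᴴ = M.V H j i := by
  have h1 : star (H i j) = H j i := by rw [← Matrix.conjTranspose_apply, hH]
  rw [HMod.V, HMod.V, Matrix.conjTranspose_mul, M.herm, ← M.star', C.σ_φ, h1]

/-- The hermitian form over `L`. -/
def HMod.form (hH : Hᴴ = H) : HF L (Fin m → Fin n → L) where
  h w w' := ∑ i, ∑ j, (w i ᵥ* M.V H i j) ⬝ᵥ star (w' j)
  add_left x y z := by
    simp only [Pi.add_apply, Matrix.add_vecMul, add_dotProduct, Finset.sum_add_distrib]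
  smul_left a x y := by
    simp only [Pi.smul_apply, Matrix.smul_vecMul, smul_dotProduct, Finset.mul_sum, smul_eq_mul]
  star_h x y := by
    simp only [star_sum]
    rw [Finset.sum_comm]
    refine Finset.sum_congr rfl fun i _ => Finset.sum_congr rfl fun j _ => ?_
    rw [← Matrix.star_dotProduct_star, star_star, Matrix.star_vecMul, M.V_herm hH,
      Matrix.dotProduct_mulVec]

theorem HMod.form_h (hH : Hᴴ = H) (w w' : Fin m → Fin n → L) :
    (M.form hH).h w w' = ∑ i, ∑ j, (w i ᵥ* M.V H i j) ⬝ᵥ star (w' j) := rfl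

theorem HMod.nondeg (hH : Hᴴ = H) (hu : IsUnit H) : (M.form hH).Nondeg := by
  obtain ⟨H', hH'⟩ : ∃ H', H * H' = 1 := by
    obtain ⟨u, rfl⟩ := hu
    exact ⟨_, u.mul_inv⟩
  obtain ⟨A', hA'⟩ : ∃ A', M.A * A' = 1 := by
    obtain ⟨u, hu⟩ := M.unit
    exact ⟨_, by rw [← hu]; exact u.mul_inv⟩
  intro w hw
  have h1 : ∀ j, ∑ i, w i ᵥ* M.V H i j = 0 := by
    intro j
    funext a
    have h2 := hw (Pi.single j (Pi.single a 1))
    rw [M.form_h, Finset.sum_comm, Finset.sum_eq_single j] at h2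
    · rw [Finset.sum_apply]
      refine Eq.trans (Finset.sum_congr rfl fun i _ => ?_) h2
      rw [Pi.single_eq_same, dotProduct, Finset.sum_eq_single a]
      · rw [Pi.star_apply, Pi.single_eq_same, star_one, mul_one]
      · intro b _ hb
        rw [Pi.star_apply, Pi.single_eq_of_ne hb, star_zero, mul_zero]
      · exact fun h => absurd (Finset.mem_univ _) h
    · intro i _ hi
      rw [Pi.single_eq_of_ne hi]
      simp
    · exact fun h => absurd (Finset.mem_univ _) h
  have h3 : ∀ j, ∑ i, w i ᵥ* M.ρ (C.φ (H i j)) = 0 := by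
    intro j
    have h4 := congrArg (fun x => x ᵥ* A') (h1 j)
    simp only [Matrix.sum_vecMul, Matrix.vecMul_vecMul, HMod.V, Matrix.zero_vecMul] at h4
    simp only [mul_assoc, hA', mul_one] at h4
    exact h4
  funext l
  have h5 : ∑ j, (∑ i, w i ᵥ* M.ρ (C.φ (H i j))) ᵥ* M.ρ (C.φ (H' j l)) = w l := by
    simp only [Matrix.sum_vecMul, Matrix.vecMul_vecMul]
    rw [Finset.sum_comm]
    have h6 : ∀ i, ∑ j, w i ᵥ* (M.ρ (C.φ (H i j)) * M.ρ (C.φ (H' j l))) =
        w i ᵥ* M.ρ (C.φ ((1 : Matrix (Fin m) (Fin m) D) i l)) := by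
      intro i
      rw [← hH', Matrix.mul_apply, map_sum, map_sum, Matrix.vecMul_sum]
      simp only [map_mul]
    simp only [h6]
    rw [Finset.sum_eq_single l]
    · rw [Matrix.one_apply_eq, map_one, map_one, Matrix.vecMul_one]
    · intro i _ hi
      rw [Matrix.one_apply_ne hi, map_zero, map_zero, Matrix.vecMul_zero]
    · exact fun h => absurd (Finset.mem_univ _) h
  rw [← h5]
  simp only [h3, Matrix.zero_vecMul, Finset.sum_const_zero]
  rfl

/-- The frame attached to a vector. -/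
def HMod.fr (P : Matrix (Fin n) (Fin n) L) (X : Fin m → C.E) : Fin n → Fin m → Fin n → L :=
  fun a i => (P * M.ρ (X i)) a

/-- The vector attached to a frame. -/
noncomputable def HMod.unfr (P : Matrix (Fin n) (Fin n) L) (f : Fin n → Fin m → Fin n → L) :
    Fin m → C.E := fun i => M.ρ.symm (P⁻¹ * Matrix.of fun a => f a i)

section unit

variable {P : Matrix (Fin n) (Fin n) L} (hP : IsUnit P)

include hP

theorem inv_mul_P : P⁻¹ * P = 1 :=
  Matrix.nonsing_inv_mul _ ((Matrix.isUnit_iff_isUnit_det _).mp hP)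

theorem mul_inv_P : P * P⁻¹ = 1 :=
  Matrix.mul_nonsing_inv _ ((Matrix.isUnit_iff_isUnit_det _).mp hP)

theorem HMod.fr_unfr (f : Fin n → Fin m → Fin n → L) : M.fr P (M.unfr P f) = f := by
  funext a i
  rw [HMod.fr, HMod.unfr, RingEquiv.apply_symm_apply, ← mul_assoc, mul_inv_P hP, one_mul]
  rfl

theorem HMod.unfr_fr (X : Fin m → C.E) : M.unfr P (M.fr P X) = X := by
  funext i
  have h1 : (Matrix.of fun a => M.fr P X a i) = P * M.ρ (X i) := rfl
  rw [HMod.unfr, h1, ← mul_assoc, inv_mul_P hP, one_mul, RingEquiv.symm_apply_apply]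

end unit

/-- The Gram matrix. -/
theorem HMod.gram (hH : Hᴴ = H) (P Q : Matrix (Fin n) (Fin n) L) (X Y : Fin m → C.E)
    (a c : Fin n) : (M.form hH).h (M.fr P X a) (M.fr Q Y c) =
      (P * (M.ρ (HB C H X Y) * M.A) * Qᴴ) a c := by
  have h1 : M.ρ (HB C H X Y) * M.A = ∑ i, ∑ j, M.ρ (X i) * M.V H i j * (M.ρ (Y j))ᴴ := by
    rw [HB, map_sum, Finset.sum_mul]
    refine Finset.sum_congr rfl fun i _ => ?_
    rw [map_sum, Finset.sum_mul]
    refine Finset.sum_congr rfl fun j _ => ?_
    rw [map_mul, map_mul, mul_assoc, M.star', HMod.V]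
    simp only [mul_assoc]
  rw [M.form_h, h1]
  simp only [Finset.mul_sum, Finset.sum_mul, Matrix.sum_apply]
  refine Finset.sum_congr rfl fun i _ => Finset.sum_congr rfl fun j _ => ?_
  have h2 : P * (M.ρ (X i) * M.V H i j * (M.ρ (Y j))ᴴ) * Qᴴ =
      (P * M.ρ (X i) * M.V H i j) * (Q * M.ρ (Y j))ᴴ := by
    rw [Matrix.conjTranspose_mul]
    simp only [mul_assoc]
  rw [h2]
  change (P * M.ρ (X i)) a ᵥ* M.V H i j ⬝ᵥ star ((Q * M.ρ (Y j)) c) = _
  rw [← Matrix.mul_apply_eq_vecMul]
  rfl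

/-- Equality of Gram matrices. -/
theorem HMod.gram_inj (hH : Hᴴ = H) {P : Matrix (Fin n) (Fin n) L} (hP : IsUnit P)
    {X Y : Fin m → C.E} {Z : Matrix (Fin n) (Fin n) L}
    (h : ∀ a c, (M.form hH).h (M.fr P X a) (M.fr P Y c) = (P * (Z * M.A) * Pᴴ) a c) :
    M.ρ (HB C H X Y) = Z := by
  have h1 : P * (M.ρ (HB C H X Y) * M.A) * Pᴴ = P * (Z * M.A) * Pᴴ := by
    ext a c
    rw [← M.gram hH, h]
  have hPH : IsUnit Pᴴ := by
    rw [Matrix.isUnit_conjTranspose]
    exact hP
  have h2 := hPH.mul_right_cancel h1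
  have h3 := hP.mul_left_cancel h2
  exact M.unit.mul_right_cancel h3

/-- Isometries preserve the products. -/
theorem HMod.isom (hH : Hᴴ = H) {P : Matrix (Fin n) (Fin n) L} (hP : IsUnit P)
    {g : (Fin m → Fin n → L) → (Fin m → Fin n → L)}
    (hg : ∀ x y, (M.form hH).h (g x) (g y) = (M.form hH).h x y)
    (f f' : Fin n → Fin m → Fin n → L) :
    HB C H (M.unfr P fun i => g (f i)) (M.unfr P fun i => g (f' i)) =
      HB C H (M.unfr P f) (M.unfr P f') := by
  apply M.ρ.injective
  apply M.gram_inj hH hP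
  intro a c
  rw [M.fr_unfr hP, M.fr_unfr hP, hg, ← M.gram hH, M.fr_unfr hP, M.fr_unfr hP]

variable {F : Type} [Field F] [Algebra F L]

/-- Frames are the vectors of given length. -/
theorem HMod.frame_iff (hH : Hᴴ = H) {P : Matrix (Fin n) (Fin n) L} (hP : IsUnit P) {c : D}
    {α : Fin n → Fˣ}
    (hα : P * (M.ρ (C.φ c) * M.A) * Pᴴ = Matrix.diagonal fun i => algebraMap F L (α i))
    (X : Fin m → C.E) : IsFrame (M.form hH) α (M.fr P X) ↔ HB C H X X = C.φ c := by
  constructor
  · intro h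
    apply M.ρ.injective
    apply M.gram_inj hH hP
    intro a b
    rw [hα, Matrix.diagonal_apply]
    split_ifs with hab
    · subst hab
      exact h.1 a
    · exact h.2 a b hab
  · intro h
    have h1 : ∀ a b, (M.form hH).h (M.fr P X a) (M.fr P X b) =
        Matrix.diagonal (fun i => algebraMap F L (α i)) a b := by
      intro a b
      rw [M.gram hH, h, hα]
    exact ⟨fun i => by rw [h1, Matrix.diagonal_apply_eq],
      fun i j hij => by rw [h1, Matrix.diagonal_apply_ne _ hij]⟩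

end Vale.Agent.P011.F3
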