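import Vale.Agent.P011.H402.Total

/-!
Elements of a division algebra with involution whose hermitian part is prescribed and whose
reduced norm is prescribed up to reduced norms of symmetric elements.
-/

open Module Matrix

namespace Vale.Agent.P011.F3

open Vale.Agent.P011S

section

variable {K D : Type} [Field K] [DivisionRing D] [Algebra K D] {Ω : Type} [Field Ω]
  [Algebra K Ω] {n : ℕ}

/-- An element is not conjugate to its translate by one. -/
theorem not_conj_add_one [CharZero K] (hn : 0 < n) (f : D →ₐ[K] Matrix (Fin n) (Fin n) Ω)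
    {z u : D} (hu : u ≠ 0) : z + 1 ≠ u * z * u⁻¹ := by
  intro h
  have : CharZero Ω := charZero_of_injective_algebraMap (algebraMap K Ω).injective
  have h1 : (f (z + 1)).trace = (f z).trace := by
    rw [h, map_mul, map_mul, Matrix.trace_mul_comm, ← mul_assoc, ← map_mul, inv_mul_cancel₀ hu,
      map_one, one_mul]
  rw [map_add, map_one, Matrix.trace_add, Matrix.trace_one, Fintype.card_fin,
    add_eq_left] at h1
  exact hn.ne' (Nat.cast_eq_zero.mp h1)

variable [StarRing D]

/-- **NU.** If the hermitian part of `z` is not zero, every symmetric element is the hermitian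
part of a product of `z` with two symmetric elements. -/
theorem nu [CharZero K] [CharZero D] [FiniteDimensional ℚ D] (hn : 0 < n)
    (f : D →ₐ[K] Matrix (Fin n) (Fin n) Ω) {z : D} (hz : z + star z ≠ 0) {c : D}
    (hc : star c = c) : ∃ s₁ s₂ : D, star s₁ = s₁ ∧ star s₂ = s₂ ∧ s₁ ≠ 0 ∧
      z * s₁ * s₂ + star (z * s₁ * s₂) = c := by
  obtain ⟨w, hw⟩ : ∃ w, w = z + star z := ⟨_, rfl⟩
  have hws : star w = w := by rw [hw, star_add, star_star, add_comm]
  have hw0 : w ≠ 0 := hw ▸ hz
  obtain ⟨z₁, hz₁⟩ : ∃ z₁, z₁ = z * w⁻¹ := ⟨_, rfl⟩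
  have hz₁s : star z₁ = 1 - w⁻¹ * z := by
    rw [hz₁, star_mul, star_inv₀, hws]
    have : star z = w - z := by rw [hw]; abel
    rw [this, mul_sub, inv_mul_cancel₀ hw0]
  let S : Submodule ℚ D :=
    { carrier := {s | star s = s}
      add_mem' := by
        intro a b ha hb
        change star (a + b) = a + b
        rw [star_add, show star a = a from ha, show star b = b from hb]
      zero_mem' := star_zero D
      smul_mem' := by
        intro q a ha
        change star (q • a) = q • a
        rw [star_smul_rat, show star a = a from ha] }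
  let φ : S →ₗ[ℚ] S :=
    { toFun := fun s => ⟨z₁ * s + s * star z₁, by
        change star (z₁ * (s : D) + s * star z₁) = _
        rw [star_add, star_mul, star_mul, star_star, show star (s : D) = s from s.2, add_comm]⟩
      map_add' := by
        intro a b
        apply Subtype.ext
        change z₁ * ((a : D) + b) + ((a : D) + b) * star z₁ = _
        rw [mul_add, add_mul]
        change _ = z₁ * (a : D) + a * star z₁ + (z₁ * b + b * star z₁)
        abel
      map_smul' := by
        intro q a
        apply Subtype.ext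
        change z₁ * (q • (a : D)) + (q • (a : D)) * star z₁ = q • (z₁ * (a : D) + a * star z₁)
        rw [mul_smul_comm, smul_mul_assoc, smul_add] }
  have hinj : Function.Injective φ := by
    rw [← LinearMap.ker_eq_bot, LinearMap.ker_eq_bot']
    intro s hs
    by_contra hne
    have hs0 : (s : D) ≠ 0 := fun h => hne (Subtype.ext h)
    have h1 : z₁ * (s : D) + s * star z₁ = 0 := congrArg Subtype.val hs
    refine not_conj_add_one hn f (z := z₁) (u := (s : D) * w⁻¹)
      (mul_ne_zero hs0 (inv_ne_zero hw0)) ?_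
    have h2 : z₁ = -((s : D) * star z₁ * (s : D)⁻¹) := by
      rw [← neg_mul, eq_mul_inv_iff_mul_eq₀ hs0]
      exact eq_neg_of_add_eq_zero_left h1
    have h3 : (s : D) * w⁻¹ * z₁ * ((s : D) * w⁻¹)⁻¹ = (s : D) * (w⁻¹ * z) * (s : D)⁻¹ := by
      rw [hz₁, _root_.mul_inv_rev, inv_inv]
      calc (s : D) * w⁻¹ * (z * w⁻¹) * (w * (s : D)⁻¹) =
          (s : D) * (w⁻¹ * z) * (w⁻¹ * w) * (s : D)⁻¹ := by simp only [mul_assoc]
        _ = _ := by rw [inv_mul_cancel₀ hw0, mul_one]
    rw [h3]
    nth_rewrite 1 [h2]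
    rw [hz₁s, mul_sub, sub_mul, mul_one, mul_inv_cancel₀ hs0]
    abel
  have hsurj : Function.Surjective φ := LinearMap.injective_iff_surjective.mp hinj
  obtain ⟨s, hs⟩ := hsurj ⟨c, hc⟩
  have h1 : z₁ * (s : D) + s * star z₁ = c := congrArg Subtype.val hs
  refine ⟨w⁻¹, s, by rw [star_inv₀, hws], s.2, inv_ne_zero hw0, ?_⟩
  rw [← hz₁, star_mul, show star (s : D) = s from s.2]
  exact h1

/-- The determinant of `z * s₁ * s₂` modulo commutators. -/
theorem det_comm_prod (f : D →ₐ[K] Matrix (Fin n) (Fin n) Ω) {z s₁ s₂ : D} (h₁ : star s₁ = s₁)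
    (h₂ : star s₂ = s₂) (h10 : s₁ ≠ 0) (h20 : s₂ ≠ 0) :
    (f (-(star (z * s₁ * s₂) * (z * s₁ * s₂)⁻¹))).det = (f (-(star z * z⁻¹))).det := by
  have hd : ∀ x : D, x ≠ 0 → (f x).det * (f x⁻¹).det = 1 := by
    intro x hx
    rw [← Matrix.det_mul, ← map_mul, mul_inv_cancel₀ hx, map_one, Matrix.det_one]
  rw [star_mul, star_mul, h₁, h₂, _root_.mul_inv_rev, _root_.mul_inv_rev]
  rw [map_neg, map_neg, Matrix.det_neg, Matrix.det_neg]
  simp only [map_mul, Matrix.det_mul]
  linear_combination ((-1 : Ω) ^ Fintype.card (Fin n) * (f (star z)).det * (f z⁻¹).det) *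
    ((f s₁).det * (f s₁⁻¹).det * hd s₂ h20 + hd s₁ h10)

end

end Vale.Agent.P011.F3
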