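import Vale.Agent.P011.F3.Step
import Vale.Agent.P011.F3.Rel

/-!
The commuting step for the set of real parts of an invariant equivalence relation.
-/

open Module Matrix Polynomial NumberField IsDedekindDomain
open Vale.Agent.P011.RP (RData HasR1 HasR2 Complete)

namespace Vale.Agent.P011.F3

open Vale.Agent.P011.Arith Vale.Agent.P011.Even Vale.Agent.P011.Two Vale.Agent.P011.Two2
open Vale.Agent.P011S (AForm)

variable {k K D : Type} [Field k] [NumberField k] [Field K] [NumberField K] [StarRing K]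
    [DivisionRing D] [StarRing D] [Algebra k K] [Algebra k D] [Algebra K D] [IsScalarTower k K D]
    {d : kˣ} {s : K} {n : ℕ}

/-- The commuting step. -/
theorem cs_P (hS : Setting k K D d s) (hn : 2 ≤ n) (hdeg : finrank K D = n ^ 2)
    {Ω : Type} [Field Ω] [Algebra K Ω] (f : D →ₐ[K] Matrix (Fin n) (Fin n) Ω)
    {ι : Type} [Fintype ι] {R : ι → RData K D n} (hc : Complete R)
    {M : Type} [AddCommGroup M] [Module D M] {H : AForm D M} {Rel : M → M → Prop}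
    (hRel : H.InvRel Rel)
    {x : D} (hx : star x = x) (hli : LinearIndependent k (fun i : Fin n => x ^ (i : ℕ)))
    {p₀ p₁ q : k[X]} {e₁ e₂ e₃ : M} (h11 : H.h e₁ e₁ = 1) (h22 : H.h e₂ e₂ = aeval x p₀)
    (h12 : H.h e₁ e₂ = 0) (h31 : H.h e₃ e₁ = 0) (h32 : H.h e₃ e₂ = 0) (h30 : e₃ ≠ 0)
    (h0 : aeval x p₀ ≠ 0) (h1 : 1 + aeval x p₀ ≠ 0)
    (hq0 : aeval x q ≠ 0) (hT0 : aeval x (TT p₀ p₁) ≠ 0)
    {ν₀ νc a : kˣ} (hν₀ : (f (aeval x p₀)).det = algebraMap K Ω (algebraMap k K ν₀))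
    (hνc : (f (H.h e₃ e₃)).det = algebraMap K Ω (algebraMap k K νc))
    (ha : ν₀ * νc * ((-1) ^ n * a) ∈ NF d)
    {V : Set (HeightOneSpectrum (𝓞 k))} (hV : Ctrl d a V)
    (hfin : ∀ v ∈ V, ∀ (E : Type) [Field E] [NumberField E] [Algebra k E] (θ : E),
      finrank k E = n → (minpoly k θ).natDegree = n → aeval x (minpoly k θ) = 0 →
      TotSplit E v ∧ ∃ w : HeightOneSpectrum (𝓞 E), Ab w v ∧
        ∀ u : Eˣ, (u : E) = aeval θ (TT p₀ p₁) → u ∉ LS (w.valuation E))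
    (hreal : ∀ φ : k →+* ℝ, φ d < 0 → ∃ ρ : Fin n → ℝ, Function.Injective ρ ∧
      (minpoly k x).map φ = ∏ i, (X - C (ρ i)) ∧
      ∀ i, 0 < ((q * p₀).map φ).eval (ρ i) → ((TT p₀ p₁).map φ).eval (ρ i) < 0)
    (hcong : ∀ i, (R i).CongAt (H.h e₃ e₃) (aeval x q)) (hP : InP H Rel (aeval x p₀)) :
    InP H Rel (aeval x p₁) := by
  obtain ⟨μ, t, -, hμ, hval⟩ := cs_step hS hn hdeg f hc hx hli (H.star_h e₃ e₃)
    (H.self_ne_zero h30) (p₁ := p₁) h0 hq0 hT0 hν₀ hνc ha hV hfin hreal hcong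
  rw [hval]
  exact rel_step hRel hP h11 h22 h12 h31 h32 h0 h1 hμ t

end Vale.Agent.P011.F3
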