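import Vale.Agent.P011.Two2.RealPre

/-!
Local prescriptions at a real place: symmetric elements with given real eigenvalues.
-/

open Module Matrix Polynomial NumberField IsDedekindDomain Filter Topology
open scoped ComplexOrder

set_option linter.unusedSectionVars false

namespace Vale.Agent.P011.F3

open Vale.Agent.P011.RP Vale.Agent.P011.Even Vale.Agent.P011.Two2

/-- Stability of real roots, with localisation. -/
theorem real_roots_in {n : ℕ} {r : Fin n → ℝ} (hr : Function.Injective r) {W : Set ℝ}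
    (hW : IsOpen W) (hrW : ∀ i, r i ∈ W) :
    ∃ ε : ℝ, 0 < ε ∧ ∀ m : ℝ[X], m.Monic → m.natDegree = n →
      (∀ i, |m.coeff i - (∏ i, (X - C (r i))).coeff i| < ε) →
      ∃ ρ : Fin n → ℝ, Function.Injective ρ ∧ m = ∏ i, (X - C (ρ i)) ∧ ∀ i, ρ i ∈ W := by
  classical
  set P : ℝ[X] := ∏ i, (X - C (r i)) with hP
  let Q : Fin n → ℝ[X] := fun i => ∏ j ∈ Finset.univ.erase i, (X - C (r j))
  have hPQ : ∀ i x, P.eval x = (x - r i) * (Q i).eval x := by
    intro i x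
    rw [hP, ← Finset.mul_prod_erase Finset.univ _ (Finset.mem_univ i), eval_mul, eval_sub, eval_X,
      eval_C]
  have hQ : ∀ i, (Q i).eval (r i) ≠ 0 := by
    intro i
    rw [eval_prod, Finset.prod_ne_zero_iff]
    intro j hj
    rw [eval_sub, eval_X, eval_C]
    exact sub_ne_zero.mpr fun h => (Finset.ne_of_mem_erase hj) (hr h).symm
  obtain ⟨η, ⟨⟨hη1, hη2⟩, hη3⟩, hη0⟩ : ∃ η : ℝ,
      (((∀ i, 0 < (Q i).eval (r i + η) * (Q i).eval (r i - η)) ∧
      (∀ p : Fin n × Fin n, p.1 ≠ p.2 → η < |r p.1 - r p.2| / 2)) ∧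
      ∀ i, Metric.closedBall (r i) η ⊆ W) ∧ 0 < η := by
    have e1 : ∀ᶠ η in 𝓝[>] (0 : ℝ), ∀ i, 0 < (Q i).eval (r i + η) * (Q i).eval (r i - η) := by
      rw [eventually_all]
      intro i
      have hc : ContinuousAt (fun η : ℝ => (Q i).eval (r i + η) * (Q i).eval (r i - η)) 0 := by
        apply Continuous.continuousAt
        exact ((Q i).continuous.comp (by fun_prop)).mul ((Q i).continuous.comp (by fun_prop))
      have h1 : 0 < (Q i).eval (r i + 0) * (Q i).eval (r i - 0) := by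
        rw [add_zero, sub_zero]
        exact mul_self_pos.mpr (hQ i)
      exact (hc.eventually_const_lt h1).filter_mono nhdsWithin_le_nhds
    have e2 : ∀ᶠ η in 𝓝[>] (0 : ℝ), ∀ p : Fin n × Fin n, p.1 ≠ p.2 →
        η < |r p.1 - r p.2| / 2 := by
      rw [eventually_all]
      intro p
      by_cases hp : p.1 = p.2
      · exact Eventually.of_forall fun η h => absurd hp h
      · have h1 : 0 < |r p.1 - r p.2| / 2 := by
          have : 0 < |r p.1 - r p.2| := abs_pos.mpr (sub_ne_zero.mpr fun h => hp (hr h))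
          linarith
        have h2 : ∀ᶠ η in 𝓝 (0 : ℝ), η < |r p.1 - r p.2| / 2 := eventually_lt_nhds h1
        exact (h2.filter_mono nhdsWithin_le_nhds).mono fun η h _ => h
    have e3 : ∀ᶠ η in 𝓝[>] (0 : ℝ), ∀ i, Metric.closedBall (r i) η ⊆ W := by
      rw [eventually_all]
      intro i
      obtain ⟨ε, hε, hb⟩ := Metric.isOpen_iff.mp hW (r i) (hrW i)
      have h2 : ∀ᶠ η in 𝓝 (0 : ℝ), η < ε := eventually_lt_nhds hε
      exact (h2.filter_mono nhdsWithin_le_nhds).mono fun η h =>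
        (Metric.closedBall_subset_ball h).trans hb
    exact (((e1.and e2).and e3).and self_mem_nhdsWithin).exists
  have hneg : ∀ i, P.eval (r i + η) * P.eval (r i - η) < 0 := by
    intro i
    rw [hPQ i, hPQ i]
    have h1 := hη1 i
    have h2 : (r i + η - r i) * eval (r i + η) (Q i) * ((r i - η - r i) * eval (r i - η) (Q i)) =
        -(η ^ 2 * (eval (r i + η) (Q i) * eval (r i - η) (Q i))) := by ring
    rw [h2, neg_lt_zero]
    positivity
  let Cc : ℝ → ℝ := fun x => ∑ j ∈ Finset.range (n + 1), |x| ^ j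
  obtain ⟨ε, ⟨hε1, hε2⟩, hε0⟩ : ∃ ε : ℝ, ((∀ i, ε * Cc (r i + η) < |P.eval (r i + η)|) ∧
      (∀ i, ε * Cc (r i - η) < |P.eval (r i - η)|)) ∧ 0 < ε := by
    have e : ∀ x : ℝ, P.eval x ≠ 0 → ∀ᶠ ε in 𝓝[>] (0 : ℝ), ε * Cc x < |P.eval x| := by
      intro x hx
      have hc : ContinuousAt (fun ε : ℝ => ε * Cc x) 0 := by fun_prop
      have h1 : (0 : ℝ) * Cc x < |P.eval x| := by
        rw [zero_mul]; exact abs_pos.mpr hx
      exact (hc.eventually_lt_const h1).filter_mono nhdsWithin_le_nhds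
    have e1 : ∀ᶠ ε in 𝓝[>] (0 : ℝ), ∀ i, ε * Cc (r i + η) < |P.eval (r i + η)| :=
      eventually_all.mpr fun i => e _ fun h => by
        have := hneg i
        rw [h, zero_mul] at this
        exact lt_irrefl _ this
    have e2 : ∀ᶠ ε in 𝓝[>] (0 : ℝ), ∀ i, ε * Cc (r i - η) < |P.eval (r i - η)| :=
      eventually_all.mpr fun i => e _ fun h => by
        have := hneg i
        rw [h, mul_zero] at this
        exact lt_irrefl _ this
    exact ((e1.and e2).and self_mem_nhdsWithin).exists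
  refine ⟨ε, hε0, fun m hm hmn hcl => ?_⟩
  have hPn : P.natDegree = n := natDegree_prod_X_sub_C' r
  have hroot : ∀ i, ∃ ρ : ℝ, |ρ - r i| ≤ η ∧ m.eval ρ = 0 := by
    intro i
    have h1 := mul_pos_of_abs_sub_lt
      (lt_of_le_of_lt (eval_sub_le hmn hPn hcl (r i + η)) (hε1 i))
    have h2 := mul_pos_of_abs_sub_lt
      (lt_of_le_of_lt (eval_sub_le hmn hPn hcl (r i - η)) (hε2 i))
    have h3 := hneg i
    have h4 : m.eval (r i + η) * m.eval (r i - η) < 0 := by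
      by_contra hcon
      push Not at hcon
      nlinarith [mul_pos h1 h2, mul_nonneg hcon (neg_pos.mpr h3).le]
    have hle : r i - η ≤ r i + η := by linarith
    rcases mul_neg_iff.mp h4 with ⟨h5, h6⟩ | ⟨h5, h6⟩
    · obtain ⟨x, hx, hx0⟩ := intermediate_value_Icc hle (m.continuous.continuousOn)
        (show (0 : ℝ) ∈ Set.Icc (m.eval (r i - η)) (m.eval (r i + η)) from ⟨h6.le, h5.le⟩)
      exact ⟨x, abs_le.mpr ⟨by linarith [hx.1], by linarith [hx.2]⟩, hx0⟩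
    · obtain ⟨x, hx, hx0⟩ := intermediate_value_Icc' hle (m.continuous.continuousOn)
        (show (0 : ℝ) ∈ Set.Icc (m.eval (r i + η)) (m.eval (r i - η)) from ⟨h5.le, h6.le⟩)
      exact ⟨x, abs_le.mpr ⟨by linarith [hx.1], by linarith [hx.2]⟩, hx0⟩
  choose ρ hρ1 hρ2 using hroot
  have hρi : Function.Injective ρ := by
    intro i j hij
    by_contra hne
    have h1 := hη2 (i, j) hne
    have h2 := abs_sub_le (r i) (ρ i) (r j)
    have h3 := hρ1 i
    have h4 := hρ1 j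
    rw [abs_sub_comm] at h3
    rw [hij] at h2 h3
    simp only at h1
    linarith
  refine ⟨ρ, hρi, ?_, fun i => hη3 i (by rw [Metric.mem_closedBall, Real.dist_eq]; exact hρ1 i)⟩
  exact eq_of_monic_of_dvd_of_natDegree_le (monic_prod_of_monic _ _ fun i _ => monic_X_sub_C _) hm
    (prod_dvd_of_roots hρi hρ2) (by rw [hmn, natDegree_prod_X_sub_C'])

/-- different nonzero numbers -/
theorem exists_sizes {n : ℕ} (β : Fin n → ℝ) (η : Fin n → ℤˣ) :
    ∃ μ : Fin n → ℝ, (∀ i, 0 < μ i) ∧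
      Function.Injective (fun i => μ i * (((η i : ℤˣ) : ℤ) : ℝ) - β i) ∧
      ∀ i, μ i * (((η i : ℤˣ) : ℤ) : ℝ) - β i ≠ 0 := by
  classical
  obtain ⟨M, hM0, hM⟩ : ∃ M : ℝ, 0 < M ∧ ∀ i, |β i| < M := by
    refine ⟨1 + ∑ i, |β i|, by positivity, fun i => ?_⟩
    have h1 := Finset.single_le_sum (f := fun i => |β i|) (fun j _ => abs_nonneg (β j))
      (Finset.mem_univ i)
    linarith
  have hη : ∀ i, |(((η i : ℤˣ) : ℤ) : ℝ)| = 1 := by
    intro i
    rcases Int.units_eq_one_or (η i) with h | h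
    · rw [h]; simp
    · rw [h]; simp
  have hlow : ∀ i : Fin n, ((i : ℕ) + 1 : ℝ) * (2 * M) - M <
      |((i : ℕ) + 1 : ℝ) * (2 * M) * (((η i : ℤˣ) : ℤ) : ℝ) - β i| := by
    intro i
    have h1 := abs_sub_abs_le_abs_sub (((i : ℕ) + 1 : ℝ) * (2 * M) * (((η i : ℤˣ) : ℤ) : ℝ)) (β i)
    rw [abs_mul, hη, mul_one, abs_of_pos (by positivity)] at h1
    linarith [hM i]
  have hup : ∀ i : Fin n, |((i : ℕ) + 1 : ℝ) * (2 * M) * (((η i : ℤˣ) : ℤ) : ℝ) - β i| <
      ((i : ℕ) + 1 : ℝ) * (2 * M) + M := by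
    intro i
    have h1 := abs_add_le (((i : ℕ) + 1 : ℝ) * (2 * M) * (((η i : ℤˣ) : ℤ) : ℝ)) (-β i)
    rw [abs_neg, ← sub_eq_add_neg, abs_mul, hη, mul_one,
      abs_of_pos (show 0 < ((i : ℕ) + 1 : ℝ) * (2 * M) by positivity)] at h1
    linarith [hM i]
  have hlt : ∀ i j : Fin n, i < j →
      |((i : ℕ) + 1 : ℝ) * (2 * M) * (((η i : ℤˣ) : ℤ) : ℝ) - β i| <
      |((j : ℕ) + 1 : ℝ) * (2 * M) * (((η j : ℤˣ) : ℤ) : ℝ) - β j| := by
    intro i j hij
    refine (hup i).trans (lt_of_le_of_lt ?_ (hlow j))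
    have h1 : ((i : ℕ) : ℝ) + 1 ≤ ((j : ℕ) : ℝ) := by exact_mod_cast hij
    nlinarith
  refine ⟨fun i => ((i : ℕ) + 1 : ℝ) * (2 * M), fun i => by positivity, fun i j hij => ?_,
    fun i h => ?_⟩
  · rcases lt_trichotomy i j with h | h | h
    · have := hlt i j h
      simp only at hij
      rw [hij] at this
      exact absurd this (lt_irrefl _)
    · exact h
    · have := hlt j i h
      simp only at hij
      rw [hij] at this
      exact absurd this (lt_irrefl _)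
  · have h1 := hlow i
    simp only at h
    rw [h, abs_zero] at h1
    have h2 : (0 : ℝ) ≤ ((i : ℕ) : ℝ) := Nat.cast_nonneg _
    nlinarith

section field

variable {k K D : Type} [Field k] [NumberField k] [Field K] [StarRing K]
    [DivisionRing D] [StarRing D] [Algebra k K] [Algebra k D] [Algebra K D] [IsScalarTower k K D]
    {d : kˣ} {s : K} {n : ℕ} {N : ℕ}

open Vale.Agent.P011.Arith

/-- Approximation of a hermitian matrix with different real eigenvalues relative to `A`. -/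
theorem real_core (hS : Setting k K D d s) (hn : 0 < n) (hdeg : finrank K D = n ^ 2)
    (B : Basis (Fin N) k D) {φ : k →+* ℝ} (hφ : φ d < 0) (R : RData K D n)
    (hR : ∀ x, R.s (algebraMap k K x) = ((φ x : ℝ) : ℂ)) {V : Matrix (Fin n) (Fin n) ℂ}
    (hV : IsUnit V) (hAV : R.A = V * Vᴴ) {σ : Fin n → ℝ} (hσ : Function.Injective σ)
    {U : Set ℝ} (hU : IsOpen U) (hσU : ∀ i, σ i ∈ U) {η : ℝ} (hη : 0 < η) :
    ∃ (R0 : D) (δ : ℝ), 0 < δ ∧ star R0 = R0 ∧ ∀ r : D, star r = r →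
      (∀ j, plAbv (Sum.inr φ) (B.repr (r - R0) j) < δ) →
      (∀ i j, ‖(R.f r * R.A) i j - (V * rdiag σ * Vᴴ) i j‖ < η) ∧
      LinearIndependent k (fun i : Fin n => r ^ (i : ℕ)) ∧
      ∀ p : k[X], p.Monic → p.natDegree = n → aeval r p = 0 →
        ∃ ρ : Fin n → ℝ, Function.Injective ρ ∧ p.map φ = ∏ i, (Polynomial.X - C (ρ i)) ∧
          ∀ i, ρ i ∈ U := by
  classical
  have := hS.fin
  have := hS.cen
  have : StarModule K D := ⟨hS.star_smul⟩
  obtain ⟨ε, hε, hroots⟩ := real_roots_in hσ hU hσU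
  -- the local target
  obtain ⟨Rm, hRm⟩ : ∃ Rm : Matrix (Fin n) (Fin n) ℂ, Rm = V * rdiag σ * Vᴴ := ⟨_, rfl⟩
  rw [← hRm]
  have hRmh : Rmᴴ = Rm := by
    rw [hRm, conjTranspose_mul, conjTranspose_mul, conjTranspose_conjTranspose, rdiag_herm,
      mul_assoc]
  obtain ⟨A', hA'⟩ := R.unit
  obtain ⟨Ai, hAi⟩ : ∃ Ai : Matrix (Fin n) (Fin n) ℂ,
    Ai = ((A'⁻¹ : (Matrix (Fin n) (Fin n) ℂ)ˣ) : _) := ⟨_, rfl⟩
  have hA1 : R.A * Ai = 1 := by rw [hAi, ← hA']; exact A'.mul_inv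
  have hA2 : Ai * R.A = 1 := by rw [hAi, ← hA']; exact A'.inv_mul
  -- coordinates
  let Λ := LinearEquiv.ofBijective (Lam B R) (Lam_bij hS B hn hdeg hφ R hR)
  have hΛrc : ∀ x, Λ (rc B φ x) = R.f x := Lam_rc B R hR
  have hΛc : Continuous Λ := LinearMap.continuous_of_finiteDimensional Λ.toLinearMap
  have hΛsc : Continuous Λ.symm := LinearMap.continuous_of_finiteDimensional Λ.symm.toLinearMap
  let c0 : Fin N → ℝ := Λ.symm (Rm * Ai)
  have hc0 : Λ c0 = Rm * Ai := LinearEquiv.apply_symm_apply Λ _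
  have hc0A : Λ c0 * R.A = Rm := by rw [hc0, mul_assoc, hA2, mul_one]
  -- the first condition
  have e1 : ∀ᶠ c in 𝓝 c0, ∀ i j, ‖(Λ c * R.A) i j - Rm i j‖ < η := by
    rw [eventually_all]
    intro i
    rw [eventually_all]
    intro j
    have h5 : Continuous fun c => (Λ c * R.A) i j :=
      (hΛc.matrix_mul continuous_const).matrix_elem i j
    have h6 := h5.continuousAt (x := c0) |>.eventually (Metric.ball_mem_nhds _ hη)
    filter_upwards [h6] with c hc'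
    change dist _ _ < _ at hc'
    rw [dist_eq_norm, hc0A] at hc'
    exact hc'
  -- the second condition
  have e2 : ∀ᶠ c in 𝓝 c0, LinearIndependent ℝ (fun i : Fin n => (Λ c) ^ (i : ℕ)) ∧
      ∀ m : ℝ[X], m.Monic → m.natDegree = n → aeval (Λ c) m = 0 →
        ∀ i, ‖m.coeff i - (∏ i, (X - C (σ i))).coeff i‖ < ε := by
    obtain ⟨V', hV'⟩ := hV
    obtain ⟨W, hW⟩ : ∃ W : Matrix (Fin n) (Fin n) ℂ,
      W = ((V'⁻¹ : (Matrix (Fin n) (Fin n) ℂ)ˣ) : _) := ⟨_, rfl⟩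
    have hWV : W * V = 1 := by rw [hW, ← hV']; exact V'.inv_mul
    have hconj : Λ c0 * V = V * rdiag σ := by
      have h1 : Ai * V = Wᴴ := by
        have h2 : Vᴴ * Wᴴ = 1 := by rw [← conjTranspose_mul, hWV, conjTranspose_one]
        calc Ai * V = Ai * V * (Vᴴ * Wᴴ) := by rw [h2, mul_one]
          _ = Ai * (V * Vᴴ) * Wᴴ := by simp only [mul_assoc]
          _ = _ := by rw [← hAV, hA2, one_mul]
      have h2 : Vᴴ * Wᴴ = 1 := by rw [← conjTranspose_mul, hWV, conjTranspose_one]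
      rw [hc0, mul_assoc, h1, hRm, mul_assoc, h2, mul_one]
    obtain ⟨h5, h6⟩ := li_of_conj (hV' ▸ V'.isUnit) hσ hconj
    have hcts : CtsAt (Module.finBasis ℝ (Matrix (Fin n) (Fin n) ℂ)) (fun c => Λ c) c0 := by
      intro j
      exact ((LinearMap.continuous_of_finiteDimensional
        ((Module.finBasis ℝ (Matrix (Fin n) (Fin n) ℂ)).coord j)).comp hΛc).continuousAt
    exact near_minpoly hcts h5 (monic_prod_of_monic _ _ fun i _ => monic_X_sub_C _)
      (natDegree_prod_X_sub_C' _) h6 hε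
  have e3 := eventually_eventually_nhds.mpr (e1.and e2)
  -- symmetrisation
  let S : (Fin N → ℝ) → (Fin N → ℝ) := fun c =>
    (2 : ℝ)⁻¹ • (c + Λ.symm (R.A * (Λ c)ᴴ * Ai))
  have hSc : Continuous S := by
    have h5 : Continuous fun c => R.A * (Λ c)ᴴ * Ai :=
      (continuous_const.matrix_mul hΛc.matrix_conjTranspose).matrix_mul continuous_const
    exact (continuous_id.add (hΛsc.comp h5)).const_smul (2 : ℝ)⁻¹
  have hS0 : S c0 = c0 := by
    have h5 : R.A * (Λ c0)ᴴ * Ai = Λ c0 := by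
      have h6 : R.A * (Λ c0)ᴴ = Rm := by
        have h7 := congrArg conjTranspose hc0A
        rw [conjTranspose_mul, R.hA, hRmh] at h7
        exact h7
      rw [h6, hc0]
    change (2 : ℝ)⁻¹ • (c0 + Λ.symm (R.A * (Λ c0)ᴴ * Ai)) = c0
    rw [h5, LinearEquiv.symm_apply_apply, ← two_smul ℝ c0, smul_smul]
    norm_num
  have e4 : ∀ᶠ c in 𝓝 c0, ∀ᶠ y in 𝓝 (S c),
      (∀ i j, ‖(Λ y * R.A) i j - Rm i j‖ < η) ∧
        LinearIndependent ℝ (fun i : Fin n => (Λ y) ^ (i : ℕ)) ∧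
      ∀ m : ℝ[X], m.Monic → m.natDegree = n → aeval (Λ y) m = 0 →
        ∀ i, ‖m.coeff i - (∏ i, (X - C (σ i))).coeff i‖ < ε := by
    have h5 := hSc.continuousAt (x := c0)
    rw [ContinuousAt, hS0] at h5
    exact h5.eventually e3
  -- a rational point
  have hdense : DenseRange (Pi.map (fun (_ : Fin N) (q : ℚ) => (q : ℝ))) :=
    DenseRange.piMap fun _ => Rat.denseRange_cast
  obtain ⟨q, hq⟩ : ∃ q : Fin N → ℚ, ∀ᶠ y in 𝓝 (S (Pi.map (fun (_ : Fin N) (q : ℚ) => (q : ℝ)) q)),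
      (∀ i j, ‖(Λ y * R.A) i j - Rm i j‖ < η) ∧
        LinearIndependent ℝ (fun i : Fin n => (Λ y) ^ (i : ℕ)) ∧
      ∀ m : ℝ[X], m.Monic → m.natDegree = n → aeval (Λ y) m = 0 →
        ∀ i, ‖m.coeff i - (∏ i, (X - C (σ i))).coeff i‖ < ε := by
    obtain ⟨U, hU1, hU2, hU3⟩ := eventually_nhds_iff.mp e4
    obtain ⟨q, hq⟩ := hdense.exists_mem_open hU2 ⟨c0, hU3⟩
    exact ⟨q, hU1 _ hq⟩
  let x : D := ∑ i, (q i : k) • B i
  have hx : rc B φ x = Pi.map (fun (_ : Fin N) (q : ℚ) => (q : ℝ)) q := by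
    funext i
    change φ (B.repr (∑ i, (q i : k) • B i) i) = _
    rw [B.repr_sum_self]
    simp
  let R0 : D := (2⁻¹ : k) • (x + star x)
  have hR0s : star R0 = R0 := by
    change hS.sig ((2⁻¹ : k) • (x + star x)) = (2⁻¹ : k) • (x + star x)
    rw [map_smul]
    congr 1
    change star (x + star x) = x + star x
    rw [star_add, star_star, add_comm]
  have hR0 : rc B φ R0 = S (rc B φ x) := by
    apply Λ.injective
    rw [hΛrc]
    change R.f ((2⁻¹ : k) • (x + star x)) =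
      Λ ((2 : ℝ)⁻¹ • (rc B φ x + Λ.symm (R.A * (Λ (rc B φ x))ᴴ * Ai)))
    rw [f_smul R hR, map_inv₀, map_ofNat, map_add, LinearEquiv.map_smul, LinearEquiv.map_add,
      LinearEquiv.apply_symm_apply, hΛrc]
    congr 2
    rw [← R.star_f, mul_assoc, hA1, mul_one]
  rw [← hx, ← hR0] at hq
  obtain ⟨δ, hδ, hball⟩ := Metric.eventually_nhds_iff.mp hq
  refine ⟨R0, δ, hδ, hR0s, fun r hr hnear => ?_⟩
  obtain ⟨g1, g2, g3⟩ := hball (y := rc B φ r) (by
    rw [dist_pi_lt_iff hδ]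
    intro j
    have h5 := hnear j
    rw [plAbv_inr, map_sub, Finsupp.sub_apply, map_sub] at h5
    rw [Real.dist_eq]
    exact h5)
  rw [hΛrc] at g1 g2 g3
  refine ⟨g1, li_k R hR g2, fun p hp hpn hp0 => ?_⟩
  have h5 := g3 (p.map φ) (hp.map φ) (by rw [natDegree_map, hpn]) (by
    rw [← f_aeval R hR, hp0, map_zero])
  exact hroots (p.map φ) (hp.map φ) (by rw [natDegree_map, hpn]) h5

/-- **Real targets with a prescribed class of `b + r`.** -/
theorem real_tgt (hS : Setting k K D d s) (hn : 0 < n) (hdeg : finrank K D = n ^ 2)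
    (B : Basis (Fin N) k D) {φ : k →+* ℝ} (hφ : φ d < 0) (R : RData K D n)
    (hR : ∀ x, R.s (algebraMap k K x) = ((φ x : ℝ) : ℂ)) (hA : R.A.PosDef) {b c : D}
    (hb : star b = b) (hc : star c = c) (hc0 : c ≠ 0) :
    ∃ σ : Fin n → ℝ, Function.Injective σ ∧ (∀ i, σ i ≠ 0) ∧
      ∀ U : Set ℝ, IsOpen U → (∀ i, σ i ∈ U) → ∃ (R0 : D) (δ : ℝ), 0 < δ ∧ star R0 = R0 ∧
        ∀ r : D, star r = r → (∀ j, plAbv (Sum.inr φ) (B.repr (r - R0) j) < δ) →
          r ≠ 0 ∧ b + r ≠ 0 ∧ R.CongAt c (b + r) ∧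
          LinearIndependent k (fun i : Fin n => r ^ (i : ℕ)) ∧
          ∀ p : k[X], p.Monic → p.natDegree = n → aeval r p = 0 →
            ∃ ρ : Fin n → ℝ, Function.Injective ρ ∧ p.map φ = ∏ i, (Polynomial.X - C (ρ i)) ∧
              ∀ i, ρ i ∈ U := by
  classical
  have hAdet : IsUnit R.A.det := (Matrix.isUnit_iff_isUnit_det _).mp hA.isUnit
  have hAi : R.A⁻¹ * R.A = 1 := Matrix.nonsing_inv_mul _ hAdet
  obtain ⟨V, β, hV, hAV, hβ⟩ := spectral_pair (M := R.f b) hA (f_herm R hb)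
  have hBV : R.f b * R.A = V * rdiag β * Vᴴ := by
    calc R.f b * R.A = R.f b * (V * Vᴴ) := by rw [← hAV]
      _ = (R.f b * V) * Vᴴ := by simp only [mul_assoc]
      _ = _ := by rw [hβ, rdiag]
  have hCu : IsUnit (R.f c * R.A) := (f_unit R hc0).mul R.unit
  obtain ⟨S0, η, hS0, hη⟩ := exists_sign_diag (f_herm R hc) hCu
  obtain ⟨μ, hμ0, hμ1, hμ2⟩ := exists_sizes β η
  have hη2 : ∀ i, (((η i : ℤˣ) : ℤ) : ℝ) * (((η i : ℤˣ) : ℤ) : ℝ) = 1 := by
    intro i
    rcases Int.units_eq_one_or (η i) with h | h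
    · rw [h]; simp
    · rw [h]; simp
  obtain ⟨T, hT, hTC⟩ := resize (ρ := fun i => μ i * (((η i : ℤˣ) : ℤ) : ℝ)) hS0 hη hV
    (fun i => by rw [mul_assoc, hη2, mul_one]; exact hμ0 i)
  refine ⟨fun i => μ i * (((η i : ℤˣ) : ℤ) : ℝ) - β i, hμ1, hμ2, fun U hU hσU => ?_⟩
  -- the sum
  have hsum : R.f b * R.A + V * rdiag (fun i => μ i * (((η i : ℤˣ) : ℤ) : ℝ) - β i) * Vᴴ =
      T * (R.f c * R.A) * Tᴴ := by
    rw [hTC, hBV, ← add_mul, ← mul_add, rdiag_add]
    congr 3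
    funext i
    ring
  have hsumh : (T * (R.f c * R.A) * Tᴴ)ᴴ = T * (R.f c * R.A) * Tᴴ := by
    rw [conjTranspose_mul, conjTranspose_mul, conjTranspose_conjTranspose, f_herm R hc]
    simp only [mul_assoc]
  have hsumu : IsUnit (T * (R.f c * R.A) * Tᴴ) := (hT.mul hCu).mul (isUnit_conj hT)
  obtain ⟨η1, hη1, hn1⟩ := herm_near (G := T * (R.f c * R.A) * Tᴴ) hsumh hsumu
  obtain ⟨R0, δ, hδ, hR0, hcore⟩ := real_core hS hn hdeg B hφ R hR hV hAV hμ1
    (hU.inter isOpen_compl_singleton) (U := U ∩ {0}ᶜ) (fun i => ⟨hσU i, hμ2 i⟩) hη1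
  refine ⟨R0, δ, hδ, hR0, fun r hr hnear => ?_⟩
  obtain ⟨g1, g2, g3⟩ := hcore r hr hnear
  have k1 : R.CongAt c (b + r) := by
    obtain ⟨Q, hQ, hQ'⟩ := hn1 (R.f r * R.A -
        V * rdiag (fun i => μ i * (((η i : ℤˣ) : ℤ) : ℝ) - β i) * Vᴴ) (by
      change (R.f r * R.A - V * rdiag (fun i => μ i * (((η i : ℤˣ) : ℤ) : ℝ) - β i) * Vᴴ)ᴴ = _
      rw [conjTranspose_sub, f_herm R hr, conjTranspose_mul, conjTranspose_mul,
        conjTranspose_conjTranspose, rdiag_herm, mul_assoc]) (fun i j => by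
        rw [Matrix.sub_apply]
        exact g1 i j)
    refine ⟨Q * T, hQ.mul hT, ?_⟩
    have h5 : R.f (b + r) * R.A = T * (R.f c * R.A) * Tᴴ + (R.f r * R.A -
        V * rdiag (fun i => μ i * (((η i : ℤˣ) : ℤ) : ℝ) - β i) * Vᴴ) := by
      rw [← hsum, map_add, add_mul]
      abel
    rw [h5, ← hQ', conjTranspose_mul]
    simp only [mul_assoc]
  have hne : b + r ≠ 0 := by
    intro h
    obtain ⟨Q, hQ, hQe⟩ := k1
    rw [h, map_zero, zero_mul] at hQe
    have h5 : IsUnit (0 : Matrix (Fin n) (Fin n) ℂ) := by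
      rw [← hQe]
      exact (hQ.mul hCu).mul (isUnit_conj hQ)
    have : Nonempty (Fin n) := ⟨⟨0, hn⟩⟩
    exact not_isUnit_zero h5
  have hr0 : r ≠ 0 := by
    rintro rfl
    obtain ⟨ρ, -, h6, h7⟩ := g3 (X ^ n) (monic_X_pow n) (natDegree_X_pow n) (by
      rw [map_pow, aeval_X, zero_pow hn.ne'])
    have h8 := congrArg (eval (ρ ⟨0, hn⟩)) h6
    rw [Polynomial.map_pow, map_X, eval_pow, eval_X, eval_prod,
      Finset.prod_eq_zero (Finset.mem_univ (⟨0, hn⟩ : Fin n)) (by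
        rw [eval_sub, eval_X, eval_C, sub_self])] at h8
    exact (h7 ⟨0, hn⟩).2 (pow_eq_zero_iff hn.ne' |>.mp h8)
  exact ⟨hr0, hne, k1, g2, fun p hp hpn hp0 => by
    obtain ⟨ρ, h6, h7, h8⟩ := g3 p hp hpn hp0
    exact ⟨ρ, h6, h7, fun i => (h8 i).1⟩⟩

/-- **Positive real targets.** -/
theorem real_tgt_pos (hS : Setting k K D d s) (hn : 0 < n) (hdeg : finrank K D = n ^ 2)
    (B : Basis (Fin N) k D) {φ : k →+* ℝ} (hφ : φ d < 0) (R : RData K D n)
    (hR : ∀ x, R.s (algebraMap k K x) = ((φ x : ℝ) : ℂ)) (hA : R.A.PosDef) :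
    ∃ σ : Fin n → ℝ, Function.Injective σ ∧ (∀ i, 0 < σ i) ∧
      ∀ U : Set ℝ, IsOpen U → (∀ i, σ i ∈ U) → ∃ (R0 : D) (δ : ℝ), 0 < δ ∧ star R0 = R0 ∧
        ∀ r : D, star r = r → (∀ j, plAbv (Sum.inr φ) (B.repr (r - R0) j) < δ) →
          LinearIndependent k (fun i : Fin n => r ^ (i : ℕ)) ∧
          ∀ p : k[X], p.Monic → p.natDegree = n → aeval r p = 0 →
            ∃ ρ : Fin n → ℝ, Function.Injective ρ ∧ p.map φ = ∏ i, (Polynomial.X - C (ρ i)) ∧
              ∀ i, ρ i ∈ U := by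
  obtain ⟨V, β, hV, hAV, hβ⟩ := spectral_pair (M := (1 : Matrix (Fin n) (Fin n) ℂ)) hA (by
    rw [one_mul]; exact R.hA)
  refine ⟨fun i => ((i : ℕ) + 1 : ℝ), fun i j hij => Fin.ext ?_, fun i => by positivity,
    fun U hU hσU => ?_⟩
  · simp only [add_left_inj] at hij
    exact_mod_cast hij
  obtain ⟨R0, δ, hδ, hR0, hcore⟩ := real_core hS hn hdeg B hφ R hR hV hAV
    (σ := fun i => ((i : ℕ) + 1 : ℝ)) (fun i j hij => Fin.ext (by
      simp only [add_left_inj] at hij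
      exact_mod_cast hij)) hU hσU one_pos
  exact ⟨R0, δ, hδ, hR0, fun r hr hnear => (hcore r hr hnear).2⟩

end field

end Vale.Agent.P011.F3
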