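import Vale.Agent.P011.F3.StepM
import Vale.Agent.P011.F3.Dense1
import Vale.Agent.P011.F3.RealT

/-!
The two phases of the propagation: from one length to a scalar length, and from a scalar length
to an open set of lengths.
-/

open Module Matrix Polynomial NumberField IsDedekindDomain
open scoped ComplexOrder

set_option linter.unusedSectionVars false

namespace Vale.Agent.P011.F3

open Vale.Agent.P011.Arith Vale.Agent.P011.Even Vale.Agent.P011S Vale.Agent.P011.Two2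
open Vale.Agent.P011.Two.Hi
open Vale.Agent.P011.RP (RData Complete Dense rowH)

variable {k K D : Type} [Field k] [NumberField k] [Field K] [NumberField K] [StarRing K]
    [DivisionRing D] [StarRing D] [Algebra k K] [Algebra k D] [Algebra K D] [IsScalarTower k K D]
    {d : kˣ} {s : K} {n N : ℕ}

theorem TT_eval (p₀ p₁ : k[X]) {F : Type} [Field F] (φ : k →+* F) (t : F) :
    ((TT p₀ p₁).map φ).eval t =
      (1 - (p₀.map φ).eval t) ^ 2 / 4 - (p₀.map φ).eval t * (p₁.map φ).eval t := by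
  rw [TT]
  simp only [Polynomial.map_sub, Polynomial.map_mul, Polynomial.map_pow, Polynomial.map_one,
    Polynomial.map_C, eval_sub, eval_mul, eval_pow, eval_one, eval_C, map_inv₀, map_ofNat]
  ring

/-- The value does not vanish, from a place. -/
theorem ne_of_fin (hS : Setting k K D d s) (hn : 0 < n) (hdeg : finrank K D = n ^ 2)
    {x : D} (hx : star x = x) (hli : LinearIndependent k (fun i : Fin n => x ^ (i : ℕ)))
    {P : k[X]} (h : ∀ (E : Type) [Field E] [NumberField E] [Algebra k E] (θ : E),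
      finrank k E = n → (minpoly k θ).natDegree = n → aeval x (minpoly k θ) = 0 →
      aeval θ P ≠ 0) : aeval x P ≠ 0 := by
  have := hS.fin
  have := hS.cen
  have hfk := hS.fin_k
  obtain ⟨f0⟩ := Vale.Agent.P011S.exists_split (K := K) (D := D) hdeg (AlgebraicClosure K)
  obtain ⟨E, _, _, _, j, g, hjg, hgen⟩ := exists_gen (Module.finBasis k D) x
  obtain ⟨hmn, hmK⟩ := minpoly_map hS hn hdeg f0 (one_ne_zero (α := D))
    (by rw [inv_one, one_mul, mul_one, hx]) hli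
  have hjinj : Function.Injective j := j.toRingHom.injective
  have hjp : ∀ p : k[X], j (aeval g p) = aeval x p := by
    intro p
    rw [← Polynomial.aeval_algHom_apply, hjg]
  have hgmin : minpoly k g = minpoly k x := by rw [← hjg, minpoly.algHom_eq j hjinj g]
  have hfinE : FiniteDimensional k E := Module.Finite.of_injective j.toLinearMap hjinj
  have hE : finrank k E = n := by
    have h1 : IntermediateField.adjoin k {g} = ⊤ := by
      rw [eq_top_iff]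
      intro l _
      obtain ⟨p, rfl⟩ := hgen l
      exact IntermediateField.algebra_adjoin_le_adjoin k {g} (by
        rw [Algebra.adjoin_singleton_eq_range_aeval]
        exact ⟨p, rfl⟩)
    have h2 : finrank k (IntermediateField.adjoin k {g}) = (minpoly k g).natDegree :=
      IntermediateField.adjoin.finrank (Algebra.IsIntegral.isIntegral g)
    rw [h1, IntermediateField.finrank_top', hgmin, hmn] at h2
    exact h2
  have h3 := h E g hE (by rw [hgmin]; exact hmn) (by rw [hgmin]; exact minpoly.aeval k x)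
  rw [← hjp]
  exact fun h4 => h3 (hjinj (by rw [h4, map_zero]))

/-- The commuting step for frames, from local data. -/
theorem step_loc (hS : Setting k K D d s) (hn : 2 ≤ n) (hdeg : finrank K D = n ^ 2)
    {Ω : Type} [Field Ω] [Algebra K Ω] (f : D →ₐ[K] Matrix (Fin n) (Fin n) Ω)
    {ι : Type} [Fintype ι] {R : ι → RData K D n} (hc : Complete R) (hd : Dense R)
    (hA : ∀ i, (R i).A.PosDef) {H : Matrix (Fin 3) (Fin 3) D} (hH : IsAnisotropicForm H)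
    {Rel : (Fin 3 → D) → (Fin 3 → D) → Prop} (hRel : (rowA H hH).InvRel Rel)
    {e₁ e₂ e₃ : Fin 3 → D} (hfr : Fr (rowA H hH) e₁ e₂ e₃) {a : kˣ}
    (hcl : Cls d f (rowA H hH) ((-1) ^ n * a) e₂ e₃)
    {V : Set (HeightOneSpectrum (𝓞 k))} (hV : Ctrl d a V) (Nm : ι → ℕ)
    (hsig : ∀ i m₂ m₃, HasSig (R i) (rowH H e₂ e₂) m₂ → HasSig (R i) (rowH H e₃ e₃) m₃ →
      m₂ + m₃ = Nm i)
    {x : D} (hx : star x = x) {p₀ p₁ : k[X]} (h22 : rowH H e₂ e₂ = aeval x p₀)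
    (hne : V.Nonempty ∨ ∃ φ : k →+* ℝ, φ d < 0)
    (hFin : ∀ v ∈ V, LinearIndependent k (fun i : Fin n => x ^ (i : ℕ)) ∧
      ∀ (E : Type) [Field E] [NumberField E] [Algebra k E] (θ : E),
      finrank k E = n → (minpoly k θ).natDegree = n → aeval x (minpoly k θ) = 0 →
      TotSplit E v ∧ ∃ w : HeightOneSpectrum (𝓞 E), Ab w v ∧ aeval θ (TT p₀ p₁) ≠ 0 ∧
        ∀ u : Eˣ, (u : E) = aeval θ (TT p₀ p₁) → u ∉ LS (w.valuation E))
    (U : (k →+* ℝ) → Set ℝ)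
    (hRe : ∀ φ : k →+* ℝ, φ d < 0 → LinearIndependent k (fun i : Fin n => x ^ (i : ℕ)) ∧
      ∀ p : k[X], p.Monic → p.natDegree = n → aeval x p = 0 →
        ∃ ρ : Fin n → ℝ, Function.Injective ρ ∧ p.map φ = ∏ i, (X - C (ρ i)) ∧ ∀ i, ρ i ∈ U φ)
    (hU0 : ∀ φ : k →+* ℝ, φ d < 0 → ∀ t ∈ U φ, ((TT p₀ p₁).map φ).eval t ≠ 0)
    (hU : ∀ φ : k →+* ℝ, φ d < 0 →
      ∀ i : ι, (∀ a, (R i).s (algebraMap k K a) = ((φ a : ℝ) : ℂ)) →
        (n ≤ Nm i ∧ ∀ t ∈ U φ, 0 < (p₀.map φ).eval t → ((TT p₀ p₁).map φ).eval t < 0) ∨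
        (Nm i ≤ n ∧ ∀ t ∈ U φ, ¬ 0 < (p₀.map φ).eval t → ((TT p₀ p₁).map φ).eval t < 0))
    (hP : InP (rowA H hH) Rel (aeval x p₀)) :
    InP (rowA H hH) Rel (aeval x p₁) ∧ ∃ e₂' e₃' : Fin 3 → D, Fr (rowA H hH) e₁ e₂' e₃' ∧
      rowH H e₂' e₂' = aeval x p₁ ∧ Cls d f (rowA H hH) ((-1) ^ n * a) e₂' e₃' := by
  have hn0 : 0 < n := by omega
  have := hS.fin
  have := hS.cen
  have hfk := hS.fin_k
  have hli : LinearIndependent k (fun i : Fin n => x ^ (i : ℕ)) := by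
    rcases hne with ⟨v, hv⟩ | ⟨φ, hφ⟩
    · exact (hFin v hv).1
    · exact (hRe φ hφ).1
  obtain ⟨f0⟩ := Vale.Agent.P011S.exists_split (K := K) (D := D) hdeg (AlgebraicClosure K)
  obtain ⟨hmn, hmK⟩ := minpoly_map hS hn0 hdeg f0 (one_ne_zero (α := D))
    (by rw [inv_one, one_mul, mul_one, hx]) hli
  have hmonic : (minpoly k x).Monic := minpoly.monic (Algebra.IsIntegral.isIntegral x)
  have hT0 : aeval x (TT p₀ p₁) ≠ 0 := by
    rcases hne with ⟨v, hv⟩ | ⟨φ, hφ⟩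
    · refine ne_of_fin hS hn0 hdeg hx hli fun E _ _ _ θ h1 h2 h3 => ?_
      obtain ⟨-, w, -, h4, -⟩ := (hFin v hv).2 E θ h1 h2 h3
      exact h4
    · intro h0
      obtain ⟨ρ, -, hρ, hρU⟩ := (hRe φ hφ).2 _ hmonic hmn (minpoly.aeval k x)
      obtain ⟨q, hq⟩ := minpoly.dvd k x h0
      apply hU0 φ hφ _ (hρU ⟨0, hn0⟩)
      rw [hq, Polynomial.map_mul, eval_mul, hρ, eval_prod]
      rw [Finset.prod_eq_zero (Finset.mem_univ ⟨0, hn0⟩), zero_mul]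
      simp
  refine step_main hS hn hdeg f hc hd hA hH hRel hfr hcl hV Nm hsig hx hli h22 hT0
    (fun v hv E _ _ _ θ h1 h2 h3 => ?_) (fun φ hφ => ?_) hP
  · obtain ⟨h4, w, h5, -, h6⟩ := (hFin v hv).2 E θ h1 h2 h3
    exact ⟨h4, w, h5, h6⟩
  · obtain ⟨ρ, hρi, hρ, hρU⟩ := (hRe φ hφ).2 _ hmonic hmn (minpoly.aeval k x)
    refine ⟨ρ, hρi, hρ, fun i hi => ?_⟩
    rcases hU φ hφ i hi with ⟨h1, h2⟩ | ⟨h1, h2⟩
    · exact Or.inl ⟨h1, fun j => h2 _ (hρU j)⟩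
    · exact Or.inr ⟨h1, fun j => h2 _ (hρU j)⟩

/-- The places at which the conditions are imposed. -/
def Tset (d : kˣ) (V : Set (HeightOneSpectrum (𝓞 k))) : Set (Pl k) := {p | p ∈ SP V ∧ d ∉ LSp p}

theorem mem_Tset {d : kˣ} {V : Set (HeightOneSpectrum (𝓞 k))} {p : Pl k} :
    p ∈ Tset d V ↔ p ∈ SP V ∧ d ∉ LSp p := Iff.rfl

theorem Tset_fin {d : kˣ} {V : Set (HeightOneSpectrum (𝓞 k))} (hV : V.Finite) :
    (Tset d V).Finite := (SP_finite hV).subset fun _ hp => hp.1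

theorem inl_Tset {d : kˣ} {V : Set (HeightOneSpectrum (𝓞 k))}
    (hV : ∀ v ∈ V, d ∉ LS (v.valuation k)) {v : HeightOneSpectrum (𝓞 k)} :
    (Sum.inl v : Pl k) ∈ Tset d V ↔ v ∈ V :=
  ⟨fun h => inl_mem_SP.mp h.1, fun h => ⟨inl_mem_SP.mpr h, hV v h⟩⟩

theorem inr_Tset {d : kˣ} {V : Set (HeightOneSpectrum (𝓞 k))} {φ : k →+* ℝ} :
    (Sum.inr φ : Pl k) ∈ Tset d V ↔ φ d < 0 :=
  ⟨fun h => notMem_LSR.mp h.2, fun h => ⟨inr_mem_SP, notMem_LSR.mpr h⟩⟩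

/-- The sign of the scalars at the real places. -/
theorem exists_sign (hS : Setting k K D d s) (hn : 0 < n) (hdeg : finrank K D = n ^ 2)
    {ι : Type} {R : ι → RData K D n} (hd : Dense R) (Nm : ι → ℕ) :
    ∃ ε : (k →+* ℝ) → ℤˣ, ∀ φ : k →+* ℝ, φ d < 0 → ∀ i : ι,
      (∀ a, (R i).s (algebraMap k K a) = ((φ a : ℝ) : ℂ)) →
        (n ≤ Nm i ∧ ε φ = 1) ∨ (Nm i ≤ n ∧ ε φ = -1) := by
  classical
  have := hS.fin
  have := hS.cen
  have : StarModule K D := ⟨hS.star_smul⟩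
  refine ⟨fun φ => if ∃ i, (∀ a, (R i).s (algebraMap k K a) = ((φ a : ℝ) : ℂ)) ∧ n ≤ Nm i
    then 1 else -1, fun φ hφ i hi => ?_⟩
  by_cases h : n ≤ Nm i
  · exact Or.inl ⟨h, if_pos ⟨i, hi, h⟩⟩
  · refine Or.inr ⟨by omega, if_neg ?_⟩
    rintro ⟨j, hj, hj2⟩
    obtain rfl : i = j := Three.phi_inj hn hdeg hS hd hi hj
    exact h hj2

theorem sgn_cases (ε : ℤˣ) : (((ε : ℤ) : ℝ) = 1 ∧ ε = 1) ∨ (((ε : ℤ) : ℝ) = -1 ∧ ε = -1) := by
  rcases Int.units_eq_one_or ε with h | h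
  · left; rw [h]; simp
  · right; rw [h]; simp

/-- The first phase: a scalar. -/
theorem phase_one (hS : Setting k K D d s) (hn : 2 ≤ n) (hdeg : finrank K D = n ^ 2)
    (B : Basis (Fin N) k D)
    {Ω : Type} [Field Ω] [Algebra K Ω] (f : D →ₐ[K] Matrix (Fin n) (Fin n) Ω)
    {ι : Type} [Fintype ι] {R : ι → RData K D n} (hc : Complete R) (hd : Dense R)
    (hA : ∀ i, (R i).A.PosDef) {H : Matrix (Fin 3) (Fin 3) D} (hH : IsAnisotropicForm H)
    {Rel : (Fin 3 → D) → (Fin 3 → D) → Prop} (hRel : (rowA H hH).InvRel Rel)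
    {e₁ e₂ e₃ : Fin 3 → D} (hfr : Fr (rowA H hH) e₁ e₂ e₃) {a : kˣ}
    (hcl : Cls d f (rowA H hH) ((-1) ^ n * a) e₂ e₃)
    {V : Set (HeightOneSpectrum (𝓞 k))} (hV : Ctrl d a V) {Nm : ι → ℕ}
    (hsig : ∀ e₂ e₃ : Fin 3 → D, Fr (rowA H hH) e₁ e₂ e₃ → ∀ i m₂ m₃,
      HasSig (R i) (rowH H e₂ e₂) m₂ → HasSig (R i) (rowH H e₃ e₃) m₃ → m₂ + m₃ = Nm i)
    (hne : V.Nonempty ∨ ∃ φ : k →+* ℝ, φ d < 0) {ε : (k →+* ℝ) → ℤˣ}
    (hε : ∀ φ : k →+* ℝ, φ d < 0 → ∀ i : ι,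
      (∀ a, (R i).s (algebraMap k K a) = ((φ a : ℝ) : ℂ)) →
        (n ≤ Nm i ∧ ε φ = 1) ∨ (Nm i ≤ n ∧ ε φ = -1))
    (hP : InP (rowA H hH) Rel (rowH H e₂ e₂)) :
    ∃ (l : k) (e₂' e₃' : Fin 3 → D), (∀ φ : k →+* ℝ, φ d < 0 → 0 < (((ε φ : ℤˣ) : ℤ) : ℝ) * φ l) ∧
      InP (rowA H hH) Rel (algebraMap k D l) ∧ Fr (rowA H hH) e₁ e₂' e₃' ∧
      rowH H e₂' e₂' = algebraMap k D l ∧ Cls d f (rowA H hH) ((-1) ^ n * a) e₂' e₃' := by
  classical
  have hn0 : 0 < n := by omega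
  have := hS.fin
  have := hS.cen
  have hfk := hS.fin_k
  have : StarModule K D := ⟨hS.star_smul⟩
  have hchar : CharZero D := charZero_of_injective_algebraMap (algebraMap K D).injective
  -- the data
  obtain ⟨σ₀, hσd⟩ : ∃ σ₀, σ₀ = rowH H e₂ e₂ := ⟨_, rfl⟩
  have hσs : star σ₀ = σ₀ := by rw [hσd]; exact (rowA H hH).star_h e₂ e₂
  have hσ0 : σ₀ ≠ 0 := by rw [hσd]; exact (rowA H hH).self_ne_zero hfr.e2
  obtain ⟨c, hcd⟩ : ∃ c, c = rowH H e₃ e₃ := ⟨_, rfl⟩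
  have hcs : star c = c := by rw [hcd]; exact (rowA H hH).star_h e₃ e₃
  have hc0 : c ≠ 0 := by rw [hcd]; exact (rowA H hH).self_ne_zero hfr.e3
  obtain ⟨νc, hνc⟩ := exists_nrd_unit hS hn0 hdeg f hcs hc0
  rw [← hσd] at hP
  have h1' : (1 : D) + σ₀ ≠ 0 := by
    intro h1
    have h3 : (rowA H hH).h (e₁ + e₂) (e₁ + e₂) = 0 := by
      rw [(rowA H hH).add_left, (rowA H hH).add_right, (rowA H hH).add_right, hfr.h11, hfr.h12,
        (rowA H hH).orth_symm hfr.h12, add_zero, zero_add]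
      change 1 + rowH H e₂ e₂ = 0
      rw [← hσd]
      exact h1
    have h4 := (rowA H hH).anis h3
    have h5 : (rowA H hH).h (e₁ + e₂) e₁ = 1 := by
      rw [(rowA H hH).add_left, hfr.h11, (rowA H hH).orth_symm hfr.h12, add_zero]
    rw [h4, (rowA H hH).zero_left] at h5
    exact zero_ne_one h5
  -- the element `μ`
  obtain ⟨S, hSd⟩ : ∃ S, S = algebraMap K D s := ⟨_, rfl⟩
  have hSs : star S = -S := by rw [hSd]; exact star_S hS
  have hS0 : S ≠ 0 := by rw [hSd]; exact (_root_.map_ne_zero (algebraMap K D)).mpr hS.s_ne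
  have h20 : (2 : D) ≠ 0 := two_ne_zero
  have h2s : star (2 : D)⁻¹ = (2 : D)⁻¹ := star_two_inv
  obtain ⟨μ, hμd⟩ : ∃ μ, μ = (2 : D)⁻¹ * (1 - σ₀) + S := ⟨_, rfl⟩
  have hhalf : star ((2 : D)⁻¹ * (1 - σ₀)) = (2 : D)⁻¹ * (1 - σ₀) := by
    rw [star_mul, h2s, star_sub, star_one, hσs]
    exact two_inv_comm _
  have hμs : star μ = (2 : D)⁻¹ * (1 - σ₀) - S := by
    rw [hμd, star_add, hhalf, hSs]
    exact (sub_eq_add_neg _ _).symm
  have hμ : μ + star μ = 1 - σ₀ := by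
    rw [hμs, hμd, add_add_sub_cancel, ← two_mul, ← mul_assoc, mul_inv_cancel₀ h20, one_mul]
  have hμ0 : μ ≠ 0 := by
    intro h0
    have h3 : μ - star μ = 2 * S := by
      rw [hμs, hμd, two_mul]; abel
    rw [h0, star_zero, sub_zero] at h3
    exact mul_ne_zero h20 hS0 h3.symm
  obtain ⟨A₀, hA₀⟩ : ∃ A₀, A₀ = μ * σ₀⁻¹ * star μ := ⟨_, rfl⟩
  have hA₀0 : A₀ ≠ 0 := by
    rw [hA₀]
    exact mul_ne_zero (mul_ne_zero hμ0 (inv_ne_zero hσ0)) (star_ne_zero.mpr hμ0)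
  have hA₀s : star A₀ = A₀ := by
    rw [hA₀, star_mul, star_mul, star_star, star_inv₀, hσs, mul_assoc]
  have hbs : star (-A₀) = -A₀ := by rw [star_neg, hA₀s]
  -- the local targets
  have hF : ∀ v : HeightOneSpectrum (𝓞 k), ∃ e : Fin n → kˣ, v ∈ V →
      ∀ (P : k[X]) (i0 : Fin n) (u : kˣ),
      P.eval (e i0 : k) = u → u ∉ LS (v.valuation k) →
      ∃ (R : D) (δ : ℝ), 0 < δ ∧ star R = R ∧ ∀ r : D,
        (∀ j, plAbv (Sum.inl v : Pl k) (B.repr (r - R) j) < δ) →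
        r ≠ 0 ∧ -A₀ + r ≠ 0 ∧
        (∀ ν : kˣ, (f (-A₀ + r)).det = algebraMap K Ω (algebraMap k K ν) →
          ν * νc ∈ NF d ⊔ LS (v.valuation k)) ∧
        LinearIndependent k (fun i : Fin n => r ^ (i : ℕ)) ∧
        ∀ (E : Type) [Field E] [NumberField E] [Algebra k E] (θ : E), finrank k E = n →
          (minpoly k θ).natDegree = n → aeval r (minpoly k θ) = 0 →
          TotSplit E v ∧ ∃ w : HeightOneSpectrum (𝓞 E), Ab w v ∧ aeval θ P ≠ 0 ∧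
            ∀ c : Eˣ, (c : E) = aeval θ P → c ∉ LS (w.valuation E) := by
    intro v
    by_cases hv : v ∈ V
    · obtain ⟨e, -, he⟩ := fin_tgt' hS hn hdeg B f hbs (neg_ne_zero.mpr hA₀0) v
        (hV.nonsplit v hv) νc
      exact ⟨e, fun _ => he⟩
    · exact ⟨fun _ => 1, fun h => absurd h hv⟩
  choose e he using hF
  have hRl : ∀ φ : k →+* ℝ, ∃ σ : Fin n → ℝ, (∀ i, σ i ≠ 0) ∧ (φ d < 0 →
      ∀ i : ι, (∀ a, (R i).s (algebraMap k K a) = ((φ a : ℝ) : ℂ)) → ∀ U : Set ℝ, IsOpen U →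
      (∀ i, σ i ∈ U) → ∃ (R0 : D) (δ : ℝ), 0 < δ ∧ star R0 = R0 ∧
        ∀ r : D, star r = r → (∀ j, plAbv (Sum.inr φ) (B.repr (r - R0) j) < δ) →
          r ≠ 0 ∧ -A₀ + r ≠ 0 ∧ (R i).CongAt c (-A₀ + r) ∧
          LinearIndependent k (fun i : Fin n => r ^ (i : ℕ)) ∧
          ∀ p : k[X], p.Monic → p.natDegree = n → aeval r p = 0 →
            ∃ ρ : Fin n → ℝ, Function.Injective ρ ∧ p.map φ = ∏ i, (Polynomial.X - C (ρ i)) ∧
              ∀ i, ρ i ∈ U) := by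
    intro φ
    by_cases hφ : φ d < 0
    · obtain ⟨i, hi⟩ := Two2.exists_above hS hn0 hdeg hc hφ
      obtain ⟨σ, -, hσ, h⟩ := real_tgt hS hn0 hdeg B hφ (R i) hi (hA i) hbs hcs hc0
      refine ⟨σ, hσ, fun _ i' hi' => ?_⟩
      obtain rfl : i = i' := Three.phi_inj hn0 hdeg hS hd hi hi'
      exact h
    · exact ⟨fun _ => 1, fun _ => one_ne_zero, fun h => absurd h hφ⟩
  choose σ hσne hσ using hRl
  -- the scalar
  let i0 : Fin n := ⟨0, hn0⟩
  obtain ⟨l, hlV, hlR⟩ := exists_scalar (d := d) hV.fin hV.nonsplit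
    (fun v => (1 - (e v i0 : k)) ^ 2 / 4) (fun v => (e v i0 : k)) (fun v _ => (e v i0).ne_zero)
    (fun φ => ∑ j, (1 - σ φ j) ^ 2 / (4 * |σ φ j|)) ε
  have hM0 : ∀ φ : k →+* ℝ, 0 ≤ ∑ j, (1 - σ φ j) ^ 2 / (4 * |σ φ j|) := fun φ =>
    Finset.sum_nonneg fun j _ => by positivity
  have hMj : ∀ (φ : k →+* ℝ) (j : Fin n), (1 - σ φ j) ^ 2 / (4 * |σ φ j|) <
      (((ε φ : ℤˣ) : ℤ) : ℝ) * φ l := fun φ j =>
    lt_of_le_of_lt (Finset.single_le_sum (f := fun j => (1 - σ φ j) ^ 2 / (4 * |σ φ j|))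
      (fun _ _ => by positivity) (Finset.mem_univ j)) (hlR φ)
  have hlpos : ∀ φ : k →+* ℝ, 0 < (((ε φ : ℤˣ) : ℤ) : ℝ) * φ l := fun φ =>
    lt_of_le_of_lt (hM0 φ) (hlR φ)
  obtain ⟨p₁, hp₁⟩ : ∃ p₁ : k[X], p₁ = C l := ⟨_, rfl⟩
  have hTe : ∀ (φ : k →+* ℝ) (t : ℝ), ((TT X p₁).map φ).eval t = (1 - t) ^ 2 / 4 - t * φ l := by
    intro φ t
    rw [TT_eval, hp₁, Polynomial.map_X, Polynomial.map_C, eval_X, eval_C]
  have hTk : ∀ t : k, (TT X p₁).eval t = (1 - t) ^ 2 / 4 - t * l := by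
    intro t
    have h := TT_eval X p₁ (RingHom.id k) t
    rw [Polynomial.map_id, Polynomial.map_id, Polynomial.map_id, eval_X, hp₁, eval_C] at h
    rw [hp₁]
    exact h
  obtain ⟨U, hUd⟩ : ∃ U : (k →+* ℝ) → Set ℝ, ∀ φ, U φ = {t : ℝ |
      (0 < (((ε φ : ℤˣ) : ℤ) : ℝ) * t ∧ (1 - t) ^ 2 / 4 - t * φ l < 0) ∨
      ((((ε φ : ℤˣ) : ℤ) : ℝ) * t < 0 ∧ 0 < (1 - t) ^ 2 / 4 - t * φ l)} := ⟨_, fun _ => rfl⟩
  have hUo : ∀ φ, IsOpen (U φ) := by
    intro φ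
    rw [hUd]
    have c1 : Continuous fun t : ℝ => (((ε φ : ℤˣ) : ℤ) : ℝ) * t := by fun_prop
    have c2 : Continuous fun t : ℝ => (1 - t) ^ 2 / 4 - t * φ l := by fun_prop
    exact ((isOpen_lt continuous_const c1).inter (isOpen_lt c2 continuous_const)).union
      ((isOpen_lt c1 continuous_const).inter (isOpen_lt continuous_const c2))
  have hUσ : ∀ φ j, σ φ j ∈ U φ := by
    intro φ j
    have h1 := hMj φ j
    have h2 : 0 < |σ φ j| := abs_pos.mpr (hσne φ j)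
    rw [div_lt_iff₀ (by positivity)] at h1
    have h3 := hlpos φ
    rw [hUd]
    rcases sgn_cases (ε φ) with ⟨h5, -⟩ | ⟨h5, -⟩ <;> rw [h5] at h1 h3 <;>
      simp only [Set.mem_ofPred_eq, h5] <;> rcases lt_or_gt_of_ne (hσne φ j) with h6 | h6
    · right
      refine ⟨by linarith, ?_⟩
      have : 0 ≤ (1 - σ φ j) ^ 2 / 4 := by positivity
      nlinarith
    · left
      rw [abs_of_pos h6] at h1
      refine ⟨by linarith, ?_⟩
      nlinarith
    · left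
      rw [abs_of_neg h6] at h1
      refine ⟨by linarith, ?_⟩
      nlinarith
    · right
      refine ⟨by linarith, ?_⟩
      have : 0 ≤ (1 - σ φ j) ^ 2 / 4 := by positivity
      nlinarith
  -- the targets
  have htgt : ∀ p : Pl k, ∃ (Rt : D) (δ : ℝ), 0 < δ ∧ (p ∈ Tset d V → star Rt = Rt ∧
      (∀ r : D, star r = r → (∀ j, plAbv p (B.repr (r - Rt) j) < δ) →
        -A₀ + r ≠ 0 ∧
        (∀ v, p = Sum.inl v → (∀ ν : kˣ, (f (-A₀ + r)).det = algebraMap K Ω (algebraMap k K ν) →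
          ν * νc ∈ NF d ⊔ LS (v.valuation k)) ∧
          LinearIndependent k (fun i : Fin n => r ^ (i : ℕ)) ∧
          ∀ (E : Type) [Field E] [NumberField E] [Algebra k E] (θ : E), finrank k E = n →
          (minpoly k θ).natDegree = n → aeval r (minpoly k θ) = 0 →
          TotSplit E v ∧ ∃ w : HeightOneSpectrum (𝓞 E), Ab w v ∧ aeval θ (TT X p₁) ≠ 0 ∧
            ∀ c : Eˣ, (c : E) = aeval θ (TT X p₁) → c ∉ LS (w.valuation E)) ∧
        (∀ φ, p = Sum.inr φ →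
          (∀ i : ι, (∀ a, (R i).s (algebraMap k K a) = ((φ a : ℝ) : ℂ)) →
            (R i).CongAt c (-A₀ + r)) ∧
          LinearIndependent k (fun i : Fin n => r ^ (i : ℕ)) ∧
          ∀ p : k[X], p.Monic → p.natDegree = n → aeval r p = 0 →
            ∃ ρ : Fin n → ℝ, Function.Injective ρ ∧ p.map φ = ∏ i, (Polynomial.X - C (ρ i)) ∧
              ∀ i, ρ i ∈ U φ))) := by
    rintro (v | φ)
    · by_cases hv : v ∈ V
      · obtain ⟨u, hu1, hu2⟩ := hlV v hv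
        obtain ⟨Rt, δ, hδ, hRt, h⟩ := he v hv (TT X p₁) i0 u (by rw [hTk, hu1]; ring) hu2
        refine ⟨Rt, δ, hδ, fun _ => ⟨hRt, fun r _ hr => ?_⟩⟩
        obtain ⟨-, h2, h3, h4, h5⟩ := h r hr
        refine ⟨h2, fun v' hv' => ?_, fun φ hφ => absurd hφ Sum.inl_ne_inr⟩
        obtain rfl := Sum.inl_injective hv'
        exact ⟨h3, h4, h5⟩
      · exact ⟨0, 1, one_pos, fun h => absurd ((inl_Tset hV.nonsplit).mp h) hv⟩
    · by_cases hφ : φ d < 0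
      · obtain ⟨i, hi⟩ := Two2.exists_above hS hn0 hdeg hc hφ
        obtain ⟨Rt, δ, hδ, hRt, h⟩ := hσ φ hφ i hi (U φ) (hUo φ) (hUσ φ)
        refine ⟨Rt, δ, hδ, fun _ => ⟨hRt, fun r hrs hr => ?_⟩⟩
        obtain ⟨-, h2, h3, h4, h5⟩ := h r hrs hr
        refine ⟨h2, fun v' hv' => absurd hv' Sum.inr_ne_inl, fun φ' hφ' => ?_⟩
        obtain rfl := Sum.inr_injective hφ'
        refine ⟨fun i' hi' => ?_, h4, h5⟩
        obtain rfl : i = i' := Three.phi_inj hn0 hdeg hS hd hi hi'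
        exact h3
      · exact ⟨0, 1, one_pos, fun h => absurd (inr_Tset.mp h) hφ⟩
  choose Rt δ hδ hRt using htgt
  have hTne : (Tset d V).Nonempty := by
    rcases hne with ⟨v, hv⟩ | ⟨φ, hφ⟩
    · exact ⟨_, (inl_Tset hV.nonsplit).mpr hv⟩
    · exact ⟨_, inr_Tset.mpr hφ⟩
  have hRself : ∀ p ∈ Tset d V, ∀ j, plAbv p (B.repr (Rt p - Rt p) j) < δ p := by
    intro p _ j
    rw [sub_self, map_zero, Finsupp.zero_apply, AbsoluteValue.map_zero]
    exact hδ p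
  obtain ⟨t, ht0, ht⟩ := dense_one hS hn0 hdeg B f hcs hc0 (Tset_fin hV.fin) hTne
    (fun p hp => hp.2) (fun p => -A₀ + Rt p) δ hδ
    (fun p hp => by rw [star_add, hbs, (hRt p hp).1])
    (fun p hp => ((hRt p hp).2 _ (hRt p hp).1 (hRself p hp)).1)
    (fun v hv ν ν' hν hν' => by
      have e1 : ν = νc := Units.ext ((algebraMap k K).injective ((algebraMap K Ω).injective
        (hν.symm.trans hνc)))
      rw [e1, mul_comm]
      exact (((hRt _ hv).2 _ (hRt _ hv).1 (hRself _ hv)).2.1 v rfl).1 ν' hν')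
    (fun φ hφ R' hR' => by
      obtain ⟨i, hi⟩ := Two2.exists_above hS hn0 hdeg hc (inr_Tset.mp hφ)
      exact cong_of_phi hS hn0 hdeg hc hd hi hR'
        ((((hRt _ hφ).2 _ (hRt _ hφ).1 (hRself _ hφ)).2.2 φ rfl).1 i hi))
  obtain ⟨x, hxd⟩ : ∃ x, x = A₀ + t * c * star t := ⟨_, rfl⟩
  have hxs : star x = x := by
    rw [hxd, star_add, hA₀s, star_mul, star_mul, star_star, hcs, mul_assoc]
  have hxn : ∀ p ∈ Tset d V, ∀ j, plAbv p (B.repr (x - Rt p) j) < δ p := by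
    intro p hp j
    have e1 : x - Rt p = t * c * star t - (-A₀ + Rt p) := by rw [hxd]; abel
    rw [e1]
    exact ht p hp j
  -- the first step
  have hPx : InP (rowA H hH) Rel x := by
    rw [hxd, hA₀, hcd]
    exact rel_step hRel hP hfr.h11 hσd.symm hfr.h12 hfr.h31 hfr.h32 hσ0 h1' hμ t
  obtain ⟨e₃a, hfr1, hlen1, hcl1⟩ := hfr.step_cls hS hn0 hdeg f hcl (μ * σ₀⁻¹) ht0
  have h22 : rowH H ((μ * σ₀⁻¹) • e₂ + t • e₃) ((μ * σ₀⁻¹) • e₂ + t • e₃) = aeval x (X : k[X]) := by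
    have h2 : (rowA H hH).h e₂ e₂ = σ₀ := hσd.symm
    have h3 : (rowA H hH).h e₃ e₃ = c := hcd.symm
    change (rowA H hH).h _ _ = _
    rw [hlen1, h2, h3, aeval_X, hxd, hA₀, star_mul, star_inv₀, hσs,
      inv_mul_cancel_right₀ hσ0, mul_assoc μ]
  obtain ⟨h1, e₂', e₃', h2, h3, h4⟩ := step_loc hS hn hdeg f hc hd hA hH hRel hfr1 hcl1 hV Nm
    (hsig _ _ hfr1) hxs (p₁ := p₁) h22 hne
    (fun v hv => (((hRt _ ((inl_Tset hV.nonsplit).mpr hv)).2 x hxs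
      (hxn _ ((inl_Tset hV.nonsplit).mpr hv))).2.1 v rfl).2) U
    (fun φ hφ => (((hRt _ (inr_Tset.mpr hφ)).2 x hxs (hxn _ (inr_Tset.mpr hφ))).2.2 φ rfl).2)
    (fun φ hφ t ht => by
      rw [hTe]
      rw [hUd] at ht
      rcases ht with ⟨-, h⟩ | ⟨-, h⟩
      · exact h.ne
      · exact h.ne')
    (fun φ hφ i hi => by
      rcases hε φ hφ i hi with ⟨h1, h2⟩ | ⟨h1, h2⟩
      · refine Or.inl ⟨h1, fun t ht ht0 => ?_⟩
        rw [Polynomial.map_X, eval_X] at ht0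
        rw [hUd, Set.mem_ofPred_eq, h2] at ht
        simp only [Units.val_one, Int.cast_one, one_mul] at ht
        rw [hTe]
        rcases ht with ⟨-, h⟩ | ⟨h, -⟩
        · exact h
        · linarith
      · refine Or.inr ⟨h1, fun t ht ht0 => ?_⟩
        rw [Polynomial.map_X, eval_X] at ht0
        rw [hUd, Set.mem_ofPred_eq, h2] at ht
        simp only [Units.val_neg, Units.val_one, Int.cast_neg, Int.cast_one, neg_mul,
          one_mul] at ht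
        rw [hTe]
        rcases ht with ⟨-, h⟩ | ⟨h, -⟩
        · exact h
        · linarith)
    (by rw [aeval_X]; exact hPx)
  rw [hp₁, aeval_C] at h1 h3
  exact ⟨l, e₂', e₃', fun φ _ => hlpos φ, h1, h2, h3, h4⟩

end Vale.Agent.P011.F3
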