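import Vale.Agent.P011.F3.Phase

/-!
The second phase of the propagation: from a scalar length to an open set of lengths.
-/

open Module Matrix Polynomial NumberField IsDedekindDomain
open scoped ComplexOrder

set_option linter.unusedSectionVars false

namespace Vale.Agent.P011.F3

open Vale.Agent.P011.Arith Vale.Agent.P011.Even Vale.Agent.P011S Vale.Agent.P011.Two2
open Vale.Agent.P011.Two.Hi
open Vale.Agent.P011.RP (RData Complete Dense rowH)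

variable {k K D : Type} [Field k] [NumberField k] [Field K] [NumberField K] [StarRing K]
    [DivisionRing D] [StarRing D] [Algebra k K] [Algebra k D] [Algebra K D] [IsScalarTower k K D]
    {d : kˣ} {s : K} {n N : ℕ}

/-- The second phase: an open set. -/
theorem phase_two (hS : Setting k K D d s) (hn : 2 ≤ n) (hdeg : finrank K D = n ^ 2)
    (B : Basis (Fin N) k D)
    {Ω : Type} [Field Ω] [Algebra K Ω] (f : D →ₐ[K] Matrix (Fin n) (Fin n) Ω)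
    {ι : Type} [Fintype ι] {R : ι → RData K D n} (hc : Complete R) (hd : Dense R)
    (hA : ∀ i, (R i).A.PosDef) {H : Matrix (Fin 3) (Fin 3) D} (hH : IsAnisotropicForm H)
    {Rel : (Fin 3 → D) → (Fin 3 → D) → Prop} (hRel : (rowA H hH).InvRel Rel)
    {e₁ e₂ e₃ : Fin 3 → D} (hfr : Fr (rowA H hH) e₁ e₂ e₃) {a : kˣ}
    (hcl : Cls d f (rowA H hH) ((-1) ^ n * a) e₂ e₃)
    {V : Set (HeightOneSpectrum (𝓞 k))} (hV : Ctrl d a V) {Nm : ι → ℕ}
    (hsig : ∀ e₂ e₃ : Fin 3 → D, Fr (rowA H hH) e₁ e₂ e₃ → ∀ i m₂ m₃,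
      HasSig (R i) (rowH H e₂ e₂) m₂ → HasSig (R i) (rowH H e₃ e₃) m₃ → m₂ + m₃ = Nm i)
    (hne : V.Nonempty ∨ ∃ φ : k →+* ℝ, φ d < 0) {ε : (k →+* ℝ) → ℤˣ}
    (hε : ∀ φ : k →+* ℝ, φ d < 0 → ∀ i : ι,
      (∀ a, (R i).s (algebraMap k K a) = ((φ a : ℝ) : ℂ)) →
        (n ≤ Nm i ∧ ε φ = 1) ∨ (Nm i ≤ n ∧ ε φ = -1)) {l : k}
    (hl : ∀ φ : k →+* ℝ, φ d < 0 → 0 < (((ε φ : ℤˣ) : ℤ) : ℝ) * φ l)
    (h22 : rowH H e₂ e₂ = algebraMap k D l)
    (hP : InP (rowA H hH) Rel (algebraMap k D l)) :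
    ∃ (l' : k) (Rt : Pl k → D) (δ : Pl k → ℝ), (∀ p, 0 < δ p) ∧
      (∀ p ∈ Tset d V, star (Rt p) = Rt p) ∧
      ∀ r : D, star r = r → (∀ p ∈ Tset d V, ∀ j, plAbv p (B.repr (r - Rt p) j) < δ p) →
        InP (rowA H hH) Rel (l' • r) ∧ ∃ e₂' e₃' : Fin 3 → D, Fr (rowA H hH) e₁ e₂' e₃' ∧
          rowH H e₂' e₂' = l' • r := by
  classical
  have hn0 : 0 < n := by omega
  have := hS.fin
  have := hS.cen
  have hfk := hS.fin_k
  have : StarModule K D := ⟨hS.star_smul⟩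
  have hl0 : l ≠ 0 := by
    rintro rfl
    rw [map_zero] at h22
    exact (rowA H hH).self_ne_zero hfr.e2 h22
  -- the local targets
  have hF : ∀ v : HeightOneSpectrum (𝓞 k), ∃ e : Fin n → kˣ, v ∈ V →
      ∀ (P : k[X]) (i0 : Fin n) (u : kˣ),
      P.eval (e i0 : k) = u → u ∉ LS (v.valuation k) →
      ∃ (R : D) (δ : ℝ), 0 < δ ∧ star R = R ∧ ∀ r : D,
        (∀ j, plAbv (Sum.inl v : Pl k) (B.repr (r - R) j) < δ) →
        LinearIndependent k (fun i : Fin n => r ^ (i : ℕ)) ∧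
        ∀ (E : Type) [Field E] [NumberField E] [Algebra k E] (θ : E), finrank k E = n →
          (minpoly k θ).natDegree = n → aeval r (minpoly k θ) = 0 →
          TotSplit E v ∧ ∃ w : HeightOneSpectrum (𝓞 E), Ab w v ∧ aeval θ P ≠ 0 ∧
            ∀ c : Eˣ, (c : E) = aeval θ P → c ∉ LS (w.valuation E) := by
    intro v
    by_cases hv : v ∈ V
    · obtain ⟨e, -, he⟩ := fin_tgt' hS hn hdeg B f (star_one D) one_ne_zero v
        (hV.nonsplit v hv) 1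
      refine ⟨e, fun _ P i0 u hu hu' => ?_⟩
      obtain ⟨R, δ, hδ, hR, h⟩ := he P i0 u hu hu'
      refine ⟨R, δ, hδ, hR, fun r hr => ?_⟩
      obtain ⟨-, -, -, h4, h5⟩ := h r hr
      exact ⟨h4, h5⟩
    · exact ⟨fun _ => 1, fun h => absurd h hv⟩
  choose e he using hF
  have hRl : ∀ φ : k →+* ℝ, ∃ σ : Fin n → ℝ, (∀ i, 0 < σ i) ∧ (φ d < 0 →
      ∀ U : Set ℝ, IsOpen U →
      (∀ i, σ i ∈ U) → ∃ (R0 : D) (δ : ℝ), 0 < δ ∧ star R0 = R0 ∧
        ∀ r : D, star r = r → (∀ j, plAbv (Sum.inr φ) (B.repr (r - R0) j) < δ) →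
          LinearIndependent k (fun i : Fin n => r ^ (i : ℕ)) ∧
          ∀ p : k[X], p.Monic → p.natDegree = n → aeval r p = 0 →
            ∃ ρ : Fin n → ℝ, Function.Injective ρ ∧ p.map φ = ∏ i, (Polynomial.X - C (ρ i)) ∧
              ∀ i, ρ i ∈ U) := by
    intro φ
    by_cases hφ : φ d < 0
    · obtain ⟨i, hi⟩ := Two2.exists_above hS hn0 hdeg hc hφ
      obtain ⟨σ, -, hσ, h⟩ := real_tgt_pos hS hn0 hdeg B hφ (R i) hi (hA i)
      exact ⟨σ, hσ, fun _ => h⟩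
    · exact ⟨fun _ => 1, fun _ => one_pos, fun h => absurd h hφ⟩
  choose σ hσpos hσ using hRl
  -- the scalar
  let i0 : Fin n := ⟨0, hn0⟩
  obtain ⟨l', hlV, hlR⟩ := exists_scalar (d := d) hV.fin hV.nonsplit
    (fun _ => (1 - l) ^ 2 / 4) (fun v => l * (e v i0 : k))
    (fun v _ => mul_ne_zero hl0 (e v i0).ne_zero)
    (fun φ => ∑ j, (1 - φ l) ^ 2 / (4 * (|φ l| * σ φ j))) ε
  have hφl : ∀ φ : k →+* ℝ, 0 < |φ l| := fun φ => abs_pos.mpr ((_root_.map_ne_zero φ).mpr hl0)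
  have hM0 : ∀ (φ : k →+* ℝ) (j : Fin n), 0 ≤ (1 - φ l) ^ 2 / (4 * (|φ l| * σ φ j)) := by
    intro φ j
    have := hφl φ
    have := hσpos φ j
    positivity
  have hMj : ∀ (φ : k →+* ℝ) (j : Fin n), (1 - φ l) ^ 2 / (4 * (|φ l| * σ φ j)) <
      (((ε φ : ℤˣ) : ℤ) : ℝ) * φ l' := fun φ j =>
    lt_of_le_of_lt (Finset.single_le_sum
      (f := fun j => (1 - φ l) ^ 2 / (4 * (|φ l| * σ φ j)))
      (fun j _ => hM0 φ j) (Finset.mem_univ j)) (hlR φ)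
  obtain ⟨p₀, hp₀⟩ : ∃ p₀ : k[X], p₀ = C l := ⟨_, rfl⟩
  obtain ⟨p₁, hp₁⟩ : ∃ p₁ : k[X], p₁ = C l' * X := ⟨_, rfl⟩
  have hTe : ∀ (φ : k →+* ℝ) (t : ℝ), ((TT p₀ p₁).map φ).eval t =
      (1 - φ l) ^ 2 / 4 - φ l * (φ l' * t) := by
    intro φ t
    rw [TT_eval, hp₀, hp₁, Polynomial.map_mul, Polynomial.map_X, Polynomial.map_C,
      Polynomial.map_C, eval_mul, eval_X, eval_C, eval_C]
  have hTk : ∀ t : k, (TT p₀ p₁).eval t = (1 - l) ^ 2 / 4 - l * (l' * t) := by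
    intro t
    have h := TT_eval p₀ p₁ (RingHom.id k) t
    rw [Polynomial.map_id, Polynomial.map_id, Polynomial.map_id] at h
    rw [h, hp₀, hp₁, eval_mul, eval_X, eval_C, eval_C]
  obtain ⟨U, hUd⟩ : ∃ U : (k →+* ℝ) → Set ℝ, ∀ φ, U φ = {t : ℝ |
      (1 - φ l) ^ 2 / 4 - φ l * (φ l' * t) < 0} := ⟨_, fun _ => rfl⟩
  have hUo : ∀ φ, IsOpen (U φ) := by
    intro φ
    rw [hUd]
    have c2 : Continuous fun t : ℝ => (1 - φ l) ^ 2 / 4 - φ l * (φ l' * t) := by fun_prop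
    exact isOpen_lt c2 continuous_const
  have hUσ : ∀ φ : k →+* ℝ, φ d < 0 → ∀ j, σ φ j ∈ U φ := by
    intro φ hφ j
    have h1 := hMj φ j
    have h2 := hσpos φ j
    have h3 := hφl φ
    have h4 := hl φ hφ
    rw [div_lt_iff₀ (by positivity)] at h1
    rw [hUd, Set.mem_ofPred_eq]
    rcases sgn_cases (ε φ) with ⟨h5, -⟩ | ⟨h5, -⟩ <;> rw [h5] at h1 h4
    · rw [abs_of_pos (by linarith)] at h1
      nlinarith
    · rw [abs_of_neg (by linarith)] at h1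
      nlinarith
  -- the targets
  have htgt : ∀ p : Pl k, ∃ (Rt : D) (δ : ℝ), 0 < δ ∧ (p ∈ Tset d V → star Rt = Rt ∧
      (∀ r : D, star r = r → (∀ j, plAbv p (B.repr (r - Rt) j) < δ) →
        (∀ v, p = Sum.inl v →
          LinearIndependent k (fun i : Fin n => r ^ (i : ℕ)) ∧
          ∀ (E : Type) [Field E] [NumberField E] [Algebra k E] (θ : E), finrank k E = n →
          (minpoly k θ).natDegree = n → aeval r (minpoly k θ) = 0 →
          TotSplit E v ∧ ∃ w : HeightOneSpectrum (𝓞 E), Ab w v ∧ aeval θ (TT p₀ p₁) ≠ 0 ∧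
            ∀ c : Eˣ, (c : E) = aeval θ (TT p₀ p₁) → c ∉ LS (w.valuation E)) ∧
        (∀ φ, p = Sum.inr φ →
          LinearIndependent k (fun i : Fin n => r ^ (i : ℕ)) ∧
          ∀ p : k[X], p.Monic → p.natDegree = n → aeval r p = 0 →
            ∃ ρ : Fin n → ℝ, Function.Injective ρ ∧ p.map φ = ∏ i, (Polynomial.X - C (ρ i)) ∧
              ∀ i, ρ i ∈ U φ))) := by
    rintro (v | φ)
    · by_cases hv : v ∈ V
      · obtain ⟨u, hu1, hu2⟩ := hlV v hv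
        obtain ⟨Rt, δ, hδ, hRt, h⟩ := he v hv (TT p₀ p₁) i0 u (by rw [hTk, hu1]; ring) hu2
        refine ⟨Rt, δ, hδ, fun _ => ⟨hRt, fun r _ hr => ?_⟩⟩
        refine ⟨fun v' hv' => ?_, fun φ hφ => absurd hφ Sum.inl_ne_inr⟩
        obtain rfl := Sum.inl_injective hv'
        exact h r hr
      · exact ⟨0, 1, one_pos, fun h => absurd ((inl_Tset hV.nonsplit).mp h) hv⟩
    · by_cases hφ : φ d < 0
      · obtain ⟨Rt, δ, hδ, hRt, h⟩ := hσ φ hφ (U φ) (hUo φ) (hUσ φ hφ)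
        refine ⟨Rt, δ, hδ, fun _ => ⟨hRt, fun r hrs hr => ?_⟩⟩
        refine ⟨fun v' hv' => absurd hv' Sum.inr_ne_inl, fun φ' hφ' => ?_⟩
        obtain rfl := Sum.inr_injective hφ'
        exact h r hrs hr
      · exact ⟨0, 1, one_pos, fun h => absurd (inr_Tset.mp h) hφ⟩
  choose Rt δ hδ hRt using htgt
  refine ⟨l', Rt, δ, hδ, fun p hp => (hRt p hp).1, fun r hrs hrn => ?_⟩
  obtain ⟨h1, e₂', e₃', h2, h3, -⟩ := step_loc hS hn hdeg f hc hd hA hH hRel hfr hcl hV Nm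
    (hsig _ _ hfr) hrs (p₀ := p₀) (p₁ := p₁) (by rw [hp₀, aeval_C]; exact h22) hne
    (fun v hv => ((hRt _ ((inl_Tset hV.nonsplit).mpr hv)).2 r hrs
      (hrn _ ((inl_Tset hV.nonsplit).mpr hv))).1 v rfl) U
    (fun φ hφ => ((hRt _ (inr_Tset.mpr hφ)).2 r hrs (hrn _ (inr_Tset.mpr hφ))).2 φ rfl)
    (fun φ hφ t ht => by
      rw [hTe]
      rw [hUd] at ht
      exact ne_of_lt ht)
    (fun φ hφ i hi => by
      rcases hε φ hφ i hi with ⟨h1, h2⟩ | ⟨h1, h2⟩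
      · refine Or.inl ⟨h1, fun t ht _ => ?_⟩
        rw [hUd] at ht
        rw [hTe]
        exact ht
      · refine Or.inr ⟨h1, fun t ht _ => ?_⟩
        rw [hUd] at ht
        rw [hTe]
        exact ht)
    (by rw [hp₀, aeval_C]; exact hP)
  have e1 : aeval r p₁ = l' • r := by
    rw [hp₁, map_mul, aeval_C, aeval_X, Algebra.smul_def]
  rw [e1] at h1 h3
  exact ⟨h1, e₂', e₃', h2, h3⟩

end Vale.Agent.P011.F3
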