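import Vale.Agent.P011.F3.Final
import Vale.Agent.P011.F3.Htr

/-!
The special unitary group of an anisotropic hermitian form of rank at least three is perfect and
simple modulo its centre, if its noncentral normal subgroups are trivial.
-/

open Module Matrix
open scoped commutatorElement

set_option linter.unusedSectionVars false

namespace Vale.Agent.P011.F3

open Vale.Agent.P011S Vale.Agent.P011.RP Vale.Agent.P011.T2 Vale.Agent.P011.Three
open Vale.Agent.P011.Two.Hi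

/-- Perfectness and simplicity modulo the centre from the dichotomy for normal subgroups. -/
theorem quasi_of {W : Type} [Group W] {G : Subgroup W}
    (h : ∀ N : Subgroup G, N.Normal → N ≤ Subgroup.center G ∨ N = ⊤)
    {a b : G} (hab : ⁅a, b⁆ ∉ Subgroup.center G) : IsQuasisimple G := by
  have hnc : ∃ a b : G ⧸ Subgroup.center G, a * b ≠ b * a := by
    refine ⟨QuotientGroup.mk a, QuotientGroup.mk b, fun hc => hab ?_⟩
    rw [← QuotientGroup.eq_one_iff]
    change (QuotientGroup.mk a * QuotientGroup.mk b * (QuotientGroup.mk a)⁻¹ *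
      (QuotientGroup.mk b)⁻¹ : G ⧸ Subgroup.center G) = 1
    rw [hc]
    group
  refine ⟨?_, ?_, hnc⟩
  · rcases h (commutator G) inferInstance with h1 | h1
    · exact absurd (h1 (Subgroup.commutator_mem_commutator (Subgroup.mem_top a)
        (Subgroup.mem_top b))) hab
    · have h2 := Subgroup.map_subtype_commutator G
      rw [h1, ← MonoidHom.range_eq_map, Subgroup.range_subtype] at h2
      exact h2.symm
  · have hnt : Nontrivial (G ⧸ Subgroup.center G) := by
      obtain ⟨a, b, hab⟩ := hnc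
      exact ⟨⟨_, _, hab⟩⟩
    refine { hnt with eq_bot_or_eq_top_of_normal := ?_ }
    intro N hN
    rcases h (N.comap (QuotientGroup.mk' (Subgroup.center G))) inferInstance with h1 | h1
    · left
      rw [eq_bot_iff]
      intro x hx
      obtain ⟨k, rfl⟩ := QuotientGroup.mk_surjective x
      rw [Subgroup.mem_bot, QuotientGroup.eq_one_iff]
      exact h1 hx
    · right
      rw [eq_top_iff]
      intro x _
      obtain ⟨k, rfl⟩ := QuotientGroup.mk_surjective x
      have h2 : k ∈ N.comap (QuotientGroup.mk' (Subgroup.center G)) := h1 ▸ Subgroup.mem_top k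
      exact h2

section

variable {K D Ω : Type} [Field K] [StarRing K] [DivisionRing D] [StarRing D] [Algebra K D]
  [Field Ω] [Algebra K Ω] {n : ℕ} (f : D →ₐ[K] Matrix (Fin n) (Fin n) Ω) {m : ℕ}
  {H : Matrix (Fin m) (Fin m) D} {hH : IsAnisotropicForm H}

/-- A commutator that moves a line. -/
theorem exists_comm_line [CharZero K] [CharZero D] [FiniteDimensional ℚ D] (hn : 0 < n)
    (hm : 3 ≤ m) (hH : IsAnisotropicForm H) :
    ∃ e₁ ∈ GG f H, ∃ e₂ ∈ GG f H, ∃ v : Fin m → D, ∀ c : D,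
      (⁅e₁, e₂⁆ : (Fin m → D) ≃ₗ[D] (Fin m → D)) v ≠ c • v := by
  obtain ⟨a, ha, -, -⟩ := exists_orth_two (H := H) (hH := hH) hm 0 0
  obtain ⟨b, hb, hba, -⟩ := exists_orth_two (H := H) (hH := hH) hm a a
  obtain ⟨c, hc, hca, hcb⟩ := exists_orth_two (H := H) (hH := hH) hm a b
  obtain ⟨h, hh⟩ : ∃ h : AForm D (Fin m → D), h = rowA H hH := ⟨_, rfl⟩
  rw [← hh] at hba hca hcb
  have hab := h.orth_symm hba
  have hac := h.orth_symm hca
  have hbc := h.orth_symm hcb
  obtain ⟨e₁, he₁, h1c, h1b⟩ := htr (hH := hH) f hn hm ((rowA H hH).refl_mem (a + b)) c b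
  obtain ⟨e₂, he₂, h2a, h2c⟩ := htr (hH := hH) f hn hm ((rowA H hH).refl_mem (b + c)) a c
  rw [← hh] at h1c h1b h2a h2c
  have k1 : h.refl (a + b) c = c := h.refl_apply_orth (by rw [h.add_right, hca, hcb, add_zero])
  have k2 : h.refl (b + c) a = a := h.refl_apply_orth (by rw [h.add_right, hab, hac, add_zero])
  rw [k1] at h1c
  rw [k2] at h2a
  have hi2 : e₂ ∈ h.isom := by
    obtain ⟨g, hg, rfl⟩ := he₂
    rw [hh]
    exact (rp_mem hH).mpr hg.1
  have hi1 : e₁ ∈ h.isom := by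
    obtain ⟨g, hg, rfl⟩ := he₁
    rw [hh]
    exact (rp_mem hH).mpr hg.1
  have hab0 : h.h (a + b) (a + b) ≠ 0 := by
    apply h.self_ne_zero
    intro h0
    have h1 : h.h (a + b) a = 0 := by rw [h0, h.zero_left]
    rw [h.add_left, hba, add_zero] at h1
    exact h.self_ne_zero ha h1
  have hbc0 : h.h (b + c) (b + c) ≠ 0 := by
    apply h.self_ne_zero
    intro h0
    have h1 : h.h (b + c) b = 0 := by rw [h0, h.zero_left]
    rw [h.add_left, hcb, add_zero] at h1
    exact h.self_ne_zero hb h1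
  obtain ⟨β, hβ⟩ : ∃ β : D, β = h.h c (b + c) * (h.h (b + c) (b + c) / 2)⁻¹ := ⟨_, rfl⟩
  have hβ0 : β ≠ 0 := by
    rw [hβ, h.add_right, hcb, zero_add]
    exact mul_ne_zero (h.self_ne_zero hc) (inv_ne_zero (div_ne_zero hbc0 two_ne_zero))
  have h2c' : e₂ c = (1 - β) • c - β • b := by
    rw [h2c, h.refl_apply, ← hβ, sub_smul, one_smul, smul_add]
    abel
  obtain ⟨γ, hγ⟩ : ∃ γ : D, γ = h.h b (a + b) * (h.h (a + b) (a + b) / 2)⁻¹ := ⟨_, rfl⟩
  have hγ0 : γ ≠ 0 := by
    rw [hγ, h.add_right, hba, zero_add]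
    exact mul_ne_zero (h.self_ne_zero hb) (inv_ne_zero (div_ne_zero hab0 two_ne_zero))
  have h1b' : h.h (e₁ b) a = -(γ * h.h a a) := by
    rw [h1b, h.refl_apply, ← hγ, h.sub_left, h.smul_left, h.add_left, hba, add_zero, zero_sub]
  refine ⟨e₁, he₁, e₂, he₂, e₂ c, fun t ht => ?_⟩
  have h3 : (⁅e₁, e₂⁆ : (Fin m → D) ≃ₗ[D] (Fin m → D)) (e₂ c) = e₁ (e₂ c) := by
    have h5 : (e₂⁻¹ : (Fin m → D) ≃ₗ[D] (Fin m → D)) (e₂ c) = c := by
      rw [← LinearEquiv.mul_apply, inv_mul_cancel]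
      rfl
    have h6 : (e₁⁻¹ : (Fin m → D) ≃ₗ[D] (Fin m → D)) c = c := by
      conv_lhs => rw [← h1c]
      rw [← LinearEquiv.mul_apply, inv_mul_cancel]
      rfl
    rw [commutatorElement_def, LinearEquiv.mul_apply, LinearEquiv.mul_apply,
      LinearEquiv.mul_apply, h5, h6]
  rw [h3] at ht
  have h7 : h.h (e₂ c) a = 0 := by
    conv_lhs => rw [← h2a]
    rw [h.isom_apply hi2, hca]
  have h8 : h.h (e₁ (e₂ c)) a = β * (γ * h.h a a) := by
    rw [h2c', map_sub, map_smul, map_smul, h1c, h.sub_left, h.smul_left, h.smul_left, hca,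
      mul_zero, h1b', mul_neg, sub_neg_eq_add, zero_add]
  rw [ht, h.smul_left, h7, mul_zero] at h8
  exact mul_ne_zero hβ0 (mul_ne_zero hγ0 (h.self_ne_zero ha)) h8.symm

/-- Central elements preserve lines. -/
theorem lines_of_center [CharZero K] [CharZero D] [FiniteDimensional ℚ D] (hn : 0 < n)
    (hm : 3 ≤ m) (hH : IsAnisotropicForm H) {z : SU f H} (hz : z ∈ Subgroup.center (SU f H))
    (x : Fin m → D) : ∃ c : D, rp (z : (Matrix (Fin m) (Fin m) D)ˣ) x = c • x := by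
  by_cases hx : x = 0
  · exact ⟨0, by rw [hx, map_zero, zero_smul]⟩
  obtain ⟨h, hh⟩ : ∃ h : AForm D (Fin m → D), h = rowA H hH := ⟨_, rfl⟩
  obtain ⟨α, hα⟩ : ∃ α : D, α = h.h (rp (z : (Matrix (Fin m) (Fin m) D)ˣ) x) x * (h.h x x)⁻¹ :=
    ⟨_, rfl⟩
  obtain ⟨w, hw⟩ : ∃ w : Fin m → D, w = rp (z : (Matrix (Fin m) (Fin m) D)ˣ) x - α • x := ⟨_, rfl⟩
  have hwx : h.h w x = 0 := by
    rw [hw, h.sub_left, h.smul_left, hα, mul_assoc, inv_mul_cancel₀ (h.self_ne_zero hx), mul_one,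
      sub_self]
  have hxw := h.orth_symm hwx
  refine ⟨α, ?_⟩
  by_contra hne
  have hw0 : w ≠ 0 := by
    rw [hw]
    exact sub_ne_zero.mpr hne
  obtain ⟨e, he, hex, hew⟩ := htr (hH := hH) f hn hm ((rowA H hH).refl_mem w) x w
  rw [← hh, h.refl_apply_orth hxw] at hex
  rw [← hh, h.refl_self] at hew
  obtain ⟨g, hg, rfl⟩ := he
  have h1 := Subgroup.mem_center_iff.mp hz ⟨g, hg⟩
  have h2 : rp g (rp (z : (Matrix (Fin m) (Fin m) D)ˣ) x) =
      rp (z : (Matrix (Fin m) (Fin m) D)ˣ) (rp g x) := by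
    have h3 := congrArg (fun k : SU f H => rp (k : (Matrix (Fin m) (Fin m) D)ˣ) x) h1
    change rp (g * (z : (Matrix (Fin m) (Fin m) D)ˣ)) x =
      rp ((z : (Matrix (Fin m) (Fin m) D)ˣ) * g) x at h3
    rwa [map_mul, map_mul, LinearEquiv.mul_apply, LinearEquiv.mul_apply] at h3
  have h4 : rp (z : (Matrix (Fin m) (Fin m) D)ˣ) x = α • x + w := by rw [hw]; abel
  rw [hex, h4, map_add, map_smul, hex, hew] at h2
  have h5 : -w = w := add_left_cancel h2
  have h6 : (2 : D) • w = 0 := by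
    rw [two_smul]
    nth_rewrite 1 [← h5]
    exact neg_add_cancel w
  rcases smul_eq_zero.mp h6 with h7 | h7
  · exact two_ne_zero h7
  · exact hw0 h7

/-- **Quasisimplicity** from the dichotomy for normal subgroups. -/
theorem quasi_of_dich [CharZero K] [CharZero D] [FiniteDimensional ℚ D] (hn : 0 < n)
    (hm : 3 ≤ m) (hH : IsAnisotropicForm H)
    (h : ∀ N : Subgroup (SU f H), N.Normal → N ≤ Subgroup.center (SU f H) ∨ N = ⊤) :
    IsQuasisimple (SU f H) := by
  obtain ⟨_, ⟨g₁, hg₁, rfl⟩, _, ⟨g₂, hg₂, rfl⟩, v, hv⟩ := exists_comm_line f hn hm hH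
  refine quasi_of h (a := ⟨g₁, hg₁⟩) (b := ⟨g₂, hg₂⟩) fun hc => ?_
  obtain ⟨c, hcv⟩ := lines_of_center f hn hm hH hc v
  apply hv c
  rw [← hcv, ← map_commutatorElement]
  rfl

end

end Vale.Agent.P011.F3
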