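import Vale.Agent.P011.Two2.SigCancel
import Vale.Agent.P011.Two2.EvalPos
import Vale.Agent.P011.Two2.RealPre

/-!
Signatures at real places: the number of positive directions of a form of rank one.
-/

open Module Matrix Polynomial NumberField
open scoped ComplexOrder

set_option linter.unusedSectionVars false

namespace Vale.Agent.P011.F3

open Vale.Agent.P011S Vale.Agent.P011.RP Vale.Agent.P011.Three Vale.Agent.P011.Even
open Vale.Agent.P011.Two2

section basic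

variable {K D : Type} [Field K] [StarRing K] [DivisionRing D] [StarRing D] [Algebra K D]
  {n : ℕ}

/-- The matrix of signs. -/
noncomputable def sgn {ι : Type} [DecidableEq ι] (η : ι → ℤˣ) : Matrix ι ι ℂ :=
  Matrix.diagonal fun i => ((((η i : ℤˣ) : ℤ) : ℝ) : ℂ)

/-- The form of rank one defined by `c` has `m` positive directions at the place. -/
def HasSig (R : RData K D n) (c : D) (m : ℕ) : Prop :=
  ∃ (S : Matrix (Fin n) (Fin n) ℂ) (η : Fin n → ℤˣ), IsUnit S ∧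
    S * (R.f c * R.A) * Sᴴ = sgn η ∧ Fintype.card {i // η i = 1} = m

theorem hasSig_exists (R : RData K D n) {c : D} (hc : star c = c) (hc0 : c ≠ 0) :
    ∃ m, HasSig R c m := by
  obtain ⟨S, η, hS, h⟩ := exists_sign_diag (G := R.f c * R.A) (f_herm R hc)
    ((f_unit R hc0).mul R.unit)
  exact ⟨_, S, η, hS, h, rfl⟩

theorem HasSig.le {R : RData K D n} {c : D} {m : ℕ} (h : HasSig R c m) : m ≤ n := by
  obtain ⟨S, η, -, -, rfl⟩ := h
  have := Fintype.card_subtype_le fun i => η i = 1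
  rwa [Fintype.card_fin] at this

theorem HasSig.unique {R : RData K D n} {c : D} {m m' : ℕ} (h : HasSig R c m)
    (h' : HasSig R c m') : m = m' := by
  obtain ⟨S, η, hS, h1, rfl⟩ := h
  obtain ⟨S', η', hS', h1', rfl⟩ := h'
  exact le_antisymm (sylvester_le hS' h1' h1) (sylvester_le hS h1 h1')

theorem HasSig.congAt {R : RData K D n} {c e : D} {m : ℕ} (h : HasSig R c m)
    (h' : HasSig R e m) : R.CongAt c e := by
  obtain ⟨S, η, hS, h1, h2⟩ := h
  obtain ⟨S', η', hS', h1', h2'⟩ := h'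
  obtain ⟨σ, hσ⟩ := exists_perm (η := η) (η' := η') (by rw [h2, h2'])
  obtain ⟨Z, hZ, hZe⟩ := perm_cong hσ
  change Z * sgn η * Zᴴ = sgn η' at hZe
  rw [← h1, ← h1'] at hZe
  obtain ⟨V, hV1, hV2⟩ : ∃ V : Matrix (Fin n) (Fin n) ℂ, V * S' = 1 ∧ S' * V = 1 := by
    obtain ⟨U, rfl⟩ := hS'
    exact ⟨_, U.inv_mul, U.mul_inv⟩
  have hV3 : S'ᴴ * Vᴴ = 1 := by
    rw [← Matrix.conjTranspose_mul, hV1, Matrix.conjTranspose_one]
  have hVu : IsUnit V := ⟨⟨V, S', hV1, hV2⟩, rfl⟩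
  refine ⟨V * Z * S, (hVu.mul hZ).mul hS, ?_⟩
  rw [Matrix.conjTranspose_mul, Matrix.conjTranspose_mul]
  calc V * Z * S * (R.f c * R.A) * (Sᴴ * (Zᴴ * Vᴴ))
      = V * (Z * (S * (R.f c * R.A) * Sᴴ) * Zᴴ) * Vᴴ := by
        simp only [Matrix.mul_assoc]
    _ = (V * S') * (R.f e * R.A) * (S'ᴴ * Vᴴ) := by
        rw [hZe]; simp only [Matrix.mul_assoc]
    _ = _ := by rw [hV1, hV3, Matrix.one_mul, Matrix.mul_one]

theorem HasSig.of_cong {R : RData K D n} {c e : D} {m : ℕ} (h : HasSig R e m)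
    (h' : R.CongAt c e) : HasSig R c m := by
  obtain ⟨S, η, hS, h1, h2⟩ := h
  obtain ⟨Q, hQ, h3⟩ := h'
  refine ⟨S * Q, η, hS.mul hQ, ?_, h2⟩
  rw [Matrix.conjTranspose_mul, ← h1, ← h3]
  simp only [Matrix.mul_assoc]

/-- The signature of a matrix congruent to a real diagonal matrix. -/
theorem hasSig_of_diag (R : RData K D n) {c : D} {V : Matrix (Fin n) (Fin n) ℂ} (hV : IsUnit V)
    {ρ : Fin n → ℝ} (hρ : ∀ i, ρ i ≠ 0) (h : R.f c * R.A = V * rdiag ρ * Vᴴ) :
    HasSig R c (Fintype.card {i // 0 < ρ i}) := by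
  classical
  obtain ⟨W, hW1, hW2⟩ : ∃ W : Matrix (Fin n) (Fin n) ℂ, W * V = 1 ∧ V * W = 1 := by
    obtain ⟨U, rfl⟩ := hV
    exact ⟨_, U.inv_mul, U.mul_inv⟩
  have hW3 : Vᴴ * Wᴴ = 1 := by
    rw [← Matrix.conjTranspose_mul, hW1, Matrix.conjTranspose_one]
  have hWu : IsUnit W := ⟨⟨W, V, hW1, hW2⟩, rfl⟩
  obtain ⟨r, hr⟩ : ∃ r : Fin n → ℝ, ∀ i, r i = (Real.sqrt |ρ i|)⁻¹ := ⟨_, fun _ => rfl⟩
  have hr0 : ∀ i, r i ≠ 0 := fun i => by
    rw [hr]
    exact inv_ne_zero (Real.sqrt_pos.mpr (abs_pos.mpr (hρ i))).ne'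
  obtain ⟨η, hη⟩ : ∃ η : Fin n → ℤˣ, ∀ i, η i = if 0 < ρ i then 1 else -1 := ⟨_, fun _ => rfl⟩
  have hrr : ∀ i, r i * ρ i * r i = (((η i : ℤˣ) : ℤ) : ℝ) := by
    intro i
    have h3 : 0 < Real.sqrt |ρ i| := Real.sqrt_pos.mpr (abs_pos.mpr (hρ i))
    have h4 := Real.mul_self_sqrt (abs_nonneg (ρ i))
    have h5 : r i * ρ i * r i = ρ i / |ρ i| := by
      rw [← h4, hr]
      field_simp
    rw [h5, hη]
    split_ifs with h6
    · rw [abs_of_pos h6, div_self h6.ne']; simp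
    · have h7 : ρ i < 0 := lt_of_le_of_ne (not_lt.mp h6) (hρ i)
      rw [abs_of_neg h7, div_neg, div_self h7.ne]; simp
  refine ⟨rdiag r * W, η, (rdiag_unit hr0).mul hWu, ?_, ?_⟩
  · rw [Matrix.conjTranspose_mul, rdiag_herm, h]
    calc rdiag r * W * (V * rdiag ρ * Vᴴ) * (Wᴴ * rdiag r)
        = rdiag r * (W * V) * rdiag ρ * (Vᴴ * Wᴴ) * rdiag r := by simp only [Matrix.mul_assoc]
      _ = rdiag r * rdiag ρ * rdiag r := by
        rw [hW1, hW3, Matrix.mul_one, Matrix.mul_one]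
      _ = _ := by
        rw [rdiag_mul, rdiag_mul, rdiag, sgn]
        congr 1
        funext i
        rw [hrr]
  · refine Fintype.card_congr (Equiv.subtypeEquivRight fun i => ?_)
    rw [hη]
    by_cases h6 : 0 < ρ i
    · simp [h6]
    · rw [if_neg h6]
      constructor
      · intro h7
        exact absurd h7 (by decide)
      · intro h7
        exact absurd h7 h6

theorem hasSig_one {R : RData K D n} (hA : R.A.PosDef) : HasSig R 1 n := by
  classical
  obtain ⟨S, η, hS, h⟩ := exists_sign_diag (G := R.f (1 : D) * R.A) (f_herm R (star_one D))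
    (by rw [map_one, one_mul]; exact R.unit)
  have h1 : ∀ i, η i = 1 := by
    intro i
    have h2 : (S * (R.f (1 : D) * R.A) * Sᴴ).PosDef := by
      rw [map_one, one_mul]
      exact hA.mul_mul_conjTranspose_same (Matrix.vecMul_injective_of_isUnit hS)
    rw [h] at h2
    have h3 := h2.diag_pos (i := i)
    rw [Matrix.diagonal_apply_eq] at h3
    rcases Int.units_eq_one_or (η i) with h6 | h6
    · exact h6
    · rw [h6] at h3
      norm_num [Complex.lt_def] at h3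
  refine ⟨S, η, hS, h, ?_⟩
  have : {i // η i = 1} ≃ Fin n := Equiv.subtypeUnivEquiv h1
  rw [Fintype.card_congr this, Fintype.card_fin]

end basic

section sum

variable {K D : Type} [Field K] [NumberField K] [StarRing K] [DivisionRing D] [StarRing D]
  [Algebra K D] [StarModule K D] [FiniteDimensional K D] [Algebra.IsCentral K D] {n m : ℕ}

/-- Diagonalisation of a form at the real place. -/
theorem diag_fam (R : RData K D n) (H : Matrix (Fin m) (Fin m) D) {v : Fin m → Fin m → D}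
    (hv : ∀ a b, a ≠ b → rowH H (v a) (v b) = 0) {S : Fin m → Matrix (Fin n) (Fin n) ℂ}
    {η : Fin m → Fin n → ℤˣ}
    (hS : ∀ a, S a * (R.f (rowH H (v a) (v a)) * R.A) * (S a)ᴴ = sgn (η a)) :
    ∃ T : Matrix (Fin m × Fin n) (Fin m × Fin n) ℂ, IsUnit T ∧ T * R.Gam H * Tᴴ =
      Matrix.diagonal fun y => ((((η y.1 y.2 : ℤˣ) : ℤ) : ℝ) : ℂ) := by
  classical
  obtain ⟨T, hT⟩ : ∃ T : Matrix (Fin m × Fin n) (Fin m × Fin n) ℂ,
      T = Matrix.of fun y j => (S y.1 * U1 R (v y.1)) y.2 j := ⟨_, rfl⟩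
  have h1 : T * R.Gam H * Tᴴ = Matrix.diagonal fun y => ((((η y.1 y.2 : ℤˣ) : ℤ) : ℝ) : ℂ) := by
    ext ⟨a, p⟩ ⟨b, q⟩
    have h2 : (T * R.Gam H * Tᴴ) (a, p) (b, q) =
        ((S a * U1 R (v a)) * R.Gam H * (S b * U1 R (v b))ᴴ) p q := by
      rw [hT]
      rfl
    have h3 : (S a * U1 R (v a)) * R.Gam H * (S b * U1 R (v b))ᴴ =
        S a * (R.f (rowH H (v a) (v b)) * R.A) * (S b)ᴴ := by
      rw [← U1_gram, Matrix.conjTranspose_mul]
      simp only [Matrix.mul_assoc]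
    rw [h2, h3, Matrix.diagonal_apply]
    by_cases hab : a = b
    · subst hab
      rw [hS, sgn, Matrix.diagonal_apply]
      simp [Prod.ext_iff]
    · rw [hv a b hab, map_zero, zero_mul, Matrix.mul_zero, Matrix.zero_mul, if_neg]
      · rfl
      · intro h
        exact hab (Prod.ext_iff.mp h).1
  refine ⟨T, ?_, h1⟩
  rw [Matrix.isUnit_iff_isUnit_det, isUnit_iff_ne_zero]
  intro h2
  have h3 := congrArg Matrix.det h1
  rw [Matrix.det_mul, Matrix.det_mul, h2, zero_mul, zero_mul, Matrix.det_diagonal] at h3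
  have h4 : ∏ y : Fin m × Fin n, ((((η y.1 y.2 : ℤˣ) : ℤ) : ℝ) : ℂ) ≠ 0 :=
    Finset.prod_ne_zero_iff.mpr fun y _ => by
      rcases Int.units_eq_one_or (η y.1 y.2) with h6 | h6 <;> rw [h6] <;> simp
  exact h4 h3.symm

/-- The number of positive directions of an orthogonal basis. -/
theorem sig_sum (R : RData K D n) (H : Matrix (Fin m) (Fin m) D) {v v' : Fin m → Fin m → D}
    (hv : ∀ a b, a ≠ b → rowH H (v a) (v b) = 0)
    (hv' : ∀ a b, a ≠ b → rowH H (v' a) (v' b) = 0) {M M' : Fin m → ℕ}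
    (hM : ∀ a, HasSig R (rowH H (v a) (v a)) (M a))
    (hM' : ∀ a, HasSig R (rowH H (v' a) (v' a)) (M' a)) : ∑ a, M a = ∑ a, M' a := by
  classical
  choose S η hS hd hc using hM
  choose S' η' hS' hd' hc' using hM'
  obtain ⟨T, hT, hTe⟩ := diag_fam R H hv hd
  obtain ⟨T', hT', hTe'⟩ := diag_fam R H hv' hd'
  have hcard : ∀ ζ : Fin m → Fin n → ℤˣ,
      Fintype.card {y : Fin m × Fin n // ζ y.1 y.2 = 1} =
        ∑ a, Fintype.card {i // ζ a i = 1} := by
    intro ζ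
    simp only [Fintype.card_subtype, Finset.card_filter, Fintype.sum_prod_type]
  have h1 := sylvester_le (η := fun y : Fin m × Fin n => η y.1 y.2)
    (η' := fun y : Fin m × Fin n => η' y.1 y.2) hT hTe hTe'
  have h2 := sylvester_le (η' := fun y : Fin m × Fin n => η y.1 y.2)
    (η := fun y : Fin m × Fin n => η' y.1 y.2) hT' hTe' hTe
  rw [hcard, hcard] at h1 h2
  simp only [hc, hc'] at h1 h2
  omega

end sum

end Vale.Agent.P011.F3
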