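import Vale.Agent.P011.Two2.Omega
import Vale.Agent.P011.RP.Plane

/-!
Density of the vectors of given length of a hermitian form of arbitrary rank, simultaneously at
several places.
-/

open Filter NumberField

set_option linter.unusedSectionVars false

namespace Vale.Agent.P011.F3

open Vale.Agent.P011.Even
open Vale.Agent.P011.Two2 (CData CMod star_two_inv two_inv_comm)
open Vale.Agent.P011.RP (rowH)

variable {D : Type} [DivisionRing D] [StarRing D] {m : ℕ}

theorem row_sub_left (H : Matrix (Fin m) (Fin m) D) (x y z : Fin m → D) :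
    rowH H (x - y) z = rowH H x z - rowH H y z := by
  simp only [rowH, Pi.sub_apply, sub_mul, Finset.sum_sub_distrib]

theorem row_sub_right (H : Matrix (Fin m) (Fin m) D) (x y z : Fin m → D) :
    rowH H x (y - z) = rowH H x y - rowH H x z := by
  simp only [rowH, Pi.sub_apply, star_sub, mul_sub, Finset.sum_sub_distrib]

theorem row_smul_left (H : Matrix (Fin m) (Fin m) D) (a : D) (x y : Fin m → D) :
    rowH H (a • x) y = a * rowH H x y := by
  simp only [rowH, Pi.smul_apply, smul_eq_mul, mul_assoc, Finset.mul_sum]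

theorem row_smul_right (H : Matrix (Fin m) (Fin m) D) (a : D) (x y : Fin m → D) :
    rowH H x (a • y) = rowH H x y * star a := by
  simp only [rowH, Pi.smul_apply, smul_eq_mul, star_mul, ← mul_assoc, Finset.sum_mul]

theorem row_star {H : Matrix (Fin m) (Fin m) D} (hH : H.conjTranspose = H) (x y : Fin m → D) :
    star (rowH H x y) = rowH H y x := by
  have h1 : ∀ a b, star (H a b) = H b a := fun a b => by
    rw [← Matrix.conjTranspose_apply, hH]
  simp only [rowH, star_sum, star_mul, star_star, h1]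
  rw [Finset.sum_comm]
  simp only [mul_assoc]

/-- The form over a completion. -/
def HB (C : CData D) (H : Matrix (Fin m) (Fin m) D) (X Y : Fin m → C.E) : C.E :=
  ∑ a, ∑ b, X a * C.φ (H a b) * C.σ (Y b)

section hb

variable (C : CData D) (H : Matrix (Fin m) (Fin m) D)

theorem σ_zero : C.σ 0 = 0 := by simpa using C.σ_sub 0 0

theorem σ_neg (x : C.E) : C.σ (-x) = -C.σ x := by
  rw [← zero_sub, C.σ_sub, σ_zero, zero_sub]

theorem σ_add (x y : C.E) : C.σ (x + y) = C.σ x + C.σ y := by
  rw [← sub_neg_eq_add, C.σ_sub, σ_neg, sub_neg_eq_add]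

theorem σ_sum {ι : Type} (s : Finset ι) (f : ι → C.E) :
    C.σ (∑ i ∈ s, f i) = ∑ i ∈ s, C.σ (f i) := by
  classical
  induction s using Finset.induction_on with
  | empty => rw [Finset.sum_empty, Finset.sum_empty, σ_zero]
  | insert a s ha ih => rw [Finset.sum_insert ha, Finset.sum_insert ha, σ_add, ih]

theorem HB_sub_left (X Y Z : Fin m → C.E) : HB C H (X - Y) Z = HB C H X Z - HB C H Y Z := by
  simp only [HB, Pi.sub_apply, sub_mul, Finset.sum_sub_distrib]

theorem HB_sub_right (X Y Z : Fin m → C.E) : HB C H X (Y - Z) = HB C H X Y - HB C H X Z := by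
  simp only [HB, Pi.sub_apply, C.σ_sub, mul_sub, Finset.sum_sub_distrib]

theorem HB_add_left (X Y Z : Fin m → C.E) : HB C H (X + Y) Z = HB C H X Z + HB C H Y Z := by
  simp only [HB, Pi.add_apply, add_mul, Finset.sum_add_distrib]

theorem HB_smul_left (a : C.E) (X Y : Fin m → C.E) : HB C H (a • X) Y = a * HB C H X Y := by
  simp only [HB, Pi.smul_apply, smul_eq_mul, mul_assoc, Finset.mul_sum]

theorem HB_smul_right (a : C.E) (X Y : Fin m → C.E) :
    HB C H X (a • Y) = HB C H X Y * C.σ a := by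
  simp only [HB, Pi.smul_apply, smul_eq_mul, C.σ_mul, ← mul_assoc, Finset.sum_mul]

theorem HB_φ (x y : Fin m → D) : HB C H (fun i => C.φ (x i)) (fun i => C.φ (y i)) =
    C.φ (rowH H x y) := by
  simp only [HB, rowH, map_sum, map_mul, C.σ_φ]

variable {H}

theorem σ_HB (hH : H.conjTranspose = H) (X Y : Fin m → C.E) :
    C.σ (HB C H X Y) = HB C H Y X := by
  have h1 : ∀ a b, star (H a b) = H b a := fun a b => by
    rw [← Matrix.conjTranspose_apply, hH]
  simp only [HB, σ_sum, C.σ_mul, C.σ_σ, C.σ_φ, h1]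
  rw [Finset.sum_comm]
  simp only [mul_assoc]

variable (H)

theorem cv_sum {ι : Type} (s : Finset ι) {f : ι → ℕ → D} {F : ι → C.E}
    (h : ∀ i ∈ s, C.cv (f i) (F i)) : C.cv (fun j => ∑ i ∈ s, f i j) (∑ i ∈ s, F i) := by
  classical
  induction s using Finset.induction_on with
  | empty =>
    simp only [Finset.sum_empty]
    have := C.const 0
    rwa [map_zero] at this
  | insert a s ha ih =>
    simp only [Finset.sum_insert ha]
    exact C.add (h a (Finset.mem_insert_self a s))
      (ih fun i hi => h i (Finset.mem_insert_of_mem hi))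

/-- Convergence of vectors. -/
def cvV (x : ℕ → Fin m → D) (X : Fin m → C.E) : Prop := ∀ i, C.cv (fun j => x j i) (X i)

theorem cvV.form {x y : ℕ → Fin m → D} {X Y : Fin m → C.E} (hx : cvV C x X) (hy : cvV C y Y) :
    C.cv (fun j => rowH H (x j) (y j)) (HB C H X Y) :=
  cv_sum C _ fun a _ => cv_sum C _ fun b _ =>
    C.mul (C.mul (hx a) (C.const _)) (C.star' (hy b))

end hb

/-- The quasi-reflection formula. -/
theorem row_refl {H : Matrix (Fin m) (Fin m) D} (hH : H.conjTranspose = H) {z w : Fin m → D}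
    {κ : D} (hκ : κ ≠ 0) (h : κ + star κ = rowH H w w) :
    rowH H (z - (rowH H z w * κ⁻¹) • w) (z - (rowH H z w * κ⁻¹) • w) = rowH H z z := by
  obtain ⟨β, hβ⟩ : ∃ β, β = rowH H z w := ⟨_, rfl⟩
  have hβ' : rowH H w z = star β := by rw [hβ, row_star hH]
  have hκ' : star κ ≠ 0 := fun h5 => by
    apply hκ
    rw [← star_star κ, h5, star_zero]
  rw [row_sub_left, row_sub_right, row_sub_right, row_smul_left, row_smul_left, row_smul_right,
    row_smul_right, hβ', ← h, ← hβ]
  simp only [star_mul, star_inv₀]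
  have h2 : β * κ⁻¹ * ((κ + star κ) * ((star κ)⁻¹ * star β)) =
      β * (κ⁻¹ * κ) * ((star κ)⁻¹ * star β) + β * κ⁻¹ * (star κ * (star κ)⁻¹) * star β := by
    noncomm_ring
  rw [h2, inv_mul_cancel₀ hκ, mul_inv_cancel₀ hκ']
  noncomm_ring

/-- Density of the vectors of given length, under an invertibility assumption. -/
theorem sphere [CharZero D] {J : Type} (C : J → CData D)
    (hsim : ∀ X : ∀ p, (C p).E, ∃ x : ℕ → D, ∀ p, (C p).cv x (X p))
    {H : Matrix (Fin m) (Fin m) D} (hH : H.conjTranspose = H) {c : D} {z₀ : Fin m → D}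
    (hz₀ : rowH H z₀ z₀ = c) (Z : ∀ p, Fin m → (C p).E)
    (hZ : ∀ p, HB (C p) H (Z p) (Z p) = (C p).φ c) (Λ : ∀ p, (C p).E)
    (hΛ : ∀ p, ((C p).φ c - HB (C p) H (fun i => (C p).φ (z₀ i)) (Z p)) * Λ p = 1) :
    ∃ z : ℕ → Fin m → D, (∀ j, rowH H (z j) (z j) = c) ∧ ∀ p, cvV (C p) z (Z p) := by
  classical
  have hcs : star c = c := by rw [← hz₀, row_star hH]
  choose w' hw' using fun i => hsim fun p => (C p).φ (z₀ i) - Z p i
  obtain ⟨w, hw⟩ : ∃ w : ℕ → Fin m → D, ∀ j i, w j i = w' i j := ⟨fun j i => w' i j, fun _ _ => rfl⟩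
  have hwc : ∀ p, cvV (C p) w (fun i => (C p).φ (z₀ i) - Z p i) := fun p i => by
    simp only [hw]
    exact hw' i p
  obtain ⟨t, ht⟩ := hsim fun p =>
    (C p).φ c - HB (C p) H (fun i => (C p).φ (z₀ i)) (Z p)
  obtain ⟨κ, hκ⟩ : ∃ κ : ℕ → D, ∀ j, κ j =
    (2 : D)⁻¹ * (rowH H (w j) (w j) + (t j - star (t j))) := ⟨_, fun _ => rfl⟩
  have hκs : ∀ j, κ j + star (κ j) = rowH H (w j) (w j) := by
    intro j
    have h3 := row_star hH (w j) (w j)
    rw [hκ, star_mul, star_two_inv, two_inv_comm, ← mul_add, star_add, star_sub, star_star, h3]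
    have h5 : rowH H (w j) (w j) + (t j - star (t j)) +
        (rowH H (w j) (w j) + (star (t j) - t j)) = 2 * rowH H (w j) (w j) := by
      rw [two_mul]
      abel
    rw [h5, ← mul_assoc, inv_mul_cancel₀ two_ne_zero, one_mul]
  have hκc : ∀ p, (C p).cv κ
      ((C p).φ c - HB (C p) H (fun i => (C p).φ (z₀ i)) (Z p)) := by
    intro p
    obtain ⟨T, hT⟩ : ∃ T, T = (C p).φ c - HB (C p) H (fun i => (C p).φ (z₀ i)) (Z p) := ⟨_, rfl⟩
    have h1 := (C p).mul ((C p).const (2 : D)⁻¹) ((C p).add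
      (cvV.form (C p) H (hwc p) (hwc p)) ((C p).sub (ht p) ((C p).star' (ht p))))
    rw [← hT] at h1 ⊢
    have hσT : (C p).σ T = (C p).φ c - HB (C p) H (Z p) (fun i => (C p).φ (z₀ i)) := by
      rw [hT, (C p).σ_sub, (C p).σ_φ, hcs, σ_HB (C p) hH]
    have hWW : HB (C p) H (fun i => (C p).φ (z₀ i) - Z p i) (fun i => (C p).φ (z₀ i) - Z p i) =
        T + (C p).σ T := by
      rw [hσT, hT]
      have h3 : (fun i => (C p).φ (z₀ i) - Z p i) = (fun i => (C p).φ (z₀ i)) - Z p := rfl
      rw [h3, HB_sub_left, HB_sub_right, HB_sub_right, hZ, HB_φ, hz₀]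
      abel
    have h4 : (C p).φ (2 : D)⁻¹ * (HB (C p) H (fun i => (C p).φ (z₀ i) - Z p i)
        (fun i => (C p).φ (z₀ i) - Z p i) + (T - (C p).σ T)) = T := by
      rw [hWW]
      have h5 : T + (C p).σ T + (T - (C p).σ T) = (C p).φ 2 * T := by
        have h6 : (C p).φ 2 = 1 + 1 := by rw [← one_add_one_eq_two, map_add, map_one]
        rw [h6, add_mul, one_mul]
        abel
      rw [h5, ← mul_assoc, ← map_mul, inv_mul_cancel₀ two_ne_zero, map_one, one_mul]
    rw [h4] at h1
    exact (C p).congr h1 (Eventually.of_forall fun j => (hκ j).symm)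
  refine ⟨fun j => if κ j = 0 then z₀ else
    z₀ - (rowH H z₀ (w j) * (κ j)⁻¹) • w j, fun j => ?_, fun p => ?_⟩
  · dsimp only
    split_ifs with h
    · exact hz₀
    · rw [row_refl hH h (hκs j), hz₀]
  · have hκ0 : ∀ᶠ j in atTop, κ j ≠ 0 := by
      refine (C p).ne (hκc p) fun h => ?_
      have h1 := hΛ p
      rw [h, zero_mul] at h1
      exact zero_ne_one h1
    have h3 := (C p).inv (hκc p) (hΛ p) hκ0
    have h5 := cvV.form (C p) H (x := fun _ => z₀) (X := fun i => (C p).φ (z₀ i))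
      (fun i => (C p).const (z₀ i)) (hwc p)
    have h6 : HB (C p) H (fun i => (C p).φ (z₀ i)) (fun i => (C p).φ (z₀ i) - Z p i) =
        (C p).φ c - HB (C p) H (fun i => (C p).φ (z₀ i)) (Z p) := by
      have h3 : (fun i => (C p).φ (z₀ i) - Z p i) = (fun i => (C p).φ (z₀ i)) - Z p := rfl
      rw [h3, HB_sub_right, HB_φ, hz₀]
    rw [h6] at h5
    have h7 := (C p).mul h5 h3
    rw [hΛ p] at h7
    intro i
    have h8 := (C p).sub ((C p).const (z₀ i)) ((C p).mul h7 (hwc p i))
    rw [one_mul, sub_sub_cancel] at h8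
    refine (C p).congr h8 ?_
    filter_upwards [hκ0] with j hj
    rw [if_neg hj]
    rfl

/-- Density after a twist by a central element. -/
theorem sphere_twist [CharZero D] {J : Type} (C : J → CData D)
    (hsim : ∀ X : ∀ p, (C p).E, ∃ x : ℕ → D, ∀ p, (C p).cv x (X p))
    {H : Matrix (Fin m) (Fin m) D} (hH : H.conjTranspose = H) {c : D} {z₀ : Fin m → D}
    (hz₀ : rowH H z₀ z₀ = c)
    {w : D} (hww : w * star w = 1) (hww' : star w * w = 1) (hcw : ∀ x, w * x = x * w)
    (Z : ∀ p, Fin m → (C p).E) (hZ : ∀ p, HB (C p) H (Z p) (Z p) = (C p).φ c)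
    (hinv : ∀ p, IsUnit ((C p).φ (c * w) - HB (C p) H (fun i => (C p).φ (z₀ i)) (Z p))) :
    ∃ z : ℕ → Fin m → D, (∀ j, rowH H (z j) (z j) = c) ∧ ∀ p, cvV (C p) z (Z p) := by
  have hcw' : ∀ x, star w * x = x * star w := by
    intro x
    have h1 := congrArg star (hcw (star x))
    rw [star_mul, star_mul, star_star] at h1
    exact h1.symm
  choose u hu using hinv
  obtain ⟨z, hz, hz'⟩ := sphere C hsim hH hz₀ (fun p => (C p).φ w • Z p) (fun p => by
      rw [HB_smul_left, HB_smul_right, hZ, (C p).σ_φ, ← map_mul, ← map_mul, ← mul_assoc, hcw,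
        mul_assoc, hww, mul_one])
    (fun p => (C p).φ w * (((u p)⁻¹ : ((C p).E)ˣ) : (C p).E)) (fun p => by
      have h1 : (C p).φ c - HB (C p) H (fun i => (C p).φ (z₀ i)) ((C p).φ w • Z p) =
          ((C p).φ (c * w) - HB (C p) H (fun i => (C p).φ (z₀ i)) (Z p)) *
            (C p).φ (star w) := by
        rw [HB_smul_right, (C p).σ_φ, sub_mul, ← map_mul, mul_assoc c, hww, mul_one]
      rw [h1, mul_assoc, ← mul_assoc ((C p).φ (star w)), ← map_mul, hww', map_one, one_mul,
        ← hu p, Units.mul_inv])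
  refine ⟨fun j => star w • z j, fun j => ?_, fun p i => ?_⟩
  · rw [row_smul_left, row_smul_right, hz, star_star, ← mul_assoc, hcw', mul_assoc, hww', mul_one]
  · have h1 := (C p).mul ((C p).const (star w)) (hz' p i)
    rw [Pi.smul_apply, smul_eq_mul, ← mul_assoc, ← map_mul, hww', map_one, one_mul] at h1
    exact h1

section model

variable {k K : Type} [Field k] [NumberField k] [Field K] [StarRing K]
  [Algebra k K] [Algebra k D] [Algebra K D] [IsScalarTower k K D]
  {d : kˣ} {s : K}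

/-- **Density of the vectors of given length**, at several places simultaneously. -/
theorem sphere_dense (hS : Setting k K D d s) {n : ℕ} (hn : 0 < n) {J : Type} [Finite J]
    (C : J → CData D) (M : ∀ p, CMod k s (C p) n)
    (hsim : ∀ X : ∀ p, (C p).E, ∃ x : ℕ → D, ∀ p, (C p).cv x (X p))
    {H : Matrix (Fin m) (Fin m) D} (hH : H.conjTranspose = H) {c : D} (hc : c ≠ 0)
    {z₀ : Fin m → D} (hz₀ : rowH H z₀ z₀ = c)
    (Z : ∀ p, Fin m → (C p).E) (hZ : ∀ p, HB (C p) H (Z p) (Z p) = (C p).φ c) :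
    ∃ z : ℕ → Fin m → D, (∀ j, rowH H (z j) (z j) = c) ∧ ∀ p, cvV (C p) z (Z p) := by
  have : CharZero D := charZero_of_injective_algebraMap (algebraMap k D).injective
  have hne : ∀ x : k, algebraMap k K x - s ≠ 0 := by
    intro x h
    apply hS.ns
    refine ⟨x, (algebraMap k K).injective ?_⟩
    rw [← hS.sq, ← sub_eq_zero.mp h, map_mul, sq]
  have hne2 : ∀ x : k, algebraMap k K x + s ≠ 0 := by
    intro x h
    have h1 := congrArg star h
    rw [star_add, (hS.fix _).mpr ⟨x, rfl⟩, hS.star_s, star_zero, ← sub_eq_add_neg] at h1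
    exact hne x h1
  obtain ⟨x, hx⟩ : ∃ x : k, ∀ p, IsUnit ((C p).φ (c * algebraMap K D
      ((algebraMap k K x + s) * (algebraMap k K x - s)⁻¹)) -
      HB (C p) H (fun i => (C p).φ (z₀ i)) (Z p)) := by
    have h1 := Set.finite_iUnion fun p => (M p).bad hS hn hc
      (HB (C p) H (fun i => (C p).φ (z₀ i)) (Z p))
    obtain ⟨x, -, hx⟩ := (Set.infinite_univ (α := k)).sdiff h1 |>.nonempty
    refine ⟨x, fun p => ?_⟩
    by_contra hcon
    exact hx (Set.mem_iUnion.mpr ⟨p, hcon⟩)
  have hst : star (algebraMap k K x + s) = algebraMap k K x - s := by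
    rw [star_add, (hS.fix _).mpr ⟨x, rfl⟩, hS.star_s, ← sub_eq_add_neg]
  have hst' : star (algebraMap k K x - s) = algebraMap k K x + s := by
    rw [← hst, star_star]
  have hw : ((algebraMap k K x + s) * (algebraMap k K x - s)⁻¹) *
      star ((algebraMap k K x + s) * (algebraMap k K x - s)⁻¹) = 1 := by
    rw [star_mul', star_inv₀, hst, hst']
    have h1 := hne x
    have h2 := hne2 x
    field_simp
  have halg : ∀ y : K, star (algebraMap K D y) = algebraMap K D (star y) := by
    intro y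
    rw [Algebra.algebraMap_eq_smul_one, hS.star_smul, star_one, ← Algebra.algebraMap_eq_smul_one]
  refine sphere_twist C hsim hH hz₀
    (w := algebraMap K D ((algebraMap k K x + s) * (algebraMap k K x - s)⁻¹)) ?_ ?_
    (fun y => Algebra.commutes _ y) Z hZ hx
  · rw [halg, ← map_mul, hw, map_one]
  · rw [halg, ← map_mul, mul_comm, hw, map_one]

end model

end Vale.Agent.P011.F3
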