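import Vale.Agent.P011.Two2.StepB

/-!
The commuting step: for `s₀`, `s₁` in a symmetric subfield of maximal degree, `s₁` is the sum of
`μ s₀⁻¹ μ*`, where `μ + μ* = 1 - s₀`, and of a value of a given form of rank one, under local
conditions at finitely many places.
-/

open Module Matrix Polynomial NumberField IsDedekindDomain
open Vale.Agent.P011.RP (RData HasR1 HasR2 Complete)

namespace Vale.Agent.P011.F3

open Vale.Agent.P011.Arith Vale.Agent.P011.Even Vale.Agent.P011.Two Vale.Agent.P011.Two2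

variable {k K D : Type} [Field k] [NumberField k] [Field K] [NumberField K] [StarRing K]
    [DivisionRing D] [StarRing D] [Algebra k K] [Algebra k D] [Algebra K D] [IsScalarTower k K D]
    {d : kˣ} {s : K} {n : ℕ}

/-- The polynomial which describes the obstruction of the commuting step. -/
noncomputable def TT {k : Type} [Field k] (p₀ p₁ : k[X]) : k[X] :=
  C (4⁻¹ : k) * (1 - p₀) ^ 2 - p₀ * p₁

/-- The commuting step. -/
theorem cs_step (hS : Setting k K D d s) (hn : 2 ≤ n) (hdeg : finrank K D = n ^ 2)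
    {Ω : Type} [Field Ω] [Algebra K Ω] (f : D →ₐ[K] Matrix (Fin n) (Fin n) Ω)
    {ι : Type} [Fintype ι] {R : ι → RData K D n} (hc : Complete R)
    {x c : D} (hx : star x = x) (hli : LinearIndependent k (fun i : Fin n => x ^ (i : ℕ)))
    (hcs : star c = c) (hc0 : c ≠ 0) {p₀ p₁ q : k[X]} (h0 : aeval x p₀ ≠ 0)
    (hq0 : aeval x q ≠ 0) (hT0 : aeval x (TT p₀ p₁) ≠ 0)
    {ν₀ νc a : kˣ} (hν₀ : (f (aeval x p₀)).det = algebraMap K Ω (algebraMap k K ν₀))
    (hνc : (f c).det = algebraMap K Ω (algebraMap k K νc)) (ha : ν₀ * νc * ((-1) ^ n * a) ∈ NF d)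
    {V : Set (HeightOneSpectrum (𝓞 k))} (hV : Ctrl d a V)
    (hfin : ∀ v ∈ V, ∀ (E : Type) [Field E] [NumberField E] [Algebra k E] (θ : E),
      finrank k E = n → (minpoly k θ).natDegree = n → aeval x (minpoly k θ) = 0 →
      TotSplit E v ∧ ∃ w : HeightOneSpectrum (𝓞 E), Ab w v ∧
        ∀ u : Eˣ, (u : E) = aeval θ (TT p₀ p₁) → u ∉ LS (w.valuation E))
    (hreal : ∀ φ : k →+* ℝ, φ d < 0 → ∃ ρ : Fin n → ℝ, Function.Injective ρ ∧
      (minpoly k x).map φ = ∏ i, (X - C (ρ i)) ∧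
      ∀ i, 0 < ((q * p₀).map φ).eval (ρ i) → ((TT p₀ p₁).map φ).eval (ρ i) < 0)
    (hcong : ∀ i, (R i).CongAt c (aeval x q)) :
    ∃ μ t : D, t ≠ 0 ∧ μ + star μ = 1 - aeval x p₀ ∧
      aeval x p₁ = μ * (aeval x p₀)⁻¹ * star μ + t * c * star t := by
  classical
  have hn0 : 0 < n := by omega
  have := hS.fin
  have := hS.cen
  have hfk := hS.fin_k
  have hSM : StarModule K D := ⟨hS.star_smul⟩
  have hchar : CharZero D := charZero_of_injective_algebraMap (algebraMap K D).injective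
  have hK : ∃ x : K, star x ≠ x := by
    refine ⟨s, fun h => ?_⟩
    rw [hS.star_s] at h
    have h1 : (2 : K) * s = 0 := by linear_combination -h
    exact (mul_ne_zero two_ne_zero hS.s_ne) h1
  have hR1 : HasR1 K D n := hasR1 hK hn0 hdeg
  have h10 : (1 : D) ≠ 0 := one_ne_zero
  have hz : star x = 1 * x * (1 : D)⁻¹ := by rw [hx, one_mul, inv_one, mul_one]
  -- reduced norms
  obtain ⟨f0⟩ := Vale.Agent.P011S.exists_split (K := K) (D := D) hdeg (AlgebraicClosure K)
  have hν₀0 := det_compare hn0 hdeg f f0 (aeval x p₀) hν₀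
  have hνc0 := det_compare hn0 hdeg f f0 c hνc
  -- the field
  obtain ⟨E, _, _, _, j, g, hjg, hgen⟩ := exists_gen (Module.finBasis k D) x
  obtain ⟨hmn, hmK⟩ := minpoly_map hS hn0 hdeg f0 h10 hz hli
  have hjinj : Function.Injective j := j.toRingHom.injective
  have hjp : ∀ p : k[X], j (aeval g p) = aeval x p := by
    intro p
    rw [← Polynomial.aeval_algHom_apply, hjg]
  have hgmin : minpoly k g = minpoly k x := by rw [← hjg, minpoly.algHom_eq j hjinj g]
  have hfinE : FiniteDimensional k E := Module.Finite.of_injective j.toLinearMap hjinj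
  have hE : finrank k E = n := by
    have h1 : IntermediateField.adjoin k {g} = ⊤ := by
      rw [eq_top_iff]
      intro l _
      obtain ⟨p, rfl⟩ := hgen l
      exact IntermediateField.algebra_adjoin_le_adjoin k {g} (by
        rw [Algebra.adjoin_singleton_eq_range_aeval]
        exact ⟨p, rfl⟩)
    have h2 : finrank k (IntermediateField.adjoin k {g}) = (minpoly k g).natDegree :=
      IntermediateField.adjoin.finrank (Algebra.IsIntegral.isIntegral g)
    rw [h1, IntermediateField.finrank_top', hgmin, hmn] at h2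
    exact h2
  have hstarj : ∀ y : E, star (j y) = j y := by
    intro y
    obtain ⟨p, rfl⟩ := hgen y
    rw [hjp]
    have h1 := star_aeval' hS h10 hz p
    rw [one_mul, inv_one, mul_one] at h1
    exact h1
  -- the central element
  obtain ⟨S, hSdef⟩ : ∃ S, S = algebraMap K D s := ⟨_, rfl⟩
  have hSc : ∀ x : D, S * x = x * S := fun x => by rw [hSdef]; exact Algebra.commutes s x
  have hSs : star S = -S := by rw [hSdef]; exact star_S hS
  have hSS : S * S = algebraMap k D d := by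
    rw [hSdef, ← map_mul, ← pow_two, hS.sq, ← IsScalarTower.algebraMap_apply]
  have hS0 : S ≠ 0 := by
    rw [hSdef]
    exact (_root_.map_ne_zero (algebraMap K D)).mpr hS.s_ne
  have hD2 : (2 : D) ≠ 0 := two_ne_zero
  have hSne : S ≠ -S := by
    intro h
    apply hS0
    have h1 : (2 : D) * S = 0 := by rw [two_mul]; nth_rewrite 1 [h]; exact neg_add_cancel S
    exact (mul_eq_zero.mp h1).resolve_left hD2
  have hdE : ¬ IsSquare (algebraMap k E (d : k)) := by
    rintro ⟨r', hr'⟩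
    have h1 : (j r' - S) * (j r' + S) = 0 := by
      have h2 : j r' * j r' = S * S := by
        rw [← map_mul, ← hr', AlgHom.commutes, hSS]
      rw [sub_mul, mul_add, mul_add, h2, hSc (j r')]
      abel
    rcases mul_eq_zero.mp h1 with h | h
    · have h3 := hstarj r'
      rw [sub_eq_zero.mp h, hSs] at h3
      exact hSne h3.symm
    · have h3 := hstarj r'
      rw [eq_neg_of_add_eq_zero_left h, star_neg, hSs, neg_neg] at h3
      exact hSne h3
  have hroots : ∀ φ : k →+* ℝ, φ d < 0 → ∃ ρ : Fin n → ℝ, Function.Injective ρ ∧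
      (minpoly k x).map φ = ∏ i, (X - C (ρ i)) := fun φ hφ => by
    obtain ⟨ρ, h1, h2, -⟩ := hreal φ hφ
    exact ⟨ρ, h1, h2⟩
  have hpsi : ∀ (φ : k →+* ℝ) (ρ : Fin n → ℝ), (minpoly k x).map φ = ∏ i, (X - C (ρ i)) →
      ∀ i, ∃ ψ : E →+* ℝ, ψ.comp (algebraMap k E) = φ ∧
        ∀ p : k[X], ψ (aeval g p) = p.eval₂ φ (ρ i) := by
    intro φ ρ hρ i
    apply exists_psi_root hgen
    rw [hgmin, ← Polynomial.eval_map, hρ, eval_prod]
    apply Finset.prod_eq_zero (Finset.mem_univ i)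
    rw [eval_sub, eval_X, eval_C, sub_self]
  have hrealE : ∀ φ : k →+* ℝ, φ d < 0 → ∃ ψ : E →+* ℝ, ψ.comp (algebraMap k E) = φ := by
    intro φ hφ
    obtain ⟨ρ, -, hρ⟩ := hroots φ hφ
    obtain ⟨ψ, hψ, -⟩ := hpsi φ ρ hρ ⟨0, hn0⟩
    exact ⟨ψ, hψ⟩
  have hplaces : ∀ v : HeightOneSpectrum (𝓞 k), ∃ w : HeightOneSpectrum (𝓞 E), Ab w v ∧
      (v ∈ V → ∀ u : Eˣ, (u : E) = aeval g (TT p₀ p₁) → u ∉ LS (w.valuation E)) := by
    intro v
    by_cases hv : v ∈ V
    · obtain ⟨w, hw1, hw2⟩ := (hfin v hv E g hE (by rw [hgmin]; exact hmn)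
        (by rw [hgmin]; exact minpoly.aeval k x)).2
      exact ⟨w, hw1, fun _ => hw2⟩
    · obtain ⟨w, hw⟩ := exists_above (E := E) v
      exact ⟨w, hw, fun h => absurd h hv⟩
  choose ab hab hab2 using hplaces
  have hsplit : ∀ v ∈ V, TotSplit E v := fun v hv =>
    (hfin v hv E g hE (by rw [hgmin]; exact hmn) (by rw [hgmin]; exact minpoly.aeval k x)).1
  -- nonzero elements of the field
  have hne : ∀ p : k[X], aeval x p ≠ 0 → aeval g p ≠ 0 := by
    intro p hp h
    apply hp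
    rw [← hjp, h, map_zero]
  have hg0 := hne _ h0
  have hgq := hne _ hq0
  have hgT := hne _ hT0
  have hnorm : ∀ y : E, (f0 (j y)).det =
      algebraMap K (AlgebraicClosure K) (algebraMap k K (Algebra.norm k y)) := by
    intro y
    obtain ⟨p, rfl⟩ := hgen y
    rw [hjp]
    exact det_sub hS hn0 hdeg f0 h10 hz hli hE hgmin p
  have hkinj : ∀ x y : k, algebraMap K (AlgebraicClosure K) (algebraMap k K x) =
      algebraMap K (AlgebraicClosure K) (algebraMap k K y) → x = y := fun x y h =>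
    (algebraMap k K).injective ((algebraMap K (AlgebraicClosure K)).injective h)
  have hNν : Algebra.norm k (aeval g p₀) = ν₀ := by
    apply hkinj
    rw [← hnorm, hjp, hν₀0]
  have hNq0 : Algebra.norm k (aeval g q) ≠ 0 := Algebra.norm_ne_zero_iff.mpr hgq
  have hN1 : Algebra.norm k (-1 : E) = (-1) ^ n := by
    rw [show (-1 : E) = algebraMap k E (-1) by rw [map_neg, map_one], Algebra.norm_algebraMap, hE]
  -- the element with prescribed signs
  obtain ⟨sg, hsg⟩ : ∃ sg : E, sg = -(aeval g q * aeval g p₀) := ⟨_, rfl⟩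
  have hsg0 : sg ≠ 0 := by rw [hsg]; exact neg_ne_zero.mpr (mul_ne_zero hgq hg0)
  obtain ⟨al, halN, halb, hals⟩ := pnc_ab (E := E) hdE hV hsplit hrealE ab hab
    (Units.mk0 sg hsg0) (fun φ hφ => by
      obtain ⟨i, hi⟩ := exists_index hS hn0 hdeg hc hφ
      have h1 := nrd_pos hS hn0 hdeg f0 (R i) hi (hcong i) hνc0 (ν' := Units.mk0 _ hNq0) (by
        rw [← hjp, hnorm]; rfl)
      have h2 : 0 < φ ((ν₀ * νc * ((-1) ^ n * a) : kˣ) : k) := mem_LSR.mp (NF_le_LSR hφ ha)
      rw [Units.val_mul, Units.val_mul, Units.val_mul, Units.val_pow_eq_pow_val, Units.val_neg,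
        Units.val_one, map_mul, map_mul, map_mul, map_pow, map_neg, map_one] at h2
      rw [Units.val_mk0] at h1
      have hNsg : Algebra.norm k sg = (-1) ^ n * (Algebra.norm k (aeval g q) * ν₀) := by
        rw [hsg, neg_eq_neg_one_mul, map_mul, map_mul, hNν, hN1]
      rw [Units.val_mk0, hNsg, map_mul, map_mul, map_pow, map_neg, map_one]
      have h3 : (φ (Algebra.norm k (aeval g q)) * φ (νc : k)) *
          ((-1) ^ n * (φ (Algebra.norm k (aeval g q)) * φ (ν₀ : k)) * φ (a : k)) =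
          (φ (Algebra.norm k (aeval g q))) ^ 2 *
            (φ (ν₀ : k) * φ (νc : k) * ((-1) ^ n * φ (a : k))) := by ring
      have h4 : 0 < (φ (Algebra.norm k (aeval g q))) ^ 2 := by
        have : φ (Algebra.norm k (aeval g q)) ≠ 0 := (_root_.map_ne_zero φ).mpr hNq0
        positivity
      have h5 := mul_pos h4 h2
      rw [← h3] at h5
      exact (mul_pos_iff_of_pos_left h1).mp h5)
  rw [Units.val_mk0] at hals
  obtain ⟨y, p, r, hth, hN0⟩ := ternary (F := E) (a := inc k E d) hdE al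
    (Units.mk0 (aeval g (TT p₀ p₁)) hgT) (fun w hw => by
      obtain ⟨v, hv, rfl⟩ := halb w hw
      exact hab2 v hv _ rfl)
    (fun ψ hψ hal => by
      have hψd : ψ (algebraMap k E d) < 0 := hψ
      obtain ⟨φ, hφd⟩ : ∃ φ : k →+* ℝ, φ = ψ.comp (algebraMap k E) := ⟨_, rfl⟩
      have hφ0 : φ d < 0 := by rw [hφd]; exact hψd
      obtain ⟨ρ, -, hρ, hρ2⟩ := hreal φ hφ0
      have hev : ∀ p : k[X], (p.map φ).eval (ψ g) = ψ (aeval g p) := by
        intro p
        rw [eval_map, hφd, Polynomial.aeval_def, Polynomial.hom_eval₂]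
      obtain ⟨i, hi⟩ : ∃ i, ψ g = ρ i := by
        have h1 : ((minpoly k x).map φ).eval (ψ g) = 0 := by
          rw [hev, ← hgmin, minpoly.aeval, map_zero]
        rw [hρ, eval_prod, Finset.prod_eq_zero_iff] at h1
        obtain ⟨i, -, hi⟩ := h1
        refine ⟨i, ?_⟩
        rw [eval_sub, eval_X, eval_C] at hi
        exact sub_eq_zero.mp hi
      have h1 := hals ψ hψd
      rw [Units.val_mk0, ← hev, hi]
      apply hρ2
      rw [← hi, hev, map_mul, map_mul]
      rw [hsg, map_neg, map_mul] at h1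
      by_contra hcon
      rw [not_lt] at hcon
      have := mul_nonpos_of_nonpos_of_nonneg hal.le (neg_nonneg.mpr hcon)
      linarith)
  rw [Units.val_mk0] at hth
  have hincd : ((inc k E d : Eˣ) : E) = algebraMap k E d := rfl
  rw [hincd] at hth hN0
  obtain ⟨Nq, hNq⟩ : ∃ Nq : Eˣ, (Nq : E) = p ^ 2 - algebraMap k E d * r ^ 2 :=
    ⟨Units.mk0 _ hN0, rfl⟩
  have hNqN : Nq ∈ NF (inc k E d) := ⟨p, r, hNq⟩
  obtain ⟨γ, hγ⟩ : ∃ γ : Eˣ, γ = -((Units.mk0 _ hg0)⁻¹ * al * Nq) := ⟨_, rfl⟩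
  have hγE : (γ : E) = (aeval g p₀)⁻¹ * (algebraMap k E d * y ^ 2 - aeval g (TT p₀ p₁)) := by
    rw [hγ, hth, Units.val_neg, Units.val_mul, Units.val_mul, Units.val_inv_eq_inv_val,
      Units.val_mk0, hNq]
    ring
  -- the element
  obtain ⟨μ, hμ⟩ : ∃ μ, μ = j (2⁻¹ * (1 - aeval g p₀)) + j y * S := ⟨_, rfl⟩
  have hsμ : star μ = j (2⁻¹ * (1 - aeval g p₀)) - j y * S := by
    rw [hμ, star_add, star_mul, hSs, hstarj, hstarj, neg_mul, hSc, ← sub_eq_add_neg]
  have hjc : ∀ x y : E, j x * j y = j y * j x := fun x y => by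
    rw [← map_mul, mul_comm, map_mul]
  have hE2 : (2 : E) ≠ 0 := two_ne_zero
  have hsum : μ + star μ = 1 - aeval x p₀ := by
    rw [hsμ, hμ, add_add_sub_cancel, ← map_add, ← add_mul, show (2 : E)⁻¹ + 2⁻¹ = 1 by
      rw [← two_mul, mul_inv_cancel₀ hE2], one_mul, map_sub, map_one, hjp]
  have hval : aeval x p₁ - μ * (aeval x p₀)⁻¹ * star μ = j (γ : E) := by
    have h1 : μ * (aeval x p₀)⁻¹ * star μ =
        j ((aeval g p₀)⁻¹ * ((2⁻¹ * (1 - aeval g p₀)) ^ 2 - algebraMap k E d * y ^ 2)) := by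
      rw [hsμ, hμ, ← hjp, ← map_inv₀]
      obtain ⟨u, hu⟩ : ∃ u, u = 2⁻¹ * (1 - aeval g p₀) := ⟨_, rfl⟩
      obtain ⟨w, hw⟩ : ∃ w, w = (aeval g p₀)⁻¹ := ⟨_, rfl⟩
      rw [← hu, ← hw]
      have h4 : j y * S * j w * (j y * S) = j (w * (algebraMap k E d * y ^ 2)) := by
        rw [map_mul, map_mul, AlgHom.commutes, ← hSS, pow_two, map_mul]
        calc j y * S * j w * (j y * S) = j y * (S * j w) * (j y * S) := by simp only [mul_assoc]
          _ = (j y * j w) * ((S * j y) * S) := by rw [hSc (j w)]; simp only [mul_assoc]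
          _ = j w * (j y * ((j y * S) * S)) := by rw [hjc y w, hSc (j y)]; simp only [mul_assoc]
          _ = j w * ((j y * j y) * (S * S)) := by simp only [mul_assoc]
          _ = j w * (S * S * (j y * j y)) := by rw [hSS, Algebra.commutes]
      have h5 : j y * S * j w * j u = j u * j w * (j y * S) := by
        calc j y * S * j w * j u = j y * (S * j w) * j u := by simp only [mul_assoc]
          _ = j y * j w * (S * j u) := by rw [hSc (j w)]; simp only [mul_assoc]
          _ = (j y * j w) * j u * S := by rw [hSc (j u)]; simp only [mul_assoc]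
          _ = j u * (j w * j y) * S := by
              rw [hjc y w, ← map_mul j w y, hjc (w * y) u]
          _ = _ := by simp only [mul_assoc]
      rw [add_mul, add_mul, mul_sub, mul_sub, h4, h5, ← map_mul, ← map_mul]
      rw [show u * w * u = w * u ^ 2 by ring, mul_sub, map_sub]
      abel
    rw [h1, ← hjp, ← map_sub, hγE]
    congr 1
    have h2 : aeval g (TT p₀ p₁) = 4⁻¹ * (1 - aeval g p₀) ^ 2 - aeval g p₀ * aeval g p₁ := by
      rw [TT, map_sub, map_mul, map_mul, map_pow, map_sub, map_one, aeval_C, map_inv₀,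
        map_ofNat]
    rw [h2]
    field_simp
    ring
  -- comparison with `c`
  have hγ0 : j (γ : E) ≠ 0 := (_root_.map_ne_zero j).mpr γ.ne_zero
  have hcong' : ∀ R' : RData K D n, R'.CongAt c (j (γ : E)) := by
    intro R'
    obtain ⟨φ, hφ, hφd⟩ := exists_phi hS R'
    obtain ⟨ρ, hρi, hρ⟩ := hroots φ hφd
    have hcR : R'.CongAt c (aeval x q) :=
      Vale.Agent.P011.RP.of_family hn0 hdeg hc hcong R'
    refine cong_trans hcR (cong_symm ?_)
    -- `γ = q * (γ / q)`
    obtain ⟨P, hP⟩ := hgen ((γ : E) * (aeval g q)⁻¹)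
    have e1 : j (γ : E) = aeval x q * aeval x P := by
      rw [← hjp, ← hjp, ← hP, ← map_mul, mul_comm (aeval g q), inv_mul_cancel_right₀ hgq]
    rw [e1]
    have hxq : star (aeval x q) = aeval x q := by rw [← hjp, hstarj]
    refine cong_mul R' hφ hxq hq0 (z := x) ?_ (minpoly.aeval k x) hρi hρ (fun i => ?_) ?_
    · have h1 : aeval x q * x = x * aeval x q := by
        have h2 := hjc (aeval g q) g
        rwa [hjp, hjg] at h2
      rw [h1, mul_inv_cancel_right₀ hq0, hx]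
    · obtain ⟨ψ, hψ, hψp⟩ := hpsi φ ρ hρ i
      rw [eval_map, ← hψp, ← hP]
      have h1 : ψ (algebraMap k E d) < 0 := by
        have h2 : ψ (algebraMap k E d) = φ d := RingHom.congr_fun hψ _
        rw [h2]
        exact hφd
      have h2 := hals ψ h1
      have h3 : 0 < ψ (Nq : E) := mem_LSR.mp (NF_le_LSR (a := inc k E d) h1 hNqN)
      have h4 : ψ (aeval g q) ≠ 0 := (_root_.map_ne_zero ψ).mpr hgq
      have h5 : ψ (aeval g p₀) ≠ 0 := (_root_.map_ne_zero ψ).mpr hg0
      rw [hγ, Units.val_neg, Units.val_mul, Units.val_mul, Units.val_inv_eq_inv_val,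
        Units.val_mk0, map_mul, map_neg, map_mul, map_mul, map_inv₀, map_inv₀]
      rw [hsg, map_neg, map_mul] at h2
      have h6 : -((ψ (aeval g p₀))⁻¹ * ψ (al : E) * ψ (Nq : E)) * (ψ (aeval g q))⁻¹ =
          (ψ (al : E) * -(ψ (aeval g q) * ψ (aeval g p₀))) * ψ (Nq : E) *
            ((ψ (aeval g q))⁻¹ ^ 2 * (ψ (aeval g p₀))⁻¹ ^ 2) := by
        field_simp
      rw [h6]
      have h7 : 0 < (ψ (aeval g q))⁻¹ ^ 2 * (ψ (aeval g p₀))⁻¹ ^ 2 := by positivity
      exact mul_pos (mul_pos h2 h3) h7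
    · rw [← hjp, ← hP]
      exact (_root_.map_ne_zero j).mpr (mul_ne_zero γ.ne_zero (inv_ne_zero hgq))
  obtain ⟨z', hz'0, hz'⟩ := exists_normK hS νc (ν₀⁻¹ * ((-1) ^ n * nrm k E al) * nrm k E Nq) (by
    have h1 : ν₀⁻¹ * ((-1) ^ n * nrm k E al) * nrm k E Nq * νc =
        (ν₀ * νc * ((-1) ^ n * a)) * (nrm k E al * a) * nrm k E Nq * (ν₀ ^ 2 * a ^ 2)⁻¹ := by
      have h2 : (ν₀ * a) * (ν₀ * a) * (ν₀ ^ 2 * a ^ 2)⁻¹ = 1 := by
        rw [← mul_pow, ← pow_two, mul_inv_cancel]
      have h3 : ν₀⁻¹ * ν₀ = 1 := inv_mul_cancel ν₀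
      calc ν₀⁻¹ * ((-1) ^ n * nrm k E al) * nrm k E Nq * νc
          = ν₀⁻¹ * ((-1) ^ n * nrm k E al) * nrm k E Nq * νc *
              ((ν₀ * a) * (ν₀ * a) * (ν₀ ^ 2 * a ^ 2)⁻¹) := by rw [h2, mul_one]
        _ = (ν₀⁻¹ * ν₀) * ((ν₀ * νc * ((-1) ^ n * a)) * (nrm k E al * a) * nrm k E Nq *
              (ν₀ ^ 2 * a ^ 2)⁻¹) := by ac_rfl
        _ = _ := by rw [h3, one_mul]
    rw [h1]
    exact mul_mem (mul_mem (mul_mem ha halN) (Vale.Agent.P011.Two2.nrm_mem_NF hNqN))
      (inv_mem ⟨((ν₀ * a : kˣ) : k), 0, by push_cast; ring⟩))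
  have hdz : (f0 (j (γ : E))).det =
      algebraMap K (AlgebraicClosure K) (z' * star z') * (f0 c).det := by
    rw [hnorm, hνc0, ← map_mul, ← hz']
    congr 2
    have hNinv : Algebra.norm k (aeval g p₀)⁻¹ = (ν₀ : k)⁻¹ := by
      rw [← hNν]
      apply eq_inv_of_mul_eq_one_left
      rw [← map_mul, inv_mul_cancel₀ hg0, map_one]
    rw [hγ, Units.val_neg, neg_eq_neg_one_mul, Units.val_mul, Units.val_mul,
      Units.val_inv_eq_inv_val, Units.val_mk0, map_mul, map_mul, map_mul, hNinv, hN1,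
      Units.val_mul, Units.val_mul, Units.val_mul, Units.val_inv_eq_inv_val,
      Units.val_pow_eq_pow_val, Units.val_neg, Units.val_one]
    have e1 : ((nrm k E al : kˣ) : k) = Algebra.norm k (al : E) := rfl
    have e2 : ((nrm k E Nq : kˣ) : k) = Algebra.norm k (Nq : E) := rfl
    rw [e1, e2]
    ring
  obtain ⟨t, ht0, ht⟩ := hR1 (AlgebraicClosure K) f0 c (j (γ : E)) hcs (hstarj _) hc0
    hγ0 ⟨z', hz'0, hdz⟩ hcong'
  refine ⟨μ, t, ht0, hsum, ?_⟩
  have h1 : t * c * star t = j (γ : E) := by rw [← ht]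
  rw [h1, ← hval]
  abel

end Vale.Agent.P011.F3
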