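import Vale.Agent.P011.F3.Step
import Vale.Agent.P011.F3.ChooseQ
import Vale.Agent.P011.F3.Disc

/-!
The commuting step for orthogonal frames.
-/

open Module Matrix Polynomial NumberField IsDedekindDomain
open scoped ComplexOrder

set_option linter.unusedSectionVars false

namespace Vale.Agent.P011.F3

open Vale.Agent.P011.Arith Vale.Agent.P011.Even Vale.Agent.P011S Vale.Agent.P011.Two2
open Vale.Agent.P011.Two.Hi
open Vale.Agent.P011.RP (RData Complete Dense rowH)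

section

variable {K D : Type} [Field K] [NumberField K] [StarRing K] [DivisionRing D] [StarRing D]
  [Algebra K D] [StarModule K D] [FiniteDimensional K D] [Algebra.IsCentral K D] {n : ℕ}

/-- The signatures of the complement of the first vector do not depend on the frame. -/
theorem Fr.sig {R : RData K D n} {H : Matrix (Fin 3) (Fin 3) D} {hH : IsAnisotropicForm H}
    {e₁ e₂ e₃ e₂' e₃' : Fin 3 → D} (h : Fr (rowA H hH) e₁ e₂ e₃) (h' : Fr (rowA H hH) e₁ e₂' e₃')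
    {m₂ m₃ m₂' m₃' : ℕ} (h2 : HasSig R (rowH H e₂ e₂) m₂) (h3 : HasSig R (rowH H e₃ e₃) m₃)
    (h2' : HasSig R (rowH H e₂' e₂') m₂') (h3' : HasSig R (rowH H e₃' e₃') m₃') :
    m₂ + m₃ = m₂' + m₃' := by
  have horth : ∀ {e₂ e₃ : Fin 3 → D}, Fr (rowA H hH) e₁ e₂ e₃ →
      ∀ a b, a ≠ b → rowH H (![e₁, e₂, e₃] a) (![e₁, e₂, e₃] b) = 0 := by
    intro e₂ e₃ h a b hab
    have h12 : rowH H e₁ e₂ = 0 := h.h12
    have h21 : rowH H e₂ e₁ = 0 := (rowA H hH).orth_symm h.h12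
    have h31 : rowH H e₃ e₁ = 0 := h.h31
    have h13 : rowH H e₁ e₃ = 0 := (rowA H hH).orth_symm h.h31
    have h32 : rowH H e₃ e₂ = 0 := h.h32
    have h23 : rowH H e₂ e₃ = 0 := (rowA H hH).orth_symm h.h32
    fin_cases a <;> fin_cases b
    · exact absurd rfl hab
    · exact h12
    · exact h13
    · exact h21
    · exact absurd rfl hab
    · exact h23
    · exact h31
    · exact h32
    · exact absurd rfl hab
  obtain ⟨m₁, h1⟩ := hasSig_exists R (c := rowH H e₁ e₁) ((rowA H hH).star_h e₁ e₁) (by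
    have : rowH H e₁ e₁ = 1 := h.h11
    rw [this]
    exact one_ne_zero)
  have key := sig_sum R H (v := ![e₁, e₂, e₃]) (v' := ![e₁, e₂', e₃']) (horth h) (horth h')
    (M := ![m₁, m₂, m₃]) (M' := ![m₁, m₂', m₃'])
    (by
      intro a
      fin_cases a
      · exact h1
      · exact h2
      · exact h3)
    (by
      intro a
      fin_cases a
      · exact h1
      · exact h2'
      · exact h3')
  simp only [Fin.sum_univ_three, Matrix.cons_val_zero, Matrix.cons_val_one,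
    Matrix.cons_val_two, Matrix.head_cons, Matrix.tail_cons] at key
  omega

end

variable {k K D : Type} [Field k] [NumberField k] [Field K] [NumberField K] [StarRing K]
    [DivisionRing D] [StarRing D] [Algebra k K] [Algebra k D] [Algebra K D] [IsScalarTower k K D]
    {d : kˣ} {s : K} {n : ℕ}

/-- The commuting step for frames. -/
theorem step_main (hS : Setting k K D d s) (hn : 2 ≤ n) (hdeg : finrank K D = n ^ 2)
    {Ω : Type} [Field Ω] [Algebra K Ω] (f : D →ₐ[K] Matrix (Fin n) (Fin n) Ω)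
    {ι : Type} [Fintype ι] {R : ι → RData K D n} (hc : Complete R) (hd : Dense R)
    (hA : ∀ i, (R i).A.PosDef) {H : Matrix (Fin 3) (Fin 3) D} (hH : IsAnisotropicForm H)
    {Rel : (Fin 3 → D) → (Fin 3 → D) → Prop} (hRel : (rowA H hH).InvRel Rel)
    {e₁ e₂ e₃ : Fin 3 → D} (hfr : Fr (rowA H hH) e₁ e₂ e₃) {a : kˣ}
    (hcl : Cls d f (rowA H hH) ((-1) ^ n * a) e₂ e₃)
    {V : Set (HeightOneSpectrum (𝓞 k))} (hV : Ctrl d a V) (Nm : ι → ℕ)
    (hsig : ∀ i m₂ m₃, HasSig (R i) (rowH H e₂ e₂) m₂ → HasSig (R i) (rowH H e₃ e₃) m₃ →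
      m₂ + m₃ = Nm i)
    {x : D} (hx : star x = x) (hli : LinearIndependent k (fun i : Fin n => x ^ (i : ℕ)))
    {p₀ p₁ : k[X]} (h22 : rowH H e₂ e₂ = aeval x p₀) (hT0 : aeval x (TT p₀ p₁) ≠ 0)
    (hfin : ∀ v ∈ V, ∀ (E : Type) [Field E] [NumberField E] [Algebra k E] (θ : E),
      finrank k E = n → (minpoly k θ).natDegree = n → aeval x (minpoly k θ) = 0 →
      TotSplit E v ∧ ∃ w : HeightOneSpectrum (𝓞 E), Ab w v ∧
        ∀ u : Eˣ, (u : E) = aeval θ (TT p₀ p₁) → u ∉ LS (w.valuation E))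
    (hreal : ∀ φ : k →+* ℝ, φ d < 0 → ∃ ρ : Fin n → ℝ, Function.Injective ρ ∧
      (minpoly k x).map φ = ∏ i, (X - C (ρ i)) ∧
      ∀ i : ι, (∀ a, (R i).s (algebraMap k K a) = ((φ a : ℝ) : ℂ)) →
        (n ≤ Nm i ∧ ∀ j, 0 < (p₀.map φ).eval (ρ j) → ((TT p₀ p₁).map φ).eval (ρ j) < 0) ∨
        (Nm i ≤ n ∧ ∀ j, ¬ 0 < (p₀.map φ).eval (ρ j) → ((TT p₀ p₁).map φ).eval (ρ j) < 0))
    (hP : InP (rowA H hH) Rel (aeval x p₀)) :
    InP (rowA H hH) Rel (aeval x p₁) ∧ ∃ e₂' e₃' : Fin 3 → D, Fr (rowA H hH) e₁ e₂' e₃' ∧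
      rowH H e₂' e₂' = aeval x p₁ ∧ Cls d f (rowA H hH) ((-1) ^ n * a) e₂' e₃' := by
  classical
  have hn0 : 0 < n := by omega
  have := hS.fin
  have := hS.cen
  have : StarModule K D := ⟨hS.star_smul⟩
  obtain ⟨c, hcd⟩ : ∃ c, c = rowH H e₃ e₃ := ⟨_, rfl⟩
  have hcs : star c = c := by rw [hcd]; exact (rowA H hH).star_h e₃ e₃
  have hc0 : c ≠ 0 := by rw [hcd]; exact (rowA H hH).self_ne_zero hfr.e3
  have h0 : aeval x p₀ ≠ 0 := by rw [← h22]; exact (rowA H hH).self_ne_zero hfr.e2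
  have h0s : star (aeval x p₀) = aeval x p₀ := by
    rw [← h22]; exact (rowA H hH).star_h e₂ e₂
  -- the roots and the signs
  have hre : ∀ φ : k →+* ℝ, ∃ (ρ : Fin n → ℝ) (ε : Fin n → ℤˣ), φ d < 0 →
      Function.Injective ρ ∧ (minpoly k x).map φ = ∏ i, (X - C (ρ i)) ∧
      (∀ i : ι, (∀ a, (R i).s (algebraMap k K a) = ((φ a : ℝ) : ℂ)) →
        HasSig (R i) c (Fintype.card {j // ε j = 1})) ∧
      (∀ j, ε j = 1 → 0 < (p₀.map φ).eval (ρ j) → ((TT p₀ p₁).map φ).eval (ρ j) < 0) ∧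
      ∀ j, ε j = -1 → ¬ 0 < (p₀.map φ).eval (ρ j) → ((TT p₀ p₁).map φ).eval (ρ j) < 0 := by
    intro φ
    by_cases hφ : φ d < 0
    · obtain ⟨ρ, hρi, hρ, hdich⟩ := hreal φ hφ
      obtain ⟨i, hi⟩ := Two2.exists_above hS hn0 hdeg hc hφ
      obtain ⟨m₃, hm₃⟩ := hasSig_exists (R i) hcs hc0
      have hm₂ := hasSig_aeval hS hn0 hdeg (R i) hi (hA i) hx hli hρi hρ p₀
        (fun j => eval_ne_zero hS hn0 hdeg (R i) hi (hA i) hx hli hρi hρ h0 j)
      have hsum := hsig i _ m₃ (by rw [h22]; exact hm₂) (by rw [← hcd]; exact hm₃)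
      obtain ⟨ε, hε1, hε2, hε3⟩ := exists_eps (fun j => 0 < (p₀.map φ).eval (ρ j))
        (fun j => ((TT p₀ p₁).map φ).eval (ρ j) < 0) rfl hm₃.le (by
          rcases hdich i hi with ⟨h1, h2⟩ | ⟨h1, h2⟩
          · exact Or.inl ⟨by rw [hsum]; exact h1, h2⟩
          · exact Or.inr ⟨by rw [hsum]; exact h1, h2⟩)
      refine ⟨ρ, ε, fun _ => ⟨hρi, hρ, fun i' hi' => ?_, hε2, hε3⟩⟩
      obtain rfl : i = i' := Three.phi_inj hn0 hdeg hS hd hi hi'
      rw [hε1]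
      exact hm₃
    · exact ⟨fun _ => 0, fun _ => 1, fun h => absurd h hφ⟩
  choose ρ ε hρε using hre
  obtain ⟨q, hq0, hqc, hqs⟩ := exists_q hS hn0 hdeg hc hA hx hli (c := c) (ρ := ρ)
    (fun φ hφ => ⟨(hρε φ hφ).1, (hρε φ hφ).2.1⟩) ε
    (fun φ i hφ hi => (hρε φ hφ).2.2.1 i hi)
  obtain ⟨ν₀, hν₀⟩ := exists_nrd_unit hS hn0 hdeg f h0s h0
  obtain ⟨νc, hνc⟩ := exists_nrd_unit hS hn0 hdeg f hcs hc0
  have ha : ν₀ * νc * ((-1) ^ n * a) ∈ NF d := by
    refine hcl ν₀ νc ?_ ?_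
    · change (f (rowH H e₂ e₂)).det = _
      rw [h22]
      exact hν₀
    · change (f (rowH H e₃ e₃)).det = _
      rw [← hcd]
      exact hνc
  obtain ⟨μ, t, ht0, hμ, hval⟩ := cs_step hS hn hdeg f hc hx hli hcs hc0 (p₁ := p₁) h0 hq0 hT0
    hν₀ hνc ha hV hfin (fun φ hφ => by
      refine ⟨ρ φ, (hρε φ hφ).1, (hρε φ hφ).2.1, fun j hj => ?_⟩
      rw [Polynomial.map_mul, eval_mul] at hj
      have h1 := hqs φ hφ j
      rcases Int.units_eq_one_or (ε φ j) with h5 | h5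
      · rw [h5, Units.val_one, Int.cast_one, one_mul] at h1
        exact (hρε φ hφ).2.2.2.1 j h5 ((mul_pos_iff_of_pos_left h1).mp hj)
      · rw [h5] at h1
        simp only [Units.val_neg, Units.val_one, Int.cast_neg, Int.cast_one, neg_mul,
          one_mul] at h1
        refine (hρε φ hφ).2.2.2.2 j h5 fun h2 => ?_
        have := mul_neg_of_neg_of_pos (by linarith : (q.map φ).eval (ρ φ j) < 0) h2
        linarith) hqc
  have h1' : (1 : D) + aeval x p₀ ≠ 0 := by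
    intro h1
    have h3 : (rowA H hH).h (e₁ + e₂) (e₁ + e₂) = 0 := by
      rw [(rowA H hH).add_left, (rowA H hH).add_right, (rowA H hH).add_right, hfr.h11, hfr.h12,
        (rowA H hH).orth_symm hfr.h12, add_zero, zero_add]
      change 1 + rowH H e₂ e₂ = 0
      rw [h22]
      exact h1
    have h4 := (rowA H hH).anis h3
    have h5 : (rowA H hH).h (e₁ + e₂) e₁ = 1 := by
      rw [(rowA H hH).add_left, hfr.h11, (rowA H hH).orth_symm hfr.h12, add_zero]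
    rw [h4, (rowA H hH).zero_left] at h5
    exact zero_ne_one h5
  obtain ⟨e₃', hfr', hlen, hcl'⟩ := hfr.step_cls hS hn0 hdeg f hcl (μ * (aeval x p₀)⁻¹) ht0
  refine ⟨?_, (μ * (aeval x p₀)⁻¹) • e₂ + t • e₃, e₃', hfr', ?_, hcl'⟩
  · rw [hval, hcd]
    exact rel_step hRel hP hfr.h11 h22 hfr.h12 hfr.h31 hfr.h32 h0 h1' hμ t
  · have h2 : (rowA H hH).h e₂ e₂ = aeval x p₀ := h22
    have h3 : (rowA H hH).h e₃ e₃ = c := hcd.symm
    change (rowA H hH).h _ _ = _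
    rw [hlen, h2, h3, hval, star_mul, star_inv₀, h0s, inv_mul_cancel_right₀ h0, mul_assoc μ]

end Vale.Agent.P011.F3
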